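import Vale.Agent.P229.Prof
import Vale.Agent.P229.Interface

/-!
# P229 block F3: algebra of the bump term (helper66)
-/

namespace P229

open Set Real Function

theorem F3_mul {a b A B : ℝ} (ha : |a| ≤ A) (hb : |b| ≤ B) : |a * b| ≤ A * B := by
  rw [abs_mul]
  exact mul_le_mul ha hb (abs_nonneg _) ((abs_nonneg _).trans ha)

theorem F3_add {a b A B : ℝ} (ha : |a| ≤ A) (hb : |b| ≤ B) : |a + b| ≤ A + B :=
  (abs_add_le _ _).trans (add_le_add ha hb)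

theorem F3_sub {a b A B : ℝ} (ha : |a| ≤ A) (hb : |b| ≤ B) : |a - b| ≤ A + B := by
  rw [sub_eq_add_neg]
  exact F3_add ha (by rwa [abs_neg])

theorem F3_fin (C1 K Ck : ℝ) (hC1 : 0 ≤ C1) (hK : 1 ≤ K) (hCk : 1 ≤ Ck) :
    2 * ((4 * K + 2 * K * Ck) * 1) + (4 * K + 2 * K * Ck) * (K + 2 * Ck * K) * 2 +
      (C1 + 2 * K ^ 2 + 16 * K ^ 2) * (1 * 2) +
      (2 * (C1 + 2 * K ^ 2) + (4 + 4 * K ^ 2)) * Ck * 2 + 1 + (4 * Ck + 2 * K * Ck) ≤
      100 * K ^ 2 * Ck ^ 2 * (C1 + 10) * 100 := by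
  have k1 : K ≤ K ^ 2 := by nlinarith
  have k2 : 1 ≤ K ^ 2 := by nlinarith
  have c1 : Ck ≤ Ck ^ 2 := by nlinarith
  have c2 : 1 ≤ Ck ^ 2 := by nlinarith
  have kc : K * Ck ≤ K ^ 2 * Ck ^ 2 := mul_le_mul k1 c1 (by linarith) (by linarith)
  have kb : K * 1 ≤ K ^ 2 * Ck ^ 2 := mul_le_mul k1 c2 (by linarith) (by linarith)
  have cb : 1 * Ck ≤ K ^ 2 * Ck ^ 2 := mul_le_mul k2 c1 (by linarith) (by linarith)
  have ab1 : 1 * 1 ≤ K ^ 2 * Ck ^ 2 := mul_le_mul k2 c2 (by linarith) (by linarith)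
  have ac : K ^ 2 * Ck ≤ K ^ 2 * Ck ^ 2 := mul_le_mul_of_nonneg_left c1 (by linarith)
  have aab : K ^ 2 * 1 ≤ K ^ 2 * Ck ^ 2 := mul_le_mul_of_nonneg_left c2 (by linarith)
  have exp : (4 * K + 2 * K * Ck) * (K + 2 * Ck * K) * 2 =
      8 * K ^ 2 + 20 * (K ^ 2 * Ck) + 8 * (K ^ 2 * Ck ^ 2) := by ring
  have CC : C1 * (1 * Ck) ≤ C1 * (K ^ 2 * Ck ^ 2) := mul_le_mul_of_nonneg_left cb hC1
  have CC1 : C1 * (1 * 1) ≤ C1 * (K ^ 2 * Ck ^ 2) := mul_le_mul_of_nonneg_left ab1 hC1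
  rw [exp]
  have e2 : (2 * (C1 + 2 * K ^ 2) + (4 + 4 * K ^ 2)) * Ck * 2 =
      4 * (C1 * Ck) + 16 * (K ^ 2 * Ck) + 8 * Ck := by ring
  rw [e2]
  have e3 : 100 * K ^ 2 * Ck ^ 2 * (C1 + 10) * 100 =
      10000 * (C1 * (K ^ 2 * Ck ^ 2)) + 100000 * (K ^ 2 * Ck ^ 2) := by ring
  rw [e3]
  linarith

/-- the algebraic core, bounds -/
theorem F3_core1 (R L e K Ck mu C1 v0 v1 w0 w1 p uy B B0 : ℝ)
    (hR0 : 0 < R) (hR1 : R ≤ 1 / 4) (hL0 : 0 < L) (hL1 : L ≤ 1 / 2) (he0 : 0 ≤ e) (he1 : e ≤ 1)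
    (hK : 1 ≤ K) (hCk : 1 ≤ Ck) (hmu : |mu| ≤ C1)
    (hv0 : |v0| ≤ L ^ 2) (hv1 : |v1| ≤ 2 * L)
    (hw0 : |w0| ≤ e * L ^ 2) (hw1 : |w1| ≤ Ck * e * L)
    (hp : |p| ≤ 2 * L) (huy : |uy| ≤ K * L)
    (hB0 : B0 = 1 + R * v0) (hB : B = 1 + R * (v0 + w0)) :
    |R * v1 * (-uy / B0) - R * (v1 + w1) * (-uy / B)| ≤ (4 * K + 2 * K * Ck) * (R * L ^ 2 * e) ∧
    |R * v1 * (-uy / B0)| ≤ K ∧ |R * (v1 + w1) * (-uy / B)| ≤ 2 * Ck * K ∧
    |B0 * (mu - R * (p ^ 2 + (-uy / B0) ^ 2)) - B * (mu - R * (p ^ 2 + (-uy / B) ^ 2))| ≤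
      (C1 + 2 * K ^ 2 + 16 * K ^ 2) * (R * L ^ 2 * e) ∧
    |B * (mu - R * (p ^ 2 + (-uy / B) ^ 2)) - mu| ≤
      (2 * (C1 + 2 * K ^ 2) + (4 + 4 * K ^ 2)) * (R * L ^ 2) ∧
    |-uy / B| ≤ K * L * 2 ∧ |B| ≤ 2 ∧ |B - B0| ≤ R * L ^ 2 * e := by
  have hC1 : 0 ≤ C1 := (abs_nonneg _).trans hmu
  set M := R * L ^ 2 * e with hM
  have hM0 : 0 ≤ M := by positivity
  have hKL0 : K * L ≤ K * (1 / 2) := mul_le_mul_of_nonneg_left hL1 (by linarith)
  have hKL : K * L * 2 ≤ K := by linarith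
  have hRL1 : R * L ≤ 1 / 4 * (1 / 2) := mul_le_mul hR1 hL1 hL0.le (by norm_num)
  have hCeL : Ck * e * L ≤ Ck := by
    have h1 : e * L ≤ 1 * (1 / 2) := mul_le_mul he1 hL1 hL0.le (by norm_num)
    have h2 := mul_le_mul_of_nonneg_left h1 (by linarith : (0 : ℝ) ≤ Ck)
    linarith
  have hL2 : L ^ 2 ≤ 1 / 4 := by nlinarith
  have heL : e * L ^ 2 ≤ 1 / 4 := by nlinarith [sq_nonneg L]
  have hvw : |v0 + w0| ≤ L ^ 2 + L ^ 2 := F3_add hv0 (hw0.trans (by nlinarith [sq_nonneg L]))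
  have hRv : |R| ≤ R := le_of_eq (abs_of_pos hR0)
  have b0a : |B0 - 1| ≤ R * L ^ 2 := by
    rw [hB0, add_sub_cancel_left]; exact F3_mul hRv hv0
  have ba : |B - 1| ≤ R * (L ^ 2 + L ^ 2) := by
    rw [hB, add_sub_cancel_left]; exact F3_mul hRv hvw
  have hRL : R * L ^ 2 ≤ 1 / 16 := by nlinarith [sq_nonneg L]
  have hB0l : 1 / 2 ≤ B0 := by have := (abs_le.1 b0a).1; linarith
  have hB0u : B0 ≤ 2 := by have := (abs_le.1 b0a).2; linarith
  have hBl : 1 / 2 ≤ B := by have := (abs_le.1 ba).1; linarith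
  have hBu : B ≤ 2 := by have := (abs_le.1 ba).2; linarith
  have hB0p : 0 < B0 := by linarith
  have hBp : 0 < B := by linarith
  have aB0 : |B0| ≤ 2 := by rw [abs_of_pos hB0p]; exact hB0u
  have aB : |B| ≤ 2 := by rw [abs_of_pos hBp]; exact hBu
  have hBB : |B - B0| ≤ M := by
    have : B - B0 = R * w0 := by rw [hB, hB0]; ring
    rw [this]
    refine (F3_mul hRv hw0).trans (le_of_eq ?_)
    rw [hM]; ring
  -- q
  set q0 := -uy / B0 with hq0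
  set q := -uy / B with hq
  have inv0 : |B0⁻¹| ≤ 2 := by
    rw [abs_of_pos (inv_pos.2 hB0p), inv_le_comm₀ hB0p (by norm_num)]; linarith
  have inv1 : |B⁻¹| ≤ 2 := by
    rw [abs_of_pos (inv_pos.2 hBp), inv_le_comm₀ hBp (by norm_num)]; linarith
  have aq0 : |q0| ≤ K * L * 2 := by
    rw [hq0, div_eq_mul_inv]
    exact F3_mul (by rwa [abs_neg]) inv0
  have aq : |q| ≤ K * L * 2 := by
    rw [hq, div_eq_mul_inv]
    exact F3_mul (by rwa [abs_neg]) inv1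
  have dq : |q0 - q| ≤ 4 * K * M := by
    have : q0 - q = -uy * (B0⁻¹ * B⁻¹) * (B - B0) := by
      rw [hq0, hq]; field_simp; ring
    rw [this]
    have h1 : |-uy * (B0⁻¹ * B⁻¹)| ≤ K * L * (2 * 2) :=
      F3_mul (by rwa [abs_neg]) (F3_mul inv0 inv1)
    refine (F3_mul h1 hBB).trans ?_
    have : K * L * (2 * 2) ≤ 4 * K := by linarith
    exact mul_le_mul_of_nonneg_right this hM0
  -- tau
  set t0 := R * v1 * q0 with ht0
  set t := R * (v1 + w1) * q with ht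
  have at0 : |t0| ≤ K := by
    rw [ht0]
    refine (F3_mul (F3_mul hRv hv1) aq0).trans ?_
    have h1 : R * (2 * L) ≤ 1 := by linarith
    have h2 : 0 ≤ K * L * 2 := by positivity
    have h3 := mul_le_mul_of_nonneg_right h1 h2
    linarith
  have hvw1 : |v1 + w1| ≤ 2 * L + Ck * e * L := F3_add hv1 hw1
  have hvw1' : 2 * L + Ck * e * L ≤ 2 * Ck := by linarith
  have at1 : |t| ≤ 2 * Ck * K := by
    rw [ht]
    refine (F3_mul (F3_mul hRv (hvw1.trans hvw1')) (aq.trans hKL)).trans ?_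
    have h1 : R * (2 * Ck) ≤ 1 * (2 * Ck) := mul_le_mul_of_nonneg_right (by linarith) (by linarith)
    rw [one_mul] at h1
    exact mul_le_mul_of_nonneg_right h1 (by linarith)
  have dt : |t0 - t| ≤ (4 * K + 2 * K * Ck) * M := by
    have : t0 - t = R * (v1 * (q0 - q)) - R * (w1 * q) := by rw [ht0, ht]; ring
    rw [this]
    refine (F3_sub (F3_mul hRv (F3_mul hv1 dq)) (F3_mul hRv (F3_mul hw1 aq))).trans ?_
    have e1 : R * (2 * L * (4 * K * M)) ≤ 4 * K * M := by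
      have h1 : R * (2 * L) ≤ 1 := by linarith
      have h2 : 0 ≤ 4 * K * M := by positivity
      have h3 := mul_le_mul_of_nonneg_right h1 h2
      linarith
    have e2 : R * (Ck * e * L * (K * L * 2)) = 2 * K * Ck * M := by rw [hM]; ring
    rw [e2]
    linarith
  -- varpi
  set om0 := mu - R * (p ^ 2 + q0 ^ 2) with hom0
  set om1 := mu - R * (p ^ 2 + q ^ 2) with hom1
  have pp2 : |p ^ 2| ≤ (2 * L) * (2 * L) := by rw [sq]; exact F3_mul hp hp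
  have qq0 : |q0 ^ 2| ≤ (K * L * 2) * (K * L * 2) := by rw [sq]; exact F3_mul aq0 aq0
  have qq : |q ^ 2| ≤ (K * L * 2) * (K * L * 2) := by rw [sq]; exact F3_mul aq aq
  have sml : (2 * L) * (2 * L) + (K * L * 2) * (K * L * 2) ≤ 2 * K ^ 2 := by
    have h1 : (2 * L) * (2 * L) ≤ 1 * 1 := mul_le_mul (by linarith) (by linarith) (by linarith) (by norm_num)
    have h2 : (K * L * 2) * (K * L * 2) ≤ K * K := mul_le_mul hKL hKL (by positivity) (by linarith)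
    have h3 : 1 * 1 ≤ K * K := mul_le_mul hK hK (by norm_num) (by linarith)
    rw [sq]; linarith
  have aom0 : |om0| ≤ C1 + 2 * K ^ 2 := by
    rw [hom0]
    refine F3_sub hmu ?_
    refine (F3_mul hRv (F3_add pp2 qq0)).trans ?_
    have h2 : 0 ≤ (2 * L) * (2 * L) + (K * L * 2) * (K * L * 2) := by positivity
    have h3 := mul_le_mul_of_nonneg_right (by linarith : R ≤ 1) h2
    linarith
  have aom1 : |om1| ≤ C1 + 2 * K ^ 2 := by
    rw [hom1]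
    refine F3_sub hmu ?_
    refine (F3_mul hRv (F3_add pp2 qq)).trans ?_
    have h2 : 0 ≤ (2 * L) * (2 * L) + (K * L * 2) * (K * L * 2) := by positivity
    have h3 := mul_le_mul_of_nonneg_right (by linarith : R ≤ 1) h2
    linarith
  have dom1 : |om0 - om1| ≤ 8 * K ^ 2 * M := by
    have : om0 - om1 = -(R * ((q0 - q) * (q0 + q))) := by rw [hom0, hom1]; ring
    rw [this, abs_neg]
    refine (F3_mul hRv (F3_mul dq (F3_add (aq0.trans hKL) (aq.trans hKL)))).trans ?_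
    have h2 : 0 ≤ 4 * K * M * (K + K) := by positivity
    have h3 := mul_le_mul_of_nonneg_right (by linarith : R ≤ 1) h2
    have h4 : 1 * (4 * K * M * (K + K)) = 8 * K ^ 2 * M := by ring
    linarith
  have dom1μ : |om1 - mu| ≤ (4 + 4 * K ^ 2) * (R * L ^ 2) := by
    have : om1 - mu = -(R * (p ^ 2 + q ^ 2)) := by rw [hom1]; ring
    rw [this, abs_neg]
    refine (F3_mul hRv (F3_add pp2 qq)).trans (le_of_eq ?_)
    ring
  have dBom1 : |B0 * om0 - B * om1| ≤ (C1 + 2 * K ^ 2 + 16 * K ^ 2) * M := by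
    have : B0 * om0 - B * om1 = -((B - B0) * om0) + B * (om0 - om1) := by ring
    rw [this]
    have hneg : |-((B - B0) * om0)| ≤ M * (C1 + 2 * K ^ 2) := by
      rw [abs_neg]; exact F3_mul hBB aom0
    refine (F3_add hneg (F3_mul aB dom1)).trans (le_of_eq ?_)
    ring
  have dBom1μ : |B * om1 - mu| ≤ (2 * (C1 + 2 * K ^ 2) + (4 + 4 * K ^ 2)) * (R * L ^ 2) := by
    have : B * om1 - mu = (B - 1) * om1 + (om1 - mu) := by ring
    rw [this]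
    refine (F3_add (F3_mul ba aom1) dom1μ).trans (le_of_eq ?_)
    ring
  exact ⟨dt, at0, at1, dBom1, dBom1μ, aq, aB, hBB⟩

/-- the algebraic core -/
theorem F3_core (R L e K Ck mu C1 v0 v1 v2 w0 w1 w2 w3 p uy uyy upp upy B B0 : ℝ)
    (hR0 : 0 < R) (hR1 : R ≤ 1 / 4) (hL0 : 0 < L) (hL1 : L ≤ 1 / 2) (he0 : 0 ≤ e) (he1 : e ≤ 1)
    (hK : 1 ≤ K) (hCk : 1 ≤ Ck) (hmu : |mu| ≤ C1)
    (hv0 : |v0| ≤ L ^ 2) (hv1 : |v1| ≤ 2 * L) (hv2 : |v2| ≤ 1)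
    (hw0 : |w0| ≤ e * L ^ 2) (hw1 : |w1| ≤ Ck * e * L) (hw2 : |w2| ≤ Ck * e)
    (hw3 : |w3| ≤ Ck * e * L) (hp : |p| ≤ 2 * L) (huy : |uy| ≤ K * L) (hupp : |upp| ≤ 2)
    (hupy : |upy| ≤ 1) (hB0 : B0 = 1 + R * v0) (hB : B = 1 + R * (v0 + w0)) :
    |(uyy + 2 * (R * v1 * (-uy / B0)) * upy + (R * v1 * (-uy / B0)) ^ 2 * upp
        - B0 * (mu - R * (p ^ 2 + (-uy / B0) ^ 2)) * v2 * upp
        + R * ((-uy / B0) * 0 - B0 * p * v1))
      - (uyy + 2 * (R * (v1 + w1) * (-uy / B)) * upy + (R * (v1 + w1) * (-uy / B)) ^ 2 * upp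
        - B * (mu - R * (p ^ 2 + (-uy / B) ^ 2)) * (v2 + w2) * upp
        + R * ((-uy / B) * (0 + w3) - B * p * (v1 + w1)))
      - mu * w2 * upp|
      ≤ (100 * K ^ 2 * Ck ^ 2 * (C1 + 10) * 100) * (R * L ^ 2 * e) := by
  have hC1 : 0 ≤ C1 := (abs_nonneg _).trans hmu
  obtain ⟨dt, at0, at1, dB, dBm, aq, aB, hBB⟩ := F3_core1 R L e K Ck mu C1 v0 v1 w0 w1 p uy B B0
    hR0 hR1 hL0 hL1 he0 he1 hK hCk hmu hv0 hv1 hw0 hw1 hp huy hB0 hB
  generalize R * v1 * (-uy / B0) = t0 at *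
  generalize R * (v1 + w1) * (-uy / B) = t at *
  generalize hom0 : mu - R * (p ^ 2 + (-uy / B0) ^ 2) = om0 at *
  generalize hom1 : mu - R * (p ^ 2 + (-uy / B) ^ 2) = om1 at *
  generalize -uy / B0 = q0 at *
  generalize -uy / B = q at *
  clear hom0 hom1 hB0 hB huy hmu hv0 hw0
  have hRv : |R| ≤ R := le_of_eq (abs_of_pos hR0)
  have total : (uyy + 2 * t0 * upy + t0 ^ 2 * upp - B0 * om0 * v2 * upp
        + R * (q0 * 0 - B0 * p * v1))
      - (uyy + 2 * t * upy + t ^ 2 * upp - B * om1 * (v2 + w2) * upp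
        + R * (q * (0 + w3) - B * p * (v1 + w1)))
      - mu * w2 * upp =
      2 * ((t0 - t) * upy) + (t0 - t) * (t0 + t) * upp - (B0 * om0 - B * om1) * (v2 * upp)
        + (B * om1 - mu) * w2 * upp + R * ((B - B0) * (p * v1)) + R * (B * (p * w1) - q * w3) := by
    ring
  rw [total]
  set M := R * L ^ 2 * e with hM
  have hM0 : 0 ≤ M := by positivity
  have T1 : |2 * ((t0 - t) * upy)| ≤ 2 * ((4 * K + 2 * K * Ck) * M * 1) :=
    F3_mul (by norm_num) (F3_mul dt hupy)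
  have T2 : |(t0 - t) * (t0 + t) * upp| ≤ (4 * K + 2 * K * Ck) * M * (K + 2 * Ck * K) * 2 :=
    F3_mul (F3_mul dt (F3_add at0 at1)) hupp
  have T3 : |(B0 * om0 - B * om1) * (v2 * upp)| ≤ (C1 + 2 * K ^ 2 + 16 * K ^ 2) * M * (1 * 2) :=
    F3_mul dB (F3_mul hv2 hupp)
  have T4 : |(B * om1 - mu) * w2 * upp| ≤
      (2 * (C1 + 2 * K ^ 2) + (4 + 4 * K ^ 2)) * (R * L ^ 2) * (Ck * e) * 2 :=
    F3_mul (F3_mul dBm hw2) hupp
  have T4' : (2 * (C1 + 2 * K ^ 2) + (4 + 4 * K ^ 2)) * (R * L ^ 2) * (Ck * e) * 2 =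
      (2 * (C1 + 2 * K ^ 2) + (4 + 4 * K ^ 2)) * Ck * 2 * M := by rw [hM]; ring
  have T5 : |R * ((B - B0) * (p * v1))| ≤ R * (M * (2 * L * (2 * L))) :=
    F3_mul hRv (F3_mul hBB (F3_mul hp hv1))
  have T5' : R * (M * (2 * L * (2 * L))) ≤ M := by
    have h0 : R * L ^ 2 ≤ 1 / 4 * (1 / 2) ^ 2 :=
      mul_le_mul hR1 (pow_le_pow_left₀ hL0.le hL1 2) (by positivity) (by norm_num)
    have h1 : R * (2 * L * (2 * L)) ≤ 1 := by
      have : R * (2 * L * (2 * L)) = 4 * (R * L ^ 2) := by ring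
      linarith
    have h3 := mul_le_mul_of_nonneg_right h1 hM0
    have h4 : R * (M * (2 * L * (2 * L))) = R * (2 * L * (2 * L)) * M := by ring
    linarith
  have T6 : |R * (B * (p * w1) - q * w3)| ≤
      R * (2 * (2 * L * (Ck * e * L)) + K * L * 2 * (Ck * e * L)) :=
    F3_mul hRv (F3_sub (F3_mul aB (F3_mul hp hw1)) (F3_mul aq hw3))
  have T6' : R * (2 * (2 * L * (Ck * e * L)) + K * L * 2 * (Ck * e * L)) =
      (4 * Ck + 2 * K * Ck) * M := by rw [hM]; ring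
  have S := F3_add (F3_add (F3_add (F3_sub (F3_add T1 T2) T3) T4) T5) T6
  refine S.trans ?_
  rw [T4', T6']
  have hfin := F3_fin C1 K Ck hC1 hK hCk
  have h9 := mul_le_mul_of_nonneg_right hfin hM0
  have h10 : 2 * ((4 * K + 2 * K * Ck) * M * 1) + (4 * K + 2 * K * Ck) * M * (K + 2 * Ck * K) * 2 +
      (C1 + 2 * K ^ 2 + 16 * K ^ 2) * M * (1 * 2) +
      (2 * (C1 + 2 * K ^ 2) + (4 + 4 * K ^ 2)) * Ck * 2 * M + M + (4 * Ck + 2 * K * Ck) * M =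
      (2 * ((4 * K + 2 * K * Ck) * 1) + (4 * K + 2 * K * Ck) * (K + 2 * Ck * K) * 2 +
      (C1 + 2 * K ^ 2 + 16 * K ^ 2) * (1 * 2) +
      (2 * (C1 + 2 * K ^ 2) + (4 + 4 * K ^ 2)) * Ck * 2 + 1 + (4 * Ck + 2 * K * Ck)) * M := by
    ring
  rw [← h10] at h9
  refine le_trans ?_ h9
  linarith

/-- basic facts on the parameters -/
theorem F3_par (P : Par) (hr0 : 0 < P.r) (hr : P.r ≤ 1 / 2) :
    0 < P.lam ∧ P.lam ≤ 1 / 2 ∧ 0 ≤ P.epsc ∧ P.epsc ≤ 1 ∧ 0 ≤ P.eta ∧ P.eta ≤ 1 ∧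
      P.r ^ 2 ≤ 1 / 4 := by
  have hr1 : P.r ≤ 1 := by linarith
  refine ⟨by unfold Par.lam; positivity, ?_, by unfold Par.epsc; positivity,
    pow_le_one₀ hr0.le hr1, by unfold Par.eta; positivity, pow_le_one₀ hr0.le hr1, ?_⟩
  · calc P.r ^ (10 * P.k + 2) ≤ P.r ^ 1 := pow_le_pow_of_le_one hr0.le hr1 (by omega)
      _ ≤ 1 / 2 := by rw [pow_one]; exact hr
  · have := pow_le_pow_left₀ hr0.le hr 2
    norm_num at this ⊢
    exact this

/-- values of the profiles on the bump -/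
theorem F3_vals (P : Par) {Ck : ℝ} (hk1 : ∀ y, |deriv kk y| ≤ Ck)
    (hk2 : ∀ y, |deriv (deriv kk) y| ≤ Ck) (hr0 : 0 < P.r) (hr : P.r ≤ 1 / 2) {x y : ℝ}
    (hx : |x| < P.lam) (hyl : |y| < P.lam) :
    |b0 P x y| ≤ P.lam ^ 2 ∧ |b0x P x y| ≤ 2 * P.lam ∧ |b0xx P x y| ≤ 1 ∧ b0y P x y = 0 ∧
    |bb P x y| ≤ P.eta * P.epsc * P.lam ^ 2 ∧ |bbx P x y| ≤ Ck * (P.eta * P.epsc) * P.lam ∧
    |bbxx P x y| ≤ Ck * (P.eta * P.epsc) ∧ |bby P x y| ≤ Ck * (P.eta * P.epsc) * P.lam := by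
  obtain ⟨hl0, hl1, hec0, hec1, heta0, heta1, -⟩ := F3_par P hr0 hr
  have he0 : 0 ≤ P.eta * P.epsc := mul_nonneg heta0 hec0
  have hyh : |y| < 1 / 2 := lt_of_lt_of_le hyl hl1
  have hxh : |x| ≤ 1 / 2 := hx.le.trans hl1
  have hchi : chi y = 0 := chi_eq_zero (by linarith)
  have hdchi : deriv chi y = 0 := deriv_chi_eq_zero (by linarith)
  have hkk : kk y = 1 := kk_eq_one hyh.le
  have hdkk : deriv kk y = 0 := by
    have h1 : kk =ᶠ[nhds y] fun _ => (1 : ℝ) := by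
      have h2 : ∀ᶠ t in nhds y, |t| < 1 / 2 := (continuous_abs.tendsto y).eventually
        (gt_mem_nhds hyh)
      filter_upwards [h2] with t ht
      exact kk_eq_one ht.le
    rw [h1.deriv_eq, deriv_const]
  have hx2 : x ^ 2 ≤ P.lam ^ 2 := by
    rw [← sq_abs x]; exact pow_le_pow_left₀ (abs_nonneg _) hx.le 2
  have hx21 : x ^ 2 ≤ 1 := by
    rw [← sq_abs x]; nlinarith [abs_nonneg x]
  have hx20 : 0 ≤ x ^ 2 := sq_nonneg x
  have v0 : |b0 P x y| ≤ P.lam ^ 2 := by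
    have : b0 P x y = P.epsc * (x ^ 2 * (1 / 2 - x ^ 2 / 12)) := by
      unfold b0; rw [hchi, hkk]; ring
    rw [this, abs_of_nonneg (mul_nonneg hec0 (mul_nonneg hx20 (by linarith)))]
    have h1 : x ^ 2 * (1 / 2 - x ^ 2 / 12) ≤ x ^ 2 * 1 :=
      mul_le_mul_of_nonneg_left (by linarith) hx20
    have h2 : 0 ≤ x ^ 2 * (1 / 2 - x ^ 2 / 12) := mul_nonneg hx20 (by linarith)
    calc P.epsc * (x ^ 2 * (1 / 2 - x ^ 2 / 12)) ≤ 1 * (x ^ 2 * (1 / 2 - x ^ 2 / 12)) :=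
          mul_le_mul_of_nonneg_right hec1 h2
      _ ≤ P.lam ^ 2 := by linarith
  have v1 : |b0x P x y| ≤ 2 * P.lam := by
    have : b0x P x y = P.epsc * (x * (1 - x ^ 2 / 3)) := by
      unfold b0x; rw [hchi, hkk]; ring
    rw [this]
    have h1 : |x * (1 - x ^ 2 / 3)| ≤ P.lam * 2 := by
      refine F3_mul hx.le ?_
      rw [abs_le]; constructor <;> linarith
    have h2 : |P.epsc| ≤ 1 := by rw [abs_of_nonneg hec0]; exact hec1
    exact (F3_mul h2 h1).trans (by linarith)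
  have v2 : |b0xx P x y| ≤ 1 := by
    have : b0xx P x y = P.epsc * (1 - x ^ 2) := by
      unfold b0xx; rw [hchi, hkk]; ring
    rw [this]
    have h2 : |P.epsc| ≤ 1 := by rw [abs_of_nonneg hec0]; exact hec1
    have h3 : |1 - x ^ 2| ≤ 1 := by rw [abs_le]; constructor <;> linarith
    exact (F3_mul h2 h3).trans (by norm_num)
  have by0 : b0y P x y = 0 := by unfold b0y; rw [hdchi, hdkk]; ring
  have akk : ∀ t, |kk t| ≤ 1 := fun t => by rw [abs_of_nonneg (kk_nonneg t)]; exact kk_le_one t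
  have ae : |P.eta * P.epsc| ≤ P.eta * P.epsc := le_of_eq (abs_of_nonneg he0)
  have al : |P.lam| ≤ P.lam := le_of_eq (abs_of_pos hl0)
  have w0 : |bb P x y| ≤ P.eta * P.epsc * P.lam ^ 2 := by
    have h1 : |P.lam ^ 2| ≤ P.lam ^ 2 := le_of_eq (abs_of_nonneg (by positivity))
    have := F3_mul (F3_mul (F3_mul ae h1) (akk (x / P.lam))) (akk (y / P.lam))
    unfold bb
    refine this.trans (le_of_eq ?_)
    ring
  have w1 : |bbx P x y| ≤ Ck * (P.eta * P.epsc) * P.lam := by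
    have := F3_mul (F3_mul (F3_mul ae al) (hk1 (x / P.lam))) (akk (y / P.lam))
    unfold bbx
    refine this.trans (le_of_eq ?_)
    ring
  have w2 : |bbxx P x y| ≤ Ck * (P.eta * P.epsc) := by
    have := F3_mul (F3_mul ae (hk2 (x / P.lam))) (akk (y / P.lam))
    unfold bbxx
    refine this.trans (le_of_eq ?_)
    ring
  have w3 : |bby P x y| ≤ Ck * (P.eta * P.epsc) * P.lam := by
    have := F3_mul (F3_mul (F3_mul ae al) (akk (x / P.lam))) (hk1 (y / P.lam))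
    unfold bby
    refine this.trans (le_of_eq ?_)
    ring
  exact ⟨v0, v1, v2, by0, w0, w1, w2, w3⟩

end P229
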