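import Vale.Agent.P229.F.Basic
import Vale.Agent.P229.C.Calc

/-! # P229, block F: two integrations by parts in `p` (helper17) -/

namespace P229

open Set Real MeasureTheory

noncomputable section

theorem bparts_q1_cont {W Cz om : ℝ} {z z1 z2 : ℝ → ℝ} (h : FCut W Cz z z1 z2) :
    Continuous (q1 om z z1) := by
  have h1 := h.cz
  have h2 := h.cz1
  unfold q1
  fun_prop

theorem bparts_q2_cont {W Cz om : ℝ} {z z1 z2 : ℝ → ℝ} (h : FCut W Cz z z1 z2) :
    Continuous (q2 om z z1 z2) := by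
  have h1 := h.cz
  have h2 := h.cz1
  have h3 := h.cz2
  unfold q2
  fun_prop

theorem bparts_point {W Cz om ρ a p Fp Ap A1p : ℝ} {z z1 z2 : ℝ → ℝ} (hz : FCut W Cz z z1 z2)
    (hom : 0 < om) (hF0 : 0 ≤ Fp) (hAb : |Ap - 1| ≤ 1 / 100) (hA1b : |A1p| ≤ a)
    (hsupp : ρ < |p| → Fp = 0) (hρ : ρ ≤ 2 * W) (homρ : om * ρ ≤ 1 / 2) (haρ : a * ρ ≤ 1 / 10)
    (ha0 : 0 ≤ a) :
    (q2 om z z1 z2 p / Ap - q1 om z z1 p * A1p / Ap ^ 2) * Fp ≤ -(om ^ 2 / 4) * Fp := by
  by_cases hp : ρ < |p|
  · rw [hsupp hp, mul_zero, mul_zero]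
  · push Not at hp
    obtain ⟨e1, e2, e3⟩ := hz.one p (hp.trans hρ)
    apply mul_le_mul_of_nonneg_right _ hF0
    have hA := abs_le.1 hAb
    have hApos : 0 < Ap := by linarith
    have hA2 : 0 < Ap ^ 2 := by positivity
    unfold q2 q1
    rw [e1, e2, e3]
    have h1 : (-(om ^ 2 * Real.cos (om * p) * 1) - 2 * om * Real.sin (om * p) * 0 + Real.cos (om * p) * 0) / Ap
        - (-(om * Real.sin (om * p) * 1) + Real.cos (om * p) * 0) * A1p / Ap ^ 2 =
        (-(om ^ 2 * Real.cos (om * p)) * Ap + om * Real.sin (om * p) * A1p) / Ap ^ 2 := by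
      field_simp
      ring
    rw [h1, div_le_iff₀ hA2]
    have hθ : |om * p| ≤ 1 / 2 := by
      rw [abs_mul, abs_of_pos hom]
      exact (mul_le_mul_of_nonneg_left hp hom.le).trans homρ
    have hcos : 7 / 8 ≤ Real.cos (om * p) := by
      have := Real.one_sub_sq_div_two_le_cos (x := om * p)
      have h2 : (om * p) ^ 2 ≤ 1 / 4 := by
        rw [← sq_abs]
        nlinarith [abs_nonneg (om * p)]
      linarith
    have hsin : |Real.sin (om * p)| ≤ om * |p| := by
      have := Real.abs_sin_le_abs (x := om * p)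
      rwa [abs_mul, abs_of_pos hom] at this
    have hom2 : 0 < om ^ 2 := by positivity
    have h3 : om * Real.sin (om * p) * A1p ≤ om ^ 2 * (1 / 10) := by
      have h4 : om * Real.sin (om * p) * A1p ≤ |om * Real.sin (om * p) * A1p| := le_abs_self _
      refine h4.trans ?_
      rw [abs_mul, abs_mul, abs_of_pos hom]
      calc om * |Real.sin (om * p)| * |A1p| ≤ om * (om * |p|) * a := by
            apply mul_le_mul _ hA1b (abs_nonneg _) (by positivity)
            exact mul_le_mul_of_nonneg_left hsin hom.le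
        _ = om ^ 2 * (a * |p|) := by ring
        _ ≤ om ^ 2 * (1 / 10) := by
            apply mul_le_mul_of_nonneg_left _ hom2.le
            exact (mul_le_mul_of_nonneg_left hp ha0).trans haρ
    have h5 : om ^ 2 * (7 / 8 * (99 / 100)) ≤ om ^ 2 * Real.cos (om * p) * Ap := by
      rw [mul_assoc]
      apply mul_le_mul_of_nonneg_left _ hom2.le
      exact mul_le_mul hcos (by linarith) (by norm_num) (by linarith)
    have h6 : Ap ^ 2 ≤ 103 / 100 := by nlinarith
    have h7 : om ^ 2 * Ap ^ 2 ≤ om ^ 2 * (103 / 100) := mul_le_mul_of_nonneg_left h6 hom2.le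
    nlinarith

theorem bparts {W Cz om ρ a : ℝ} {z z1 z2 X A A1 F f g : ℝ → ℝ} (hW : 0 < W)
    (hz : FCut W Cz z z1 z2) (hom : 0 < om)
    (hX : ∀ p ∈ Icc (-(3 * W)) (3 * W), HasDerivAt X (A p) p)
    (hA : ∀ p ∈ Icc (-(3 * W)) (3 * W), HasDerivAt A (A1 p) p)
    (hA1 : ContinuousOn A1 (Icc (-(3 * W)) (3 * W))) (hF : ∀ x, HasDerivAt F (f x) x)
    (hf : ∀ x, HasDerivAt f (g x) x) (hg : Continuous g) (hF0 : ∀ x, 0 ≤ F x)
    (hAb : ∀ p ∈ Icc (-(3 * W)) (3 * W), |A p - 1| ≤ 1 / 100)
    (hA1b : ∀ p ∈ Icc (-(3 * W)) (3 * W), |A1 p| ≤ a)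
    (hsupp : ∀ p ∈ Icc (-(3 * W)) (3 * W), ρ < |p| → F (X p) = 0) (hρ : ρ ≤ 2 * W)
    (homρ : om * ρ ≤ 1 / 2) (haρ : a * ρ ≤ 1 / 10) (ha0 : 0 ≤ a) :
    (∫ p in (-(3 * W))..(3 * W), q0 om z p * (g (X p) * A p)) ≤
      -(om ^ 2 / 4) * ∫ p in (-(3 * W))..(3 * W), F (X p) := by
  have hle : -(3 * W) ≤ 3 * W := by linarith
  have huIcc : uIcc (-(3 * W)) (3 * W) = Icc (-(3 * W)) (3 * W) := uIcc_of_le hle
  have hXc : ContinuousOn X (Icc (-(3 * W)) (3 * W)) := fun p hp =>
    (hX p hp).continuousAt.continuousWithinAt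
  have hAc : ContinuousOn A (Icc (-(3 * W)) (3 * W)) := fun p hp =>
    (hA p hp).continuousAt.continuousWithinAt
  have hFc : Continuous F := continuous_iff_continuousAt.2 fun x => (hF x).continuousAt
  have hfc : Continuous f := continuous_iff_continuousAt.2 fun x => (hf x).continuousAt
  have hgX : ContinuousOn (fun p => g (X p)) (Icc (-(3 * W)) (3 * W)) := hg.comp_continuousOn hXc
  have hfX : ContinuousOn (fun p => f (X p)) (Icc (-(3 * W)) (3 * W)) := hfc.comp_continuousOn hXc
  have hFX : ContinuousOn (fun p => F (X p)) (Icc (-(3 * W)) (3 * W)) := hFc.comp_continuousOn hXc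
  have hA0 : ∀ p ∈ Icc (-(3 * W)) (3 * W), A p ≠ 0 := by
    intro p hp
    have := (abs_le.1 (hAb p hp)).1
    intro h0
    rw [h0] at this
    norm_num at this
  have hii : ∀ {φ : ℝ → ℝ}, ContinuousOn φ (Icc (-(3 * W)) (3 * W)) →
      IntervalIntegrable φ volume (-(3 * W)) (3 * W) := fun h =>
    ContinuousOn.intervalIntegrable (by rw [huIcc]; exact h)
  have hq1c := bparts_q1_cont (om := om) hz
  have hq2c := bparts_q2_cont (om := om) hz
  have hend : |3 * W| = 3 * W := abs_of_pos (by linarith)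
  have hend' : |-(3 * W)| = 3 * W := by rw [abs_neg, hend]
  have zb := hz.zero (3 * W) (by rw [hend])
  have za := hz.zero (-(3 * W)) (by rw [hend'])
  have hq0b : q0 om z (3 * W) = 0 := by unfold q0; rw [zb.1, mul_zero]
  have hq0a : q0 om z (-(3 * W)) = 0 := by unfold q0; rw [za.1, mul_zero]
  have hq1b : q1 om z z1 (3 * W) = 0 := by unfold q1; rw [zb.1, zb.2.1]; ring
  have hq1a : q1 om z z1 (-(3 * W)) = 0 := by unfold q1; rw [za.1, za.2.1]; ring
  -- first integration by parts
  have e1 : (∫ p in (-(3 * W))..(3 * W), q0 om z p * (g (X p) * A p)) =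
      - ∫ p in (-(3 * W))..(3 * W), q1 om z z1 p * f (X p) := by
    rw [intervalIntegral.integral_mul_deriv_eq_deriv_mul (u := q0 om z) (v := fun p => f (X p))
      (u' := q1 om z z1) (v' := fun p => g (X p) * A p)]
    · rw [hq0a, hq0b]
      ring
    · intro p _
      exact q0_deriv hz p
    · intro p hp
      rw [huIcc] at hp
      exact (hf (X p)).comp p (hX p hp)
    · exact hq1c.intervalIntegrable _ _
    · exact hii (hgX.mul hAc)
  -- second integration by parts
  have hUc : ContinuousOn (fun p => q2 om z z1 z2 p / A p - q1 om z z1 p * A1 p / A p ^ 2)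
      (Icc (-(3 * W)) (3 * W)) := by
    apply ContinuousOn.sub
    · exact hq2c.continuousOn.div hAc hA0
    · exact (hq1c.continuousOn.mul hA1).div (hAc.pow 2) (fun p hp => pow_ne_zero 2 (hA0 p hp))
  have e2 : (∫ p in (-(3 * W))..(3 * W), q1 om z z1 p * f (X p)) =
      - ∫ p in (-(3 * W))..(3 * W), (q2 om z z1 z2 p / A p - q1 om z z1 p * A1 p / A p ^ 2) * F (X p) := by
    have e3 : (∫ p in (-(3 * W))..(3 * W), q1 om z z1 p * f (X p)) =
        ∫ p in (-(3 * W))..(3 * W), (q1 om z z1 p / A p) * (f (X p) * A p) := by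
      apply intervalIntegral.integral_congr
      intro p hp
      rw [huIcc] at hp
      have := hA0 p hp
      field_simp
    rw [e3, intervalIntegral.integral_mul_deriv_eq_deriv_mul (u := fun p => q1 om z z1 p / A p)
      (v := fun p => F (X p))
      (u' := fun p => q2 om z z1 z2 p / A p - q1 om z z1 p * A1 p / A p ^ 2)
      (v' := fun p => f (X p) * A p)]
    · rw [hq1a, hq1b]
      ring
    · intro p hp
      rw [huIcc] at hp
      have := (q1_deriv hz p (om := om)).div (hA p hp) (hA0 p hp)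
      refine this.congr_deriv ?_
      have h0 := hA0 p hp
      field_simp
    · intro p hp
      rw [huIcc] at hp
      exact (hF (X p)).comp p (hX p hp)
    · exact hii hUc
    · exact hii (hfX.mul hAc)
  rw [e1, e2, neg_neg, ← intervalIntegral.integral_const_mul]
  apply intervalIntegral.integral_mono_on hle (hii (hUc.mul hFX)) (hii (continuousOn_const.mul hFX))
  intro p hp
  exact bparts_point hz hom (hF0 _) (hAb p hp) (hA1b p hp) (hsupp p hp) hρ homρ haρ ha0

end

end P229
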