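import Vale.Agent.P229.F.Basic
import Vale.Agent.P229.C.Calc

/-! # P229, block F: continuity and integral lemmas for the bump term (helper68) -/

namespace P229

open Set Real Function MeasureTheory intervalIntegral
open scoped ContDiff

noncomputable section

theorem CR.swap {a b c d : ℝ} {f : ℝ → ℝ → ℝ} (hf : CR a b c d f) :
    CR c d a b (fun y p => f p y) := by
  have h1 : ContinuousOn (fun q : ℝ × ℝ => (q.2, q.1)) (Icc c d ×ˢ Icc a b) := by fun_prop
  exact ContinuousOn.comp (g := uncurry f) hf h1 (fun q hq => ⟨hq.2, hq.1⟩)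

/-- comparing the `p`-integrals for each `y`. -/
theorem I2_le_of_outer {a b c d : ℝ} {f g : ℝ → ℝ → ℝ} (hab : a ≤ b) (hcd : c ≤ d)
    (hf : CR a b c d f) (hg : CR a b c d g)
    (h : ∀ y ∈ Icc c d, (∫ p in a..b, f p y) ≤ ∫ p in a..b, g p y) :
    I2 a b c d f ≤ I2 a b c d g := by
  rw [I2_swap hab hcd hf, I2_swap hab hcd hg]
  exact intervalIntegral.integral_mono_on hcd (hf.swap.intervalIntegrable hcd hab)
    (hg.swap.intervalIntegrable hcd hab) (fun y hy => h y hy)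

theorem I2_const (a b c d k : ℝ) : I2 a b c d (fun _ _ => k) = k * ((b - a) * (d - c)) := by
  unfold I2
  simp only [intervalIntegral.integral_const, smul_eq_mul]
  ring

theorem I2_zero_of {a b c d : ℝ} {f : ℝ → ℝ → ℝ} (hab : a ≤ b) (hcd : c ≤ d)
    (h : ∀ p ∈ Icc a b, ∀ y ∈ Icc c d, f p y = 0) : I2 a b c d f = 0 := by
  rw [I2_congr (g := fun _ _ => 0) hab hcd h, I2_const]; ring

theorem I2_abs_le_const {a b c d K : ℝ} {f : ℝ → ℝ → ℝ} (hab : a ≤ b) (hcd : c ≤ d)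
    (hf : CR a b c d f) (h : ∀ p ∈ Icc a b, ∀ y ∈ Icc c d, |f p y| ≤ K) :
    |I2 a b c d f| ≤ K * ((b - a) * (d - c)) := by
  rw [← I2_const]
  exact I2_abs_le hab hcd hf (CR.const a b c d K) h

/-- restricting the rectangle to the support. -/
theorem I2_supp {a b c d a' b' c' d' : ℝ} {f : ℝ → ℝ → ℝ} (hf : CR a b c d f)
    (h1 : a ≤ a') (h2 : a' ≤ b') (h3 : b' ≤ b) (h4 : c ≤ c') (h5 : c' ≤ d') (h6 : d' ≤ d)
    (h : ∀ p ∈ Icc a b, ∀ y ∈ Icc c d, (p ≤ a' ∨ b' ≤ p ∨ y ≤ c' ∨ d' ≤ y) → f p y = 0) :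
    I2 a b c d f = I2 a' b' c' d' f := by
  have hcd : c ≤ d := h4.trans (h5.trans h6)
  have e1 := I2_split_p (m := a') h1 (h2.trans h3) hcd hf
  have e2 := I2_split_p (m := b') h2 h3 hcd (hf.mono h1 le_rfl le_rfl le_rfl)
  have hf' : CR a' b' c d f := hf.mono h1 h3 le_rfl le_rfl
  have e3 := I2_split_y (m := c') h2 h4 (h5.trans h6) hf'
  have e4 := I2_split_y (m := d') h2 h5 h6 (hf'.mono le_rfl le_rfl h4 le_rfl)
  have n1 : I2 a a' c d f = 0 := I2_zero_of h1 hcd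
    (fun p hp y hy => h p ⟨hp.1, hp.2.trans (h2.trans h3)⟩ y hy (Or.inl hp.2))
  have n2 : I2 b' b c d f = 0 := I2_zero_of h3 hcd
    (fun p hp y hy => h p ⟨(h1.trans h2).trans hp.1, hp.2⟩ y hy (Or.inr (Or.inl hp.1)))
  have n3 : I2 a' b' c c' f = 0 := I2_zero_of h2 h4
    (fun p hp y hy => h p ⟨h1.trans hp.1, hp.2.trans h3⟩ y ⟨hy.1, hy.2.trans (h5.trans h6)⟩
      (Or.inr (Or.inr (Or.inl hy.2))))
  have n4 : I2 a' b' d' d f = 0 := I2_zero_of h2 h6
    (fun p hp y hy => h p ⟨h1.trans hp.1, hp.2.trans h3⟩ y ⟨(h4.trans h5).trans hy.1, hy.2⟩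
      (Or.inr (Or.inr (Or.inr hy.1))))
  linarith

/-! ### continuity of the profiles -/

theorem continuous_kk : Continuous kk := kk_contDiff.continuous
theorem continuous_dkk : Continuous (deriv kk) := by
  have := kk_contDiff.continuous_iteratedDeriv 1 (by exact_mod_cast le_top)
  rwa [iteratedDeriv_one] at this
theorem continuous_ddkk : Continuous (deriv (deriv kk)) := by
  have h2 : ((2 : ℕ) : WithTop ℕ∞) ≤ ∞ := WithTop.coe_le_coe.2 (le_top (a := (2 : ℕ∞)))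
  have := kk_contDiff.continuous_iteratedDeriv 2 h2
  simpa only [iteratedDeriv_succ, iteratedDeriv_zero] using this
theorem continuous_chi : Continuous chi := chi_contDiff.continuous
theorem continuous_dchi : Continuous (deriv chi) := by
  have := chi_contDiff.continuous_iteratedDeriv 1 (by exact_mod_cast le_top)
  rwa [iteratedDeriv_one] at this

attribute [local fun_prop] continuous_kk continuous_dkk continuous_ddkk continuous_chi
  continuous_dchi

theorem continuous_b0 (P : Par) : Continuous (fun q : ℝ × ℝ => b0 P q.1 q.2) := by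
  unfold b0
  have h1 := continuous_chi.comp (continuous_snd (X := ℝ) (Y := ℝ))
  have h2 := continuous_kk.comp (continuous_snd (X := ℝ) (Y := ℝ))
  simp only [Function.comp_def] at h1 h2
  fun_prop

theorem continuous_b0x (P : Par) : Continuous (fun q : ℝ × ℝ => b0x P q.1 q.2) := by
  unfold b0x
  have h1 := continuous_chi.comp (continuous_snd (X := ℝ) (Y := ℝ))
  have h2 := continuous_kk.comp (continuous_snd (X := ℝ) (Y := ℝ))
  simp only [Function.comp_def] at h1 h2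
  fun_prop

theorem continuous_b0xx (P : Par) : Continuous (fun q : ℝ × ℝ => b0xx P q.1 q.2) := by
  unfold b0xx
  have h1 := continuous_chi.comp (continuous_snd (X := ℝ) (Y := ℝ))
  have h2 := continuous_kk.comp (continuous_snd (X := ℝ) (Y := ℝ))
  simp only [Function.comp_def] at h1 h2
  fun_prop

theorem continuous_b0y (P : Par) : Continuous (fun q : ℝ × ℝ => b0y P q.1 q.2) := by
  unfold b0y
  have h1 := continuous_dchi.comp (continuous_snd (X := ℝ) (Y := ℝ))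
  have h2 := continuous_dkk.comp (continuous_snd (X := ℝ) (Y := ℝ))
  simp only [Function.comp_def] at h1 h2
  fun_prop

private theorem cdiv1 {f : ℝ → ℝ} (hf : Continuous f) (l : ℝ) :
    Continuous (fun q : ℝ × ℝ => f (q.1 / l)) := hf.comp (by fun_prop)
private theorem cdiv2 {f : ℝ → ℝ} (hf : Continuous f) (l : ℝ) :
    Continuous (fun q : ℝ × ℝ => f (q.2 / l)) := hf.comp (by fun_prop)

theorem continuous_bb (P : Par) : Continuous (fun q : ℝ × ℝ => bb P q.1 q.2) := by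
  unfold bb
  exact (continuous_const.mul (cdiv1 continuous_kk _)).mul (cdiv2 continuous_kk _)

theorem continuous_bbx (P : Par) : Continuous (fun q : ℝ × ℝ => bbx P q.1 q.2) := by
  unfold bbx
  exact (continuous_const.mul (cdiv1 continuous_dkk _)).mul (cdiv2 continuous_kk _)

theorem continuous_bbxx (P : Par) : Continuous (fun q : ℝ × ℝ => bbxx P q.1 q.2) := by
  unfold bbxx
  exact (continuous_const.mul (cdiv1 continuous_ddkk _)).mul (cdiv2 continuous_kk _)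

theorem continuous_bby (P : Par) : Continuous (fun q : ℝ × ℝ => bby P q.1 q.2) := by
  unfold bby
  exact (continuous_const.mul (cdiv1 continuous_kk _)).mul (cdiv2 continuous_dkk _)

/-- substituting `x = X(p,y)` in a continuous function. -/
theorem CR.subst {a b c d : ℝ} {F : ℝ → ℝ → ℝ} {X : ℝ → ℝ → ℝ}
    (hF : Continuous (fun q : ℝ × ℝ => F q.1 q.2)) (hX : CR a b c d X) :
    CR a b c d (fun p y => F (X p y) y) := by
  have h1 : ContinuousOn (fun q : ℝ × ℝ => (X q.1 q.2, q.2)) (Icc a b ×ˢ Icc c d) :=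
    ContinuousOn.prodMk hX continuousOn_snd
  exact hF.comp_continuousOn h1

theorem CR.div {a b c d : ℝ} {f g : ℝ → ℝ → ℝ} (hf : CR a b c d f) (hg : CR a b c d g)
    (h0 : ∀ p ∈ Icc a b, ∀ y ∈ Icc c d, g p y ≠ 0) :
    CR a b c d (fun p y => f p y / g p y) :=
  ContinuousOn.div hf hg (fun q hq => h0 q.1 hq.1 q.2 hq.2)

theorem CR.EEalg {a b c d r mu : ℝ} {B bx by' bxx uy upp upy uyy : ℝ → ℝ → ℝ}
    (hB : CR a b c d B) (h1 : CR a b c d bx) (h2 : CR a b c d by') (h3 : CR a b c d bxx)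
    (h4 : CR a b c d uy) (h5 : CR a b c d upp) (h6 : CR a b c d upy) (h7 : CR a b c d uyy)
    (h0 : ∀ p ∈ Icc a b, ∀ y ∈ Icc c d, B p y ≠ 0) :
    CR a b c d (fun p y => EEalg r mu (B p y) (bx p y) (by' p y) (bxx p y) p (uy p y) (upp p y)
      (upy p y) (uyy p y)) := by
  have hp : CR a b c d (fun p _ => p) := CR.ofP continuousOn_id
  have hq := h4.neg.div hB h0
  have hc : ∀ k : ℝ, CR a b c d (fun _ _ => k) := fun k => CR.const a b c d k
  unfold P229.EEalg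
  have e1 := ((hc (r ^ 2)).mul h1).mul hq
  exact ((((h7.add (((hc 2).mul e1).mul h6))).add ((e1.pow 2).mul h5)).sub
    (((hB.mul ((hc mu).sub ((hc (r ^ 2)).mul ((hp.pow 2).add (hq.pow 2))))).mul h3).mul h5)).add
    ((hc (r ^ 2)).mul ((hq.mul h2).sub ((hB.mul hp).mul h1)))

/-- open rectangle of `GoodU`. -/
theorem isOpen_SU : IsOpen (Ioo (-(144 / 100) : ℝ) (144 / 100) ×ˢ
    Ioo (-(208 / 100) : ℝ) (208 / 100)) := isOpen_Ioo.prod isOpen_Ioo

theorem CR.of_smooth {X : ℝ} (hX : X ≤ 1) {f : ℝ → ℝ → ℝ}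
    (hf : ContDiffOn ℝ ∞ (uncurry f) (Ioo (-(144 / 100) : ℝ) (144 / 100) ×ˢ
      Ioo (-(208 / 100) : ℝ) (208 / 100))) : CR (-X) X (-YY) YY f := by
  refine hf.continuousOn.mono ?_
  intro q hq
  obtain ⟨⟨h1, h2⟩, h3, h4⟩ := hq
  unfold YY at h3 h4
  refine ⟨⟨by linarith, by linarith⟩, by linarith, by linarith⟩

/-- crude bounds: `|b0| ≤ 2` and `|bb| ≤ 1`. -/
theorem abs_b0_le {P : Par} (hr : 0 < P.r) (hr1 : P.r ≤ 1) {x y : ℝ} (hx : |x| ≤ 11 / 10) :
    |b0 P x y| ≤ 2 := by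
  have he0 : 0 ≤ P.eps := by unfold Par.eps; positivity
  have he1 : P.eps ≤ 1 := pow_le_one₀ hr.le hr1
  have hc0 : 0 ≤ P.epsc := by unfold Par.epsc; positivity
  have hc1 : P.epsc ≤ 1 := pow_le_one₀ hr.le hr1
  have hx2 : x ^ 2 ≤ (11 / 10) ^ 2 := by
    rw [← sq_abs]; exact pow_le_pow_left₀ (abs_nonneg _) hx 2
  have hx20 : 0 ≤ x ^ 2 := sq_nonneg x
  have hx4 : x ^ 4 ≤ (11 / 10) ^ 2 * (11 / 10) ^ 2 := by
    have : x ^ 4 = x ^ 2 * x ^ 2 := by ring
    rw [this]; exact mul_le_mul hx2 hx2 hx20 (by norm_num)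
  have hx40 : 0 ≤ x ^ 4 := by positivity
  have hk0 := kk_nonneg y
  have hk1 := kk_le_one y
  have hh0 := chi_nonneg y
  have hh1 := chi_le_one y
  have a0 : 0 ≤ P.eps * chi y := mul_nonneg he0 hh0
  have a1 : P.eps * chi y ≤ 1 := mul_le_one₀ he1 hh0 hh1
  have c0 : 0 ≤ P.epsc * kk y := mul_nonneg hc0 hk0
  have c1 : P.epsc * kk y ≤ 1 := mul_le_one₀ hc1 hk0 hk1
  have A : P.eps * chi y * x ^ 2 ≤ 1 * (11 / 10) ^ 2 := mul_le_mul a1 hx2 hx20 (by norm_num)
  have A0 : 0 ≤ P.eps * chi y * x ^ 2 := mul_nonneg a0 hx20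
  have Bk : |P.epsc * kk y * (x ^ 2 / 2 - x ^ 4 / 12)| ≤ 1 * 1 := by
    rw [abs_mul]
    refine mul_le_mul ?_ ?_ (abs_nonneg _) (by norm_num)
    · rw [abs_of_nonneg c0]; exact c1
    · rw [abs_le]; constructor <;> nlinarith
  have Bk' := abs_le.1 Bk
  unfold b0
  rw [abs_le]
  constructor <;> nlinarith [Bk'.1, Bk'.2]

theorem abs_bb_le {P : Par} (hr : 0 < P.r) (hr1 : P.r ≤ 1) (x y : ℝ) : |bb P x y| ≤ 1 := by
  have he0 : 0 ≤ P.eta := by unfold Par.eta; positivity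
  have he1 : P.eta ≤ 1 := pow_le_one₀ hr.le hr1
  have hc0 : 0 ≤ P.epsc := by unfold Par.epsc; positivity
  have hc1 : P.epsc ≤ 1 := pow_le_one₀ hr.le hr1
  have hl0 : 0 ≤ P.lam := by unfold Par.lam; positivity
  have hl1 : P.lam ≤ 1 := pow_le_one₀ hr.le hr1
  unfold bb
  rw [abs_of_nonneg (by
    have := kk_nonneg (x / P.lam); have := kk_nonneg (y / P.lam); positivity)]
  have e1 : P.eta * P.epsc ≤ 1 := mul_le_one₀ he1 hc0 hc1
  have e2 : P.eta * P.epsc * P.lam ^ 2 ≤ 1 := mul_le_one₀ e1 (by positivity) (pow_le_one₀ hl0 hl1)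
  have e3 : P.eta * P.epsc * P.lam ^ 2 * kk (x / P.lam) ≤ 1 :=
    mul_le_one₀ e2 (kk_nonneg _) (kk_le_one _)
  exact mul_le_one₀ e3 (kk_nonneg _) (kk_le_one _)

/-- continuity of both operators along `u`. -/
theorem CR.EE_both {P : Par} (hr : 0 < P.r) (hr1 : P.r ≤ 1 / 10) {mu X : ℝ} (hX : X ≤ 1)
    {u : ℝ → ℝ → ℝ} (hu : ContDiffOn ℝ ∞ (uncurry u) (Ioo (-(144 / 100) : ℝ) (144 / 100) ×ˢ
      Ioo (-(208 / 100) : ℝ) (208 / 100)))
    (hx : ∀ p ∈ Icc (-X) X, ∀ y ∈ Icc (-YY) YY, |dx u p y| ≤ 11 / 10) :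
    CR (-X) X (-YY) YY (fun p y =>
      EE0 P mu p y (dx u p y) (dy u p y) (dx (dx u) p y) (dy (dx u) p y) (dy (dy u) p y)) ∧
    CR (-X) X (-YY) YY (fun p y =>
      EE P mu p y (dx u p y) (dy u p y) (dx (dx u) p y) (dy (dx u) p y) (dy (dy u) p y)) := by
  have hS := isOpen_SU
  have cux : CR (-X) X (-YY) YY (dx u) := CR.of_smooth hX (P229.C.contDiffOn_dx hS hu)
  have cuy : CR (-X) X (-YY) YY (dy u) := CR.of_smooth hX (P229.C.contDiffOn_dy hS hu)
  have cuxx : CR (-X) X (-YY) YY (dx (dx u)) :=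
    CR.of_smooth hX (P229.C.contDiffOn_dx hS (P229.C.contDiffOn_dx hS hu))
  have cuxy : CR (-X) X (-YY) YY (dy (dx u)) :=
    CR.of_smooth hX (P229.C.contDiffOn_dy hS (P229.C.contDiffOn_dx hS hu))
  have cuyy : CR (-X) X (-YY) YY (dy (dy u)) :=
    CR.of_smooth hX (P229.C.contDiffOn_dy hS (P229.C.contDiffOn_dy hS hu))
  have cc : ∀ t : ℝ, CR (-X) X (-YY) YY (fun _ _ => t) := fun t => CR.const _ _ _ _ t
  have kb0 := CR.subst (F := b0 P) (continuous_b0 P) cux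
  have kb0x := CR.subst (F := b0x P) (continuous_b0x P) cux
  have kb0y := CR.subst (F := b0y P) (continuous_b0y P) cux
  have kb0xx := CR.subst (F := b0xx P) (continuous_b0xx P) cux
  have kbb := CR.subst (F := bb P) (continuous_bb P) cux
  have kbbx := CR.subst (F := bbx P) (continuous_bbx P) cux
  have kbby := CR.subst (F := bby P) (continuous_bby P) cux
  have kbbxx := CR.subst (F := bbxx P) (continuous_bbxx P) cux
  have hr1' : P.r ≤ 1 := by linarith
  have hr2 : P.r ^ 2 ≤ 1 / 100 := by nlinarith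
  have hr20 : 0 < P.r ^ 2 := by positivity
  have nB0 : ∀ p ∈ Icc (-X) X, ∀ y ∈ Icc (-YY) YY, 1 + P.r ^ 2 * b0 P (dx u p y) y ≠ 0 := by
    intro p hp y hy
    have h1 := abs_le.1 (abs_b0_le (P := P) (y := y) hr hr1' (hx p hp y hy))
    have : -(1 / 50) ≤ P.r ^ 2 * b0 P (dx u p y) y := by nlinarith [h1.1]
    intro h; linarith
  have nB1 : ∀ p ∈ Icc (-X) X, ∀ y ∈ Icc (-YY) YY,
      1 + P.r ^ 2 * (b0 P (dx u p y) y + bb P (dx u p y) y) ≠ 0 := by
    intro p hp y hy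
    have h1 := abs_le.1 (abs_b0_le (P := P) (y := y) hr hr1' (hx p hp y hy))
    have h2 := abs_le.1 (abs_bb_le (P := P) hr hr1' (dx u p y) y)
    have : -(3 / 100) ≤ P.r ^ 2 * (b0 P (dx u p y) y + bb P (dx u p y) y) := by
      nlinarith [h1.1, h2.1]
    intro h; linarith
  constructor
  · unfold EE0
    exact CR.EEalg ((cc 1).add ((cc _).mul kb0)) kb0x kb0y kb0xx cuy cuxx cuxy cuyy nB0
  · unfold EE
    exact CR.EEalg ((cc 1).add ((cc _).mul (kb0.add kbb))) (kb0x.add kbbx) (kb0y.add kbby)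
      (kb0xx.add kbbxx) cuy cuxx cuxy cuyy nB1

/-- `psi ≥ 1/2` near `0`. -/
theorem FMode.half_le {astar psi dpsi : ℝ → ℝ} {om : ℝ} (hM : FMode astar om psi dpsi) {y : ℝ}
    (hy : |y| ≤ 1 / 4) : 1 / 2 ≤ psi y := by
  have hy' := abs_le.1 hy
  have hsub : Icc (-(1 / 4) : ℝ) (1 / 4) ⊆ Ioo (-YY) YY := by
    intro t ht; unfold YY; exact ⟨by linarith [ht.1], by linarith [ht.2]⟩
  have hmv := (convex_Icc (-(1 / 4) : ℝ) (1 / 4)).norm_image_sub_le_of_norm_hasDerivWithin_le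
    (f := psi) (f' := dpsi) (C := 2)
    (fun t ht => (hM.hpsi t (hsub ht)).hasDerivWithinAt)
    (fun t ht => by
      rw [Real.norm_eq_abs]
      exact hM.dle2 t (Ioo_subset_Icc_self (hsub ht)))
    (x := 0) (y := y) ⟨by norm_num, by norm_num⟩ ⟨by linarith [hy'.1], by linarith [hy'.2]⟩
  rw [hM.one, Real.norm_eq_abs, Real.norm_eq_abs, sub_zero] at hmv
  have := (abs_le.1 hmv).1
  linarith

/-- lower bound of the mass of the bump. -/
theorem bump_mass {P : Par} {u : ℝ → ℝ → ℝ} {astar psi dpsi : ℝ → ℝ} {om X : ℝ}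
    (hM : FMode astar om psi dpsi) (hL : 0 < P.lam) (hL1 : P.lam ≤ 1) (hLX : P.lam ≤ X)
    (he : 0 < P.eta) (hc : 0 < P.epsc)
    (kH : CR (-X) X (-YY) YY (fun p y => psi y * bb P (dx u p y) y))
    (hgeo : ∀ p ∈ Icc (-X) X, ∀ y ∈ Icc (-YY) YY,
      |dx u p y| ≤ 101 / 100 * |p| + 1 / 50 * |y|) :
    1 / 2 * (P.eta * P.epsc * P.lam ^ 2) * ((P.lam / 2) * (P.lam / 2))
      ≤ I2 (-X) X (-YY) YY (fun p y => psi y * bb P (dx u p y) y) := by
  have hbb0 : ∀ x y : ℝ, 0 ≤ bb P x y := by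
    intro x y
    unfold bb
    have := kk_nonneg (x / P.lam)
    have := kk_nonneg (y / P.lam)
    positivity
  have hL4 : P.lam / 4 ≤ X := by linarith
  have hL4' : P.lam / 4 ≤ YY := by unfold YY; linarith
  have i1 := I2_mono_rect (a' := -(P.lam / 4)) (b' := P.lam / 4) (c' := -(P.lam / 4))
    (d' := P.lam / 4) kH (by linarith) (by linarith) hL4 (by linarith) (by linarith) hL4'
    (fun p _ y hy => mul_nonneg (hM.nonneg y hy) (hbb0 _ _))
  refine le_trans ?_ i1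
  have i2 : I2 (-(P.lam / 4)) (P.lam / 4) (-(P.lam / 4)) (P.lam / 4)
      (fun _ _ => 1 / 2 * (P.eta * P.epsc * P.lam ^ 2))
      ≤ I2 (-(P.lam / 4)) (P.lam / 4) (-(P.lam / 4)) (P.lam / 4)
        (fun p y => psi y * bb P (dx u p y) y) := by
    refine I2_mono (by linarith) (by linarith) (CR.const _ _ _ _ _)
      (kH.mono (by linarith) hL4 (by linarith) hL4') ?_
    intro p hp y hy
    have hpL : |p| ≤ P.lam / 4 := abs_le.2 hp
    have hyL : |y| ≤ P.lam / 4 := abs_le.2 hy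
    have hpI : p ∈ Icc (-X) X := ⟨by linarith [hp.1], by linarith [hp.2]⟩
    have hyI : y ∈ Icc (-YY) YY := ⟨by linarith [hy.1], by linarith [hy.2]⟩
    have hx := hgeo p hpI y hyI
    have hx2 : |dx u p y / P.lam| ≤ 1 / 2 := by
      rw [abs_div, abs_of_pos hL, div_le_iff₀ hL]; linarith
    have hy2 : |y / P.lam| ≤ 1 / 2 := by
      rw [abs_div, abs_of_pos hL, div_le_iff₀ hL]; linarith
    have hbbe : bb P (dx u p y) y = P.eta * P.epsc * P.lam ^ 2 := by
      unfold bb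
      rw [kk_eq_one hx2, kk_eq_one hy2]; ring
    have hpsi : 1 / 2 ≤ psi y := hM.half_le (by linarith)
    rw [hbbe]
    exact mul_le_mul_of_nonneg_right hpsi (by positivity)
  rw [I2_const] at i2
  refine le_trans (le_of_eq ?_) i2
  ring

/-- final arithmetic. -/
theorem bump_arith {C C1 C' r om mu e c L IF IG IH J : ℝ} (hC : 1 ≤ C) (hC1 : 1 ≤ C1)
    (hC' : 1 ≤ C') (hr : 0 < r) (hr1 : r ≤ 1) (hrC : r < 1 / (2048 * C * C1 * C'))
    (he : 0 < e) (hc : 0 < c) (hc1 : c ≤ 1) (hL : 0 < L) (hmu1 : 1 / C1 ≤ mu)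
    (hoc1 : 1 / C' ≤ om ^ 2 * c)
    (h1 : IG ≤ -(mu * (om ^ 2 / 4)) * IH)
    (h2 : 1 / 2 * (e * c * L ^ 2) * ((L / 2) * (L / 2)) ≤ IH)
    (h3 : J ≤ 2 * (C * (e * c * r ^ 2 * L ^ 2)) *
      ((2 * L - -(2 * L)) * (2 * L - -(2 * L))))
    (h4 : IF = IG + J) : 1 / (64 * C1 * C') * (e * L ^ 4) ≤ -IF := by
  have hC0 : 0 < C := by linarith
  have hC10 : 0 < C1 := by linarith
  have hC'0 : 0 < C' := by linarith
  have hmu0 : 0 < mu := lt_of_lt_of_le (by positivity) hmu1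
  have hmain : 1 / (32 * C1 * C') * (e * L ^ 4) ≤ mu * (om ^ 2 / 4) * IH := by
    have g1 : mu * (om ^ 2 / 4) * (1 / 2 * (e * c * L ^ 2) * ((L / 2) * (L / 2)))
        ≤ mu * (om ^ 2 / 4) * IH := mul_le_mul_of_nonneg_left h2 (by positivity)
    refine le_trans ?_ g1
    have g2 : 1 / C1 * (1 / C') ≤ mu * (om ^ 2 * c) :=
      mul_le_mul hmu1 hoc1 (by positivity) hmu0.le
    have g3 : 0 ≤ 1 / 32 * (e * L ^ 4) := by positivity
    have g4 := mul_le_mul_of_nonneg_right g2 g3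
    calc 1 / (32 * C1 * C') * (e * L ^ 4)
        = 1 / C1 * (1 / C') * (1 / 32 * (e * L ^ 4)) := by field_simp
      _ ≤ mu * (om ^ 2 * c) * (1 / 32 * (e * L ^ 4)) := g4
      _ = mu * (om ^ 2 / 4) * (1 / 2 * (e * c * L ^ 2) * ((L / 2) * (L / 2))) := by ring
  have herr : 2 * (C * (e * c * r ^ 2 * L ^ 2)) * ((2 * L - -(2 * L)) * (2 * L - -(2 * L)))
      ≤ 1 / (64 * C1 * C') * (e * L ^ 4) := by
    have g1 : c * r ^ 2 ≤ r := by
      have : r ^ 2 ≤ r := by nlinarith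
      nlinarith
    have g2 : 32 * C * (c * r ^ 2) ≤ 1 / (64 * C1 * C') := by
      have h1 : 32 * C * (c * r ^ 2) ≤ 32 * C * (1 / (2048 * C * C1 * C')) :=
        mul_le_mul_of_nonneg_left (g1.trans hrC.le) (by positivity)
      refine h1.trans (le_of_eq ?_)
      field_simp
      norm_num
    have g3 := mul_le_mul_of_nonneg_right g2 (by positivity : 0 ≤ e * L ^ 4)
    refine le_trans (le_of_eq ?_) g3
    ring
  have e5 : 1 / (32 * C1 * C') * (e * L ^ 4)
      = 1 / (64 * C1 * C') * (e * L ^ 4) + 1 / (64 * C1 * C') * (e * L ^ 4) := by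
    field_simp; norm_num
  rw [h4]
  linarith

end

end P229
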