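import Vale.Agent.P229.F.Basic
import Vale.Agent.P229.F.BumpAux
import Vale.Agent.P229.F.BParts
import Vale.Agent.P229.F.Alg3
import Vale.Agent.P229.C.Calc

/-! # P229, block F: the bump term -/

namespace P229

open Set Real

noncomputable section

/-- `E0(u) - E(u)`. -/
def hbump (P : Par) (mu : ℝ) (u : ℝ → ℝ → ℝ) (p y : ℝ) : ℝ :=
  EE0 P mu p y (dx u p y) (dy u p y) (dx (dx u) p y) (dy (dx u) p y) (dy (dy u) p y)
    - EE P mu p y (dx u p y) (dy u p y) (dx (dx u) p y) (dy (dx u) p y) (dy (dy u) p y)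

private theorem bump_mvt {f f' : ℝ → ℝ} {R C : ℝ} (hf : ∀ t, |t| < R → HasDerivAt f (f' t) t)
    (hb : ∀ t, |t| < R → |f' t| ≤ C) {t : ℝ} (ht : |t| < R) : |f t - f 0| ≤ C * |t| := by
  have hR : 0 < R := lt_of_le_of_lt (abs_nonneg t) ht
  have h := Convex.norm_image_sub_le_of_norm_hasDerivWithin_le (f := f) (f' := f') (C := C)
    (s := Ioo (-R) R) (x := 0) (y := t)
    (fun x hx => (hf x (abs_lt.2 ⟨hx.1, hx.2⟩)).hasDerivWithinAt)
    (fun x hx => by
      rw [Real.norm_eq_abs]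
      exact hb x (abs_lt.2 ⟨hx.1, hx.2⟩))
    (convex_Ioo _ _) ⟨by linarith, hR⟩ ⟨(abs_lt.1 ht).1, (abs_lt.1 ht).2⟩
  simpa [Real.norm_eq_abs] using h

/-- F_B0.  Geometry of the support: `|u_p - p|` small near `0`:
`0.99|p| - |y|/50 <= |u_p| <= 1.01|p| + |y|/50` (mean value from `u_p(0,0) = 0`, `upp`, `upy`),
`|u_y| <= |p|/50 + C1|y|`. -/
theorem bump_geom {P : Par} {mu C1 : ℝ} {u : ℝ → ℝ → ℝ} (hC1 : 1 ≤ C1) (hr : 0 < P.r)
    (hr1 : P.r < 1) (hu : GoodU P mu C1 u) {p y : ℝ} (hp : |p| ≤ 14 / 10) (hy : |y| ≤ YY) :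
    99 / 100 * |p| - 1 / 50 * |y| ≤ |dx u p y| ∧ |dx u p y| ≤ 101 / 100 * |p| + 1 / 50 * |y| ∧
      |dy u p y| ≤ 1 / 50 * |p| + C1 * |y| := by
  set S : Set (ℝ × ℝ) :=
    Ioo (-(144 / 100) : ℝ) (144 / 100) ×ˢ Ioo (-(208 / 100) : ℝ) (208 / 100) with hSdef
  have hS : IsOpen S := isOpen_Ioo.prod isOpen_Ioo
  have hsm := hu.smooth
  have hmem : ∀ p y : ℝ, |p| < 144 / 100 → |y| < 208 / 100 → (p, y) ∈ S := by
    intro p y hp hy
    exact ⟨⟨(abs_lt.1 hp).1, (abs_lt.1 hp).2⟩, ⟨(abs_lt.1 hy).1, (abs_lt.1 hy).2⟩⟩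
  have hx1 := C.contDiffOn_dx hS hsm
  have hy1 := C.contDiffOn_dy hS hsm
  have hp' : |p| < 144 / 100 := by linarith
  have hy' : |y| < 208 / 100 := by
    have : YY < 208 / 100 := by unfold YY; norm_num
    linarith
  have h0 : |(0 : ℝ)| < 144 / 100 := by norm_num
  have e1 := bump_mvt (f := fun t => dx u t y - t) (f' := fun t => dx (dx u) t y - 1)
    (C := 1 / 100) (fun t ht => (C.hasDerivAt_dx hS hx1 (hmem t y ht hy')).sub (hasDerivAt_id t))
    (fun t ht => hu.upp t y ht hy') hp'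
  have e2 := bump_mvt (f := fun t => dx u 0 t) (f' := fun t => dy (dx u) 0 t) (C := 1 / 50)
    (fun t ht => C.hasDerivAt_dy hS hx1 (hmem 0 t h0 ht)) (fun t ht => hu.upy 0 t h0 ht) hy'
  have e3 := bump_mvt (f := fun t => dy u t y) (f' := fun t => dy (dx u) t y) (C := 1 / 50)
    (fun t ht => by
      rw [← C.dx_dy hS hsm (hmem t y ht hy')]
      exact C.hasDerivAt_dx hS hy1 (hmem t y ht hy'))
    (fun t ht => hu.upy t y ht hy') hp'
  have heps : P.eps ≤ 1 := by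
    unfold Par.eps
    exact pow_le_one₀ hr.le hr1.le
  have e4 := bump_mvt (f := fun t => dy u 0 t) (f' := fun t => dy (dy u) 0 t) (C := C1)
    (fun t ht => C.hasDerivAt_dy hS hy1 (hmem 0 t h0 ht))
    (fun t ht => (hu.uyy 0 t h0 ht).trans (by
      calc C1 * P.eps ≤ C1 * 1 := mul_le_mul_of_nonneg_left heps (by linarith)
        _ = C1 := mul_one C1)) hy'
  simp only [hu.up0, hu.uy0, sub_zero] at e1 e2 e3 e4
  have k1 := abs_le.1 e1
  have k2 := abs_le.1 e2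
  have k3 := abs_le.1 e3
  have k4 := abs_le.1 e4
  refine ⟨?_, ?_, ?_⟩
  · have h1 : |p| ≤ |dx u p y| + |dx u p y - p| := by
      have := abs_sub_abs_le_abs_sub p (dx u p y)
      rw [abs_sub_comm p] at this
      linarith
    have h2 : |dx u p y - p| ≤ 1 / 100 * |p| + 1 / 50 * |y| := by
      rw [abs_le]
      constructor <;> linarith
    linarith
  · have h1 : |dx u p y| ≤ |p| + |dx u p y - p| := by
      have := abs_sub_abs_le_abs_sub (dx u p y) p
      linarith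
    have h2 : |dx u p y - p| ≤ 1 / 100 * |p| + 1 / 50 * |y| := by
      rw [abs_le]
      constructor <;> linarith
    linarith
  · rw [abs_le]
    constructor <;> linarith

/-- F_B1.  Off the support of the bump `hbump = 0` (`bb = bbx = bby = bbxx = 0`). -/
theorem hbump_zero {P : Par} {mu : ℝ} {u : ℝ → ℝ → ℝ} (hr : 0 < P.r) {p y : ℝ}
    (h : P.lam ≤ |dx u p y| ∨ P.lam ≤ |y|) : hbump P mu u p y = 0 := by
  obtain ⟨h1, h2, h3, h4⟩ := bb_eq_zero P hr h
  unfold hbump EE EE0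
  rw [h1, h2, h3, h4]
  simp only [add_zero, sub_self]

/-- conversion of the algebraic core -/
theorem F3_fin2 (P : Par) (mu : ℝ) (u : ℝ → ℝ → ℝ) (p y : ℝ) {C1 K Ck : ℝ}
    (hR0 : 0 < P.r ^ 2) (hr2 : P.r ^ 2 ≤ 1 / 4) (hl0 : 0 < P.lam) (hl1 : P.lam ≤ 1 / 2)
    (he0 : 0 ≤ P.eta * P.epsc) (he1 : P.eta * P.epsc ≤ 1) (hK : 1 ≤ K) (hCk : 1 ≤ Ck)
    (hmu : |mu| ≤ C1)
    (v0 : |b0 P (dx u p y) y| ≤ P.lam ^ 2) (v1 : |b0x P (dx u p y) y| ≤ 2 * P.lam)
    (v2 : |b0xx P (dx u p y) y| ≤ 1) (by0 : b0y P (dx u p y) y = 0)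
    (w0 : |bb P (dx u p y) y| ≤ P.eta * P.epsc * P.lam ^ 2)
    (w1 : |bbx P (dx u p y) y| ≤ Ck * (P.eta * P.epsc) * P.lam)
    (w2 : |bbxx P (dx u p y) y| ≤ Ck * (P.eta * P.epsc))
    (w3 : |bby P (dx u p y) y| ≤ Ck * (P.eta * P.epsc) * P.lam)
    (hp2 : |p| ≤ 2 * P.lam) (huy : |dy u p y| ≤ K * P.lam) (hupp : |dx (dx u) p y| ≤ 2)
    (hupy : |dy (dx u) p y| ≤ 1) :
    |hbump P mu u p y - mu * (bbxx P (dx u p y) y * dx (dx u) p y)| ≤
      100 * K ^ 2 * Ck ^ 2 * (C1 + 10) * 100 * (P.eta * P.epsc * P.r ^ 2 * P.lam ^ 2) := by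
  have key := F3_core (P.r ^ 2) P.lam (P.eta * P.epsc) K Ck mu C1 (b0 P (dx u p y) y)
    (b0x P (dx u p y) y) (b0xx P (dx u p y) y) (bb P (dx u p y) y) (bbx P (dx u p y) y)
    (bbxx P (dx u p y) y) (bby P (dx u p y) y) p (dy u p y) (dy (dy u) p y)
    (dx (dx u) p y) (dy (dx u) p y)
    (1 + P.r ^ 2 * (b0 P (dx u p y) y + bb P (dx u p y) y)) (1 + P.r ^ 2 * b0 P (dx u p y) y)
    hR0 hr2 hl0 hl1 he0 he1 hK hCk hmu v0 v1 v2 w0 w1 w2 w3 hp2 huy hupp hupy rfl rfl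
  unfold hbump EE0 EE EEalg
  rw [by0, ← mul_assoc mu]
  refine key.trans (le_of_eq ?_)
  ring

/-- F_B2.  Pointwise decomposition on the support. All other terms:
`B1 varpi1 - mu = O(r^2 lam^2)`, `bbx q`, `bby q`, `p bbx` are `O(eta epsc lam^2)` with a factor
`r^2`, `b0x (q1 - q0)`, `(B1 varpi1 - B0 varpi0) b0xx` are smaller (use `|p|, |u_y|, |x| <= C lam`). -/
theorem hbump_main (C1 : ℝ) (k b : ℕ) (hC1 : 1 ≤ C1) (hk : 10 ≤ k) (hb : 20 * k + 10 ≤ b) :
    ∃ C r0 : ℝ, 1 ≤ C ∧ 0 < r0 ∧ ∀ r : ℝ, 0 < r → r < r0 → ∀ (mu : ℝ) (u : ℝ → ℝ → ℝ),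
      1 / C1 ≤ mu → mu ≤ C1 → GoodU ⟨r, k, b⟩ mu C1 u →
      ∀ p y : ℝ, |p| ≤ 1 → |y| ≤ YY →
        |dx u p y| < (Par.mk r k b).lam → |y| < (Par.mk r k b).lam →
        |hbump ⟨r, k, b⟩ mu u p y
            - mu * (bbxx ⟨r, k, b⟩ (dx u p y) y * dx (dx u) p y)|
          ≤ C * ((Par.mk r k b).eta * (Par.mk r k b).epsc * r ^ 2 * (Par.mk r k b).lam ^ 2) := by
  obtain ⟨Ck, hCk, hk1, hk2, -, -, -, -⟩ := exists_Ck
  refine ⟨100 * (C1 + 1) ^ 2 * Ck ^ 2 * (C1 + 10) * 100, 1 / 2, ?_, by norm_num, ?_⟩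
  · have h1 : 1 ≤ (C1 + 1) ^ 2 := one_le_pow₀ (by linarith)
    have h2 : 1 ≤ Ck ^ 2 := one_le_pow₀ hCk
    have h3 : 1 * 1 ≤ (C1 + 1) ^ 2 * Ck ^ 2 := mul_le_mul h1 h2 (by norm_num) (by linarith)
    have h4 : 1 * 1 ≤ (C1 + 1) ^ 2 * Ck ^ 2 * (C1 + 10) :=
      mul_le_mul (by linarith) (by linarith) (by norm_num) (by linarith)
    have h5 : 100 * (C1 + 1) ^ 2 * Ck ^ 2 * (C1 + 10) * 100 =
        10000 * ((C1 + 1) ^ 2 * Ck ^ 2 * (C1 + 10)) := by ring
    rw [h5]; linarith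
  intro r hr0 hr mu u hm1 hm2 hu p y hp hy hx hyl
  set P : Par := ⟨r, k, b⟩ with hP
  have hrP0 : 0 < P.r := hr0
  have hrP : P.r ≤ 1 / 2 := hr.le
  obtain ⟨hl0, hl1, hec0, hec1, heta0, heta1, hr2⟩ := F3_par P hrP0 hrP
  have he0 : 0 ≤ P.eta * P.epsc := mul_nonneg heta0 hec0
  have he1 : P.eta * P.epsc ≤ 1 := mul_le_one₀ heta1 hec0 hec1
  obtain ⟨g1, g2, g3⟩ := bump_geom (P := P) hC1 hr0 (lt_of_le_of_lt hrP (by norm_num)) hu
    (hp.trans (by norm_num)) hy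
  have hp2 : |p| ≤ 2 * P.lam := by
    have := abs_nonneg p
    linarith
  have huy : |dy u p y| ≤ (C1 + 1) * P.lam := by
    have h1 : C1 * |y| ≤ C1 * P.lam := mul_le_mul_of_nonneg_left hyl.le (by linarith)
    linarith
  have hp3 : |p| < 144 / 100 := lt_of_le_of_lt hp (by norm_num)
  have hy3 : |y| < 208 / 100 := lt_of_lt_of_le hyl (by linarith)
  have hupp : |dx (dx u) p y| ≤ 2 := by
    have h1 := hu.upp p y hp3 hy3
    have h2 := abs_le.1 h1
    rw [abs_le]; constructor <;> linarith [h2.1, h2.2]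
  have hupy : |dy (dx u) p y| ≤ 1 := (hu.upy p y hp3 hy3).trans (by norm_num)
  have hmu : |mu| ≤ C1 := by
    have : 0 < 1 / C1 := by positivity
    rw [abs_of_pos (by linarith)]; exact hm2
  obtain ⟨v0, v1, v2, by0, w0, w1, w2, w3⟩ := F3_vals P hk1 hk2 hrP0 hrP hx hyl
  exact F3_fin2 P mu u p y (by positivity) hr2 hl0 hl1 he0 he1 (by linarith) hCk hmu v0 v1 v2
    by0 w0 w1 w2 w3 hp2 huy hupp hupy

/-- F_B3.  Two integrations by parts in `p` (for each fixed `y`).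
`d/dp bbx(u_p,y) = bbxx(u_p,y) u_pp`, `d/dp bb(u_p,y) = bbx(u_p,y) u_pp`; on the support of the bump
`|p| <= 2 lam <= 2 W1`, so `z = 1`: `c0 = cos(om p)`, `c1 = -om sin(om p)`, `c2 = -om^2 cos(om p)`;
`int c0 bbxx u_pp = int (c2/u_pp - c1 u_ppp/u_pp^2) bb`, with `|om p| <= 2 om lam <= 2 sqrt C' r`. -/
theorem bump_parts (C1 C' Cz : ℝ) (k b : ℕ) (hC1 : 1 ≤ C1) (hC' : 1 ≤ C') (hCz : 1 ≤ Cz)
    (hk : 10 ≤ k) (hb : 20 * k + 10 ≤ b) :
    ∃ r0 : ℝ, 0 < r0 ∧ ∀ r : ℝ, 0 < r → r < r0 → ∀ (mu : ℝ) (u : ℝ → ℝ → ℝ),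
      GoodU ⟨r, k, b⟩ mu C1 u → ∀ (om : ℝ) (z z1 z2 : ℝ → ℝ), 0 < om →
      1 / C' ≤ om ^ 2 * (Par.mk r k b).epsc → om ^ 2 * (Par.mk r k b).epsc ≤ C' →
      FCut (Par.mk r k b).W1 Cz z z1 z2 → ∀ y : ℝ, |y| ≤ YY →
      (∫ p in (-(3 * (Par.mk r k b).W1))..(3 * (Par.mk r k b).W1),
        q0 om z p * (bbxx ⟨r, k, b⟩ (dx u p y) y * dx (dx u) p y))
      ≤ -(om ^ 2 / 4) * ∫ p in (-(3 * (Par.mk r k b).W1))..(3 * (Par.mk r k b).W1),
          bb ⟨r, k, b⟩ (dx u p y) y := by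
  refine ⟨min (1 / (20 * C1)) (1 / (16 * C')), by positivity, ?_⟩
  intro r hr hrr mu u hu om z z1 z2 hom hl1 hl2 hz y hy
  have hr20 : r < 1 / (20 * C1) := hrr.trans_le (min_le_left _ _)
  have hr16 : r < 1 / (16 * C') := hrr.trans_le (min_le_right _ _)
  have hC1r : C1 * r ≤ 1 / 20 := by
    rw [lt_div_iff₀ (by positivity)] at hr20
    linarith
  have hC'r : C' * r ≤ 1 / 16 := by
    rw [lt_div_iff₀ (by positivity)] at hr16
    linarith
  have hr1 : r ≤ 1 / 20 := by nlinarith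
  have hr11 : r < 1 := by linarith
  have hW : 0 < (Par.mk r k b).W1 := by unfold Par.W1; positivity
  have hW1 : (Par.mk r k b).W1 ≤ r := by
    unfold Par.W1
    calc r ^ (9 * k) ≤ r ^ 1 := pow_le_pow_of_le_one hr.le hr11.le (by omega)
      _ = r := pow_one r
  have hlam0 : 0 < (Par.mk r k b).lam := by unfold Par.lam; positivity
  have hlamr : (Par.mk r k b).lam ≤ r := by
    unfold Par.lam
    calc r ^ (10 * k + 2) ≤ r ^ 1 := pow_le_pow_of_le_one hr.le hr11.le (by omega)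
      _ = r := pow_one r
  have hlamW : (Par.mk r k b).lam ≤ (Par.mk r k b).W1 := by
    unfold Par.lam Par.W1
    exact pow_le_pow_of_le_one hr.le hr11.le (by omega)
  have hlam2 : (Par.mk r k b).lam ^ 2 = (Par.mk r k b).epsc * r ^ 2 := by
    unfold Par.lam Par.epsc
    rw [← pow_mul, ← pow_add]
    congr 1
    ring
  set S : Set (ℝ × ℝ) :=
    Ioo (-(144 / 100) : ℝ) (144 / 100) ×ˢ Ioo (-(208 / 100) : ℝ) (208 / 100) with hSdef
  have hS : IsOpen S := isOpen_Ioo.prod isOpen_Ioo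
  have hsm := hu.smooth
  have hx1 := C.contDiffOn_dx hS hsm
  have hx2 := C.contDiffOn_dx hS hx1
  have hx3 := C.contDiffOn_dx hS hx2
  have hy' : |y| < 208 / 100 := by
    have : YY < 208 / 100 := by unfold YY; norm_num
    linarith
  have hmem : ∀ p ∈ Icc (-(3 * (Par.mk r k b).W1)) (3 * (Par.mk r k b).W1),
      |p| < 144 / 100 ∧ (p, y) ∈ S := by
    intro p hp
    have h1 : |p| < 144 / 100 := by
      rw [abs_lt]
      constructor
      · linarith [hp.1]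
      · linarith [hp.2]
    exact ⟨h1, ⟨(abs_lt.1 h1).1, (abs_lt.1 h1).2⟩, ⟨(abs_lt.1 hy').1, (abs_lt.1 hy').2⟩⟩
  have hkk1 : Continuous (deriv (deriv kk)) := by
    have h2 : ContDiff ℝ (0 + 1 + 1) kk := kk_contDiff.of_le (by
      norm_num
      exact WithTop.coe_le_coe.2 (le_top : (2 : ℕ∞) ≤ ⊤))
    have h3 : ContDiff ℝ (0 + 1) (deriv kk) := (contDiff_succ_iff_deriv.1 h2).2.2
    exact (contDiff_succ_iff_deriv.1 h3).2.2.continuous
  refine bparts (W := (Par.mk r k b).W1) (Cz := Cz) (om := om) (ρ := 2 * (Par.mk r k b).lam) (a := C1 * r)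
    (X := fun p => dx u p y) (A := fun p => dx (dx u) p y) (A1 := fun p => dx (dx (dx u)) p y)
    (F := fun x => bb ⟨r, k, b⟩ x y) (f := fun x => bbx ⟨r, k, b⟩ x y)
    (g := fun x => bbxx ⟨r, k, b⟩ x y) hW hz hom ?_ ?_ ?_ ?_ ?_ ?_ ?_ ?_ ?_ ?_ ?_ ?_ ?_ ?_
  · intro p hp
    exact C.hasDerivAt_dx hS hx1 (hmem p hp).2
  · intro p hp
    exact C.hasDerivAt_dx hS hx2 (hmem p hp).2
  · have h1 : ContinuousOn (fun p : ℝ => (p, y)) (Icc (-(3 * (Par.mk r k b).W1)) (3 * (Par.mk r k b).W1)) := by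
      fun_prop
    exact (hx3.continuousOn).comp h1 (fun p hp => (hmem p hp).2)
  · intro x
    exact dx_bb ⟨r, k, b⟩ hr x y
  · intro x
    exact dx_bbx ⟨r, k, b⟩ hr x y
  · unfold bbxx
    fun_prop
  · intro x
    unfold bb
    have h1 := kk_nonneg (x / (Par.mk r k b).lam)
    have h2 := kk_nonneg (y / (Par.mk r k b).lam)
    have h3 : 0 ≤ (Par.mk r k b).eta := by unfold Par.eta; positivity
    have h4 : 0 ≤ (Par.mk r k b).epsc := by unfold Par.epsc; positivity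
    positivity
  · intro p hp
    exact hu.upp p y (hmem p hp).1 hy'
  · intro p hp
    exact hu.uppp p y (hmem p hp).1 hy'
  · intro p hp hpρ
    by_cases hyl : (Par.mk r k b).lam ≤ |y|
    · exact (bb_eq_zero ⟨r, k, b⟩ hr (Or.inr hyl)).1
    · push Not at hyl
      have hp14 : |p| ≤ 14 / 10 := by
        rw [abs_le]
        constructor
        · linarith [hp.1]
        · linarith [hp.2]
      have h1 := (bump_geom hC1 hr hr11 hu hp14 hy).1
      refine (bb_eq_zero ⟨r, k, b⟩ hr (Or.inl ?_)).1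
      linarith
  · linarith
  · have h1 : (om * (Par.mk r k b).lam) ^ 2 ≤ 1 / 16 := by
      rw [mul_pow, hlam2, ← mul_assoc]
      calc om ^ 2 * (Par.mk r k b).epsc * r ^ 2 ≤ C' * r ^ 2 :=
            mul_le_mul_of_nonneg_right hl2 (by positivity)
        _ = (C' * r) * r := by ring
        _ ≤ 1 / 16 * 1 := mul_le_mul hC'r hr11.le hr.le (by norm_num)
        _ = 1 / 16 := by norm_num
    have h2 : om * (Par.mk r k b).lam ≤ 1 / 4 := by
      have h3 : 0 ≤ om * (Par.mk r k b).lam := by positivity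
      nlinarith
    linarith
  · have h1 : C1 * r * (2 * (Par.mk r k b).lam) ≤ 1 / 20 * (2 * r) := by
      apply mul_le_mul hC1r (by linarith) (by positivity) (by norm_num)
    linarith
  · positivity

/-- F_B4.  Lower bound of the pairing with the bump. From `hbump_main`, `bump_parts`,
`bump_geom`: on `|p|, |y| <= lam/4` one has `bb = eta epsc lam^2`, `psi >= 1/2`. -/
theorem bump_lower (C1 C' Cz : ℝ) (k b : ℕ) (hC1 : 1 ≤ C1) (hC' : 1 ≤ C') (hCz : 1 ≤ Cz)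
    (hk : 10 ≤ k) (hb : 20 * k + 10 ≤ b) :
    ∃ c r0 : ℝ, 0 < c ∧ 0 < r0 ∧ ∀ r : ℝ, 0 < r → r < r0 → ∀ (mu : ℝ) (u : ℝ → ℝ → ℝ),
      1 / C1 ≤ mu → mu ≤ C1 → GoodU ⟨r, k, b⟩ mu C1 u →
      ∀ (om : ℝ) (astar psi dpsi z z1 z2 : ℝ → ℝ), 0 < om →
      1 / C' ≤ om ^ 2 * (Par.mk r k b).epsc → om ^ 2 * (Par.mk r k b).epsc ≤ C' →
      FMode astar om psi dpsi → FCut (Par.mk r k b).W1 Cz z z1 z2 →
      c * ((Par.mk r k b).eta * (Par.mk r k b).lam ^ 4)
        ≤ |I2 (-(3 * (Par.mk r k b).W1)) (3 * (Par.mk r k b).W1) (-YY) YY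
            (fun p y => psi y * q0 om z p * hbump ⟨r, k, b⟩ mu u p y)| := by
  obtain ⟨C, rA, hC, hrA, HA⟩ := hbump_main C1 k b hC1 hk hb
  obtain ⟨rB, hrB, HB⟩ := bump_parts C1 C' Cz k b hC1 hC' hCz hk hb
  have hC0 : 0 < C := by linarith
  have hC10 : 0 < C1 := by linarith
  have hC'0 : 0 < C' := by linarith
  refine ⟨1 / (64 * C1 * C'), min (min rA rB) (min (1 / 100) (1 / (2048 * C * C1 * C'))),
    by positivity, by positivity, ?_⟩
  intro r hr hr0 mu u hmu1 hmu2 hu om astar psi dpsi z z1 z2 hom hoc1 hoc2 hM hZ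
  have hrA' : r < rA := lt_of_lt_of_le hr0 ((min_le_left _ _).trans (min_le_left _ _))
  have hrB' : r < rB := lt_of_lt_of_le hr0 ((min_le_left _ _).trans (min_le_right _ _))
  have hr100 : r < 1 / 100 := lt_of_lt_of_le hr0 ((min_le_right _ _).trans (min_le_left _ _))
  have hrC : r < 1 / (2048 * C * C1 * C') :=
    lt_of_lt_of_le hr0 ((min_le_right _ _).trans (min_le_right _ _))
  have hr1 : r ≤ 1 := by linarith
  specialize HA r hr hrA' mu u hmu1 hmu2 hu
  specialize HB r hr hrB' mu u hu om z z1 z2 hom hoc1 hoc2 hZ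
  set P : Par := ⟨r, k, b⟩ with hP
  have hPr : P.r = r := rfl
  have hmu0 : 0 < mu := lt_of_lt_of_le (by positivity) hmu1
  -- parameters
  have he : 0 < P.eta := by rw [hP]; unfold Par.eta; positivity
  have hc : 0 < P.epsc := by rw [hP]; unfold Par.epsc; positivity
  have hc1 : P.epsc ≤ 1 := pow_le_one₀ (a := r) hr.le hr1
  have hL : 0 < P.lam := by rw [hP]; unfold Par.lam; positivity
  have hW : 0 < P.W1 := by rw [hP]; unfold Par.W1; positivity
  have hW1 : P.W1 ≤ r := by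
    have h1 : r ^ (9 * k) ≤ r ^ 1 := pow_le_pow_of_le_one hr.le hr1 (by omega)
    rw [pow_one] at h1
    exact h1
  have hLW : P.lam ≤ P.W1 := pow_le_pow_of_le_one (a := r) hr.le hr1 (by omega)
  obtain ⟨X, hX⟩ : ∃ X, X = 3 * P.W1 := ⟨_, rfl⟩
  rw [← hX]
  rw [← hX] at HB
  have hX1 : X ≤ 1 / 10 := by linarith
  have hLX : 2 * P.lam ≤ X := by linarith
  have hY0 : (0 : ℝ) < YY := by unfold YY; norm_num
  have hLY : 2 * P.lam ≤ YY := by unfold YY; linarith
  have hab : -X ≤ X := by linarith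
  have hcd : -YY ≤ YY := by linarith
  -- geometry
  have hgeo : ∀ p ∈ Icc (-X) X, ∀ y ∈ Icc (-YY) YY,
      99 / 100 * |p| - 1 / 50 * |y| ≤ |dx u p y| ∧
        |dx u p y| ≤ 101 / 100 * |p| + 1 / 50 * |y| := by
    intro p hp y hy
    have hp' : |p| ≤ X := abs_le.2 hp
    have hy' : |y| ≤ YY := abs_le.2 hy
    have := bump_geom hC1 (P := P) hr (by rw [hPr]; linarith) hu (p := p) (y := y)
      (by linarith) hy'
    exact ⟨this.1, this.2.1⟩
  have hx11 : ∀ p ∈ Icc (-X) X, ∀ y ∈ Icc (-YY) YY, |dx u p y| ≤ 11 / 10 := by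
    intro p hp y hy
    have h1 := (hgeo p hp y hy).2
    have h2 := abs_le.2 hp
    have h3 := abs_le.2 hy
    unfold YY at h3
    linarith
  -- continuity
  have cux : CR (-X) X (-YY) YY (dx u) :=
    CR.of_smooth (by linarith) (P229.C.contDiffOn_dx isOpen_SU hu.smooth)
  have cuxx : CR (-X) X (-YY) YY (dx (dx u)) :=
    CR.of_smooth (by linarith)
      (P229.C.contDiffOn_dx isOpen_SU (P229.C.contDiffOn_dx isOpen_SU hu.smooth))
  have kbb := CR.subst (F := bb P) (continuous_bb P) cux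
  have kbbxx := CR.subst (F := bbxx P) (continuous_bbxx P) cux
  have khb : CR (-X) X (-YY) YY (hbump P mu u) := by
    have := CR.EE_both (P := P) hr (by rw [hPr]; linarith) (mu := mu) (by linarith) hu.smooth hx11
    exact this.1.sub this.2
  have kpsi : CR (-X) X (-YY) YY (fun _ y => psi y) := CR.ofY hM.cpsi
  have cq0 : Continuous (q0 om z) := by
    unfold q0
    exact (Real.continuous_cos.comp (by fun_prop)).mul hZ.cz
  have kq0 : CR (-X) X (-YY) YY (fun p _ => q0 om z p) := CR.ofP cq0.continuousOn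
  have hq1 : ∀ p, |q0 om z p| ≤ 1 := by
    intro p
    unfold q0
    rw [abs_mul]
    exact mul_le_one₀ (Real.abs_cos_le_one _) (abs_nonneg _) (hZ.b0 p)
  set F : ℝ → ℝ → ℝ := fun p y => psi y * q0 om z p * hbump P mu u p y with hF
  set G : ℝ → ℝ → ℝ := fun p y => psi y * q0 om z p *
    (mu * (bbxx P (dx u p y) y * dx (dx u) p y)) with hG
  set H : ℝ → ℝ → ℝ := fun p y => psi y * bb P (dx u p y) y with hH
  have kF : CR (-X) X (-YY) YY F := (kpsi.mul kq0).mul khb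
  have kG : CR (-X) X (-YY) YY G :=
    (kpsi.mul kq0).mul ((CR.const _ _ _ _ mu).mul (kbbxx.mul cuxx))
  have kH : CR (-X) X (-YY) YY H := kpsi.mul kbb
  -- (1) the main term
  have s1 : I2 (-X) X (-YY) YY G ≤ -(mu * (om ^ 2 / 4)) * I2 (-X) X (-YY) YY H := by
    rw [← I2_const_mul]
    refine I2_le_of_outer hab hcd kG ((CR.const _ _ _ _ _).mul kH) ?_
    intro y hy
    have hpy : 0 ≤ psi y := hM.nonneg y hy
    have h1 := HB y (abs_le.2 hy)
    have e1 : (∫ p in (-X)..X, G p y) = (mu * psi y) *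
        ∫ p in (-X)..X, q0 om z p * (bbxx P (dx u p y) y * dx (dx u) p y) := by
      rw [← intervalIntegral.integral_const_mul]
      apply intervalIntegral.integral_congr
      intro p _
      simp only [hG]; ring
    have e2 : (∫ p in (-X)..X, -(mu * (om ^ 2 / 4)) * H p y)
        = (mu * psi y) * (-(om ^ 2 / 4) * ∫ p in (-X)..X, bb P (dx u p y) y) := by
      rw [← intervalIntegral.integral_const_mul, ← intervalIntegral.integral_const_mul]
      apply intervalIntegral.integral_congr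
      intro p _
      simp only [hH]; ring
    rw [e1, e2]
    exact mul_le_mul_of_nonneg_left h1 (by positivity)
  -- (2) lower bound of the mass of the bump
  have s2 : 1 / 2 * (P.eta * P.epsc * P.lam ^ 2) * ((P.lam / 2) * (P.lam / 2))
      ≤ I2 (-X) X (-YY) YY H :=
    bump_mass hM hL (by linarith) (by linarith) he hc kH (fun p hp y hy => (hgeo p hp y hy).2)
  -- (3) the error
  set K : ℝ := 2 * (C * (P.eta * P.epsc * r ^ 2 * P.lam ^ 2)) with hK
  have hK0 : 0 ≤ K := by positivity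
  have hzero : ∀ p y : ℝ, (P.lam ≤ |dx u p y| ∨ P.lam ≤ |y|) → F p y - G p y = 0 := by
    intro p y h
    have h1 := hbump_zero (P := P) (mu := mu) (u := u) hr h
    have h2 := (bb_eq_zero P hr h).2.2.1
    simp only [hF, hG]
    rw [h1, h2]; ring
  have s3 : |I2 (-X) X (-YY) YY (fun p y => F p y - G p y)|
      ≤ K * ((2 * P.lam - -(2 * P.lam)) * (2 * P.lam - -(2 * P.lam))) := by
    rw [I2_supp (a' := -(2 * P.lam)) (b' := 2 * P.lam) (c' := -(2 * P.lam)) (d' := 2 * P.lam)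
      (kF.sub kG) (by linarith) (by linarith) hLX (by linarith) (by linarith) hLY ?_]
    · refine I2_abs_le_const (by linarith) (by linarith)
        ((kF.sub kG).mono (by linarith) hLX (by linarith) hLY) ?_
      intro p hp y hy
      have hpI : p ∈ Icc (-X) X := ⟨by linarith [hp.1], by linarith [hp.2]⟩
      have hyI : y ∈ Icc (-YY) YY := ⟨by linarith [hy.1], by linarith [hy.2]⟩
      by_cases h : P.lam ≤ |dx u p y| ∨ P.lam ≤ |y|
      · rw [hzero p y h, abs_zero]; exact hK0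
      · push Not at h
        have h1 := HA p y ((abs_le.2 hpI).trans (by linarith)) (abs_le.2 hyI) h.1 h.2
        have e1 : F p y - G p y = psi y * q0 om z p * (hbump P mu u p y
            - mu * (bbxx P (dx u p y) y * dx (dx u) p y)) := by
          simp only [hF, hG]; ring
        rw [e1, abs_mul, abs_mul, hK]
        have h2 : |psi y| ≤ 2 := by
          rw [abs_of_nonneg (hM.nonneg y hyI)]; exact hM.le2 y hyI
        have h3 : |psi y| * |q0 om z p| ≤ 2 * 1 :=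
          mul_le_mul h2 (hq1 p) (abs_nonneg _) (by norm_num)
        rw [mul_one] at h3
        exact mul_le_mul h3 h1 (abs_nonneg _) (by norm_num)
    · intro p hp y hy hs
      apply hzero p y
      by_cases hyL : P.lam ≤ |y|
      · exact Or.inr hyL
      · left
        push Not at hyL
        have hy' := abs_lt.1 hyL
        have hp' : 2 * P.lam ≤ |p| := by
          rcases hs with h | h | h | h
          · rw [le_abs]; right; linarith
          · rw [le_abs]; left; linarith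
          · exfalso; linarith [hy'.1]
          · exfalso; linarith [hy'.2]
        have := (hgeo p hp y hy).1
        linarith
  -- conclusion
  have e4 : I2 (-X) X (-YY) YY F
      = I2 (-X) X (-YY) YY G + I2 (-X) X (-YY) YY (fun p y => F p y - G p y) := by
    rw [I2_sub hab hcd kF kG]; ring
  have hJ := (abs_le.1 s3).2
  have hfin := bump_arith hC hC1 hC' hr hr1 hrC he hc hc1 hL hmu1 hoc1 s1 s2 hJ e4
  exact hfin.trans (neg_le_abs _)

end

end P229
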