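import Vale.Agent.P229.F.Basic

/-! # P229, block F: the cutoff in `p` -/

namespace P229

open Set Real

noncomputable section

/-- the profile for `W = 1` -/
def fcz (x : ℝ) : ℝ :=
  Real.smoothTransition (2 * (14 / 5 - x)) * Real.smoothTransition (2 * (14 / 5 + x))

theorem fcz_contDiff : ContDiff ℝ 2 fcz := by
  unfold fcz
  exact (Real.smoothTransition.contDiff.comp (by fun_prop)).mul
    (Real.smoothTransition.contDiff.comp (by fun_prop))

theorem fcz_deriv_contDiff : ContDiff ℝ 1 (deriv fcz) := by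
  have h : ContDiff ℝ (1 + 1) fcz := by
    have := fcz_contDiff
    norm_num
    exact this
  exact (contDiff_succ_iff_deriv.1 h).2.2

theorem fcz_nonneg (x : ℝ) : 0 ≤ fcz x :=
  mul_nonneg (Real.smoothTransition.nonneg _) (Real.smoothTransition.nonneg _)

theorem fcz_le_one (x : ℝ) : fcz x ≤ 1 :=
  mul_le_one₀ (Real.smoothTransition.le_one _) (Real.smoothTransition.nonneg _)
    (Real.smoothTransition.le_one _)

theorem fcz_one {x : ℝ} (h : |x| < 23 / 10) : fcz x = 1 := by
  have h1 := abs_lt.1 h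
  unfold fcz
  rw [Real.smoothTransition.one_of_one_le (by linarith), Real.smoothTransition.one_of_one_le
    (by linarith), one_mul]

theorem fcz_zero {x : ℝ} (h : 14 / 5 < |x|) : fcz x = 0 := by
  unfold fcz
  rcases lt_abs.1 h with h1 | h1
  · rw [Real.smoothTransition.zero_of_nonpos (by linarith), zero_mul]
  · rw [Real.smoothTransition.zero_of_nonpos (x := 2 * (14 / 5 + x)) (by linarith), mul_zero]

theorem fcz_locconst {U : Set ℝ} (hU : IsOpen U) {c : ℝ} (h : ∀ x ∈ U, fcz x = c) {x : ℝ}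
    (hx : x ∈ U) : fcz x = c ∧ deriv fcz x = 0 ∧ deriv (deriv fcz) x = 0 := by
  have h1 : fcz =ᶠ[nhds x] fun _ => c := by
    filter_upwards [hU.mem_nhds hx] with y hy using h y hy
  have h2 : deriv fcz =ᶠ[nhds x] fun _ => 0 := by
    have h3 := h1.deriv
    refine h3.trans ?_
    filter_upwards with y
    simp
  refine ⟨h x hx, h2.eq_of_nhds, ?_⟩
  rw [h2.deriv_eq]
  simp

theorem fcz_in {x : ℝ} (h : |x| ≤ 2) : fcz x = 1 ∧ deriv fcz x = 0 ∧ deriv (deriv fcz) x = 0 :=
  fcz_locconst (U := {x | |x| < 23 / 10}) (isOpen_lt continuous_abs continuous_const)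
    (fun x hx => fcz_one hx) (by
      change |x| < 23 / 10
      linarith)

theorem fcz_out {x : ℝ} (h : 3 ≤ |x|) : fcz x = 0 ∧ deriv fcz x = 0 ∧ deriv (deriv fcz) x = 0 :=
  fcz_locconst (U := {x | 14 / 5 < |x|}) (isOpen_lt continuous_const continuous_abs)
    (fun x hx => fcz_zero hx) (by
      change 14 / 5 < |x|
      linarith)

theorem fcz_bound {f : ℝ → ℝ} (hf : Continuous f) (h : ∀ x, 3 ≤ |x| → f x = 0) :
    ∃ C : ℝ, 0 ≤ C ∧ ∀ x, |f x| ≤ C := by
  obtain ⟨C, hC⟩ := (isCompact_Icc (a := (-3 : ℝ)) (b := 3)).exists_bound_of_continuousOn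
    hf.continuousOn
  refine ⟨max C 0, le_max_right _ _, fun x => ?_⟩
  by_cases hx : 3 ≤ |x|
  · rw [h x hx, abs_zero]
    exact le_max_right _ _
  · have h1 := abs_le.1 (not_le.1 hx).le
    have h2 := hC x ⟨by linarith [h1.1], h1.2⟩
    rw [Real.norm_eq_abs] at h2
    exact h2.trans (le_max_left _ _)

/-- F_CUT.  `z(p) = st(3 - p/W) st(3 + p/W)`, `st = Real.smoothTransition` (bounded first and
second derivatives: `iteratedDeriv` continuous and zero outside a compact set, cf. `Prof.lean`,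
`bdd_of_zero_outside`). -/
theorem exists_fcut : ∃ C : ℝ, 1 ≤ C ∧ ∀ W : ℝ, 0 < W → ∃ z z1 z2 : ℝ → ℝ, FCut W C z z1 z2 := by
  have hc1 : Continuous (deriv fcz) := fcz_deriv_contDiff.continuous
  have hc2 : Continuous (deriv (deriv fcz)) := fcz_deriv_contDiff.continuous_deriv le_rfl
  obtain ⟨C₁, hC₁, h1⟩ := fcz_bound hc1 (fun x hx => (fcz_out hx).2.1)
  obtain ⟨C₂, hC₂, h2⟩ := fcz_bound hc2 (fun x hx => (fcz_out hx).2.2)
  refine ⟨1 + C₁ + C₂, by linarith, fun W hW => ?_⟩
  refine ⟨fun p => fcz (p / W), fun p => deriv fcz (p / W) / W,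
    fun p => deriv (deriv fcz) (p / W) / W ^ 2, ?_⟩
  have hdiv : ∀ p : ℝ, HasDerivAt (fun p => p / W) (1 / W) p := fun p => by
    simpa using (hasDerivAt_id p).div_const W
  have hd0 : ∀ x, HasDerivAt fcz (deriv fcz x) x := fun x =>
    ((fcz_contDiff.differentiable (by norm_num)) x).hasDerivAt
  have hd1 : ∀ x, HasDerivAt (deriv fcz) (deriv (deriv fcz) x) x := fun x =>
    ((fcz_deriv_contDiff.differentiable (by norm_num)) x).hasDerivAt
  have hin : ∀ p : ℝ, |p| ≤ 2 * W → |p / W| ≤ 2 := by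
    intro p hp
    rw [abs_div, abs_of_pos hW, div_le_iff₀ hW]
    exact hp
  have hout : ∀ p : ℝ, 3 * W ≤ |p| → 3 ≤ |p / W| := by
    intro p hp
    rw [abs_div, abs_of_pos hW, le_div_iff₀ hW]
    exact hp
  refine ⟨?_, ?_, ?_, ?_, ?_, ?_, ?_, ?_, ?_, ?_⟩
  · exact fcz_contDiff.continuous.comp (continuous_id.div_const W)
  · exact (hc1.comp (continuous_id.div_const W)).div_const W
  · exact (hc2.comp (continuous_id.div_const W)).div_const (W ^ 2)
  · intro p
    refine ((hd0 (p / W)).comp p (hdiv p)).congr_deriv ?_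
    ring
  · intro p
    refine (((hd1 (p / W)).comp p (hdiv p)).div_const W).congr_deriv ?_
    field_simp
  · intro p hp
    obtain ⟨e1, e2, e3⟩ := fcz_in (hin p hp)
    refine ⟨e1, ?_, ?_⟩
    · change deriv fcz (p / W) / W = 0
      rw [e2, zero_div]
    · change deriv (deriv fcz) (p / W) / W ^ 2 = 0
      rw [e3, zero_div]
  · intro p hp
    obtain ⟨e1, e2, e3⟩ := fcz_out (hout p hp)
    refine ⟨e1, ?_, ?_⟩
    · change deriv fcz (p / W) / W = 0
      rw [e2, zero_div]
    · change deriv (deriv fcz) (p / W) / W ^ 2 = 0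
      rw [e3, zero_div]
  · intro p
    rw [abs_of_nonneg (fcz_nonneg _)]
    exact fcz_le_one _
  · intro p
    change |deriv fcz (p / W) / W| ≤ _
    rw [abs_div, abs_of_pos hW]
    exact div_le_div_of_nonneg_right ((h1 _).trans (by linarith)) hW.le
  · intro p
    change |deriv (deriv fcz) (p / W) / W ^ 2| ≤ _
    rw [abs_div, abs_of_pos (pow_pos hW 2)]
    exact div_le_div_of_nonneg_right ((h2 _).trans (by linarith)) (pow_pos hW 2).le

end

end P229
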