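import Vale.Agent.P229.F.Lhs
import Vale.Agent.P229.F.Bump
import Vale.Agent.P229.F.Cut

/-! # P229, block F: assembly -/

namespace P229

open Set Real

noncomputable section

/-- F_SHOOT (proved in `Shoot.lean` by helper57), in the form used here. -/
def ShootStatement : Prop := ∀ Ca : ℝ, 1 ≤ Ca → ∃ C' : ℝ, 1 ≤ C' ∧
  ∀ e : ℝ, 0 < e → e ≤ 1 → ∀ a : ℝ → ℝ, ContinuousOn a (Icc (-YY) YY) →
    (∀ y : ℝ, |y| ≤ 2 → 0 ≤ a y) → (∀ y : ℝ, 2 ≤ |y| → |y| ≤ YY → a y ≤ 0) →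
    (∀ y : ℝ, 1 ≤ |y| → |y| ≤ 2 → a y = 0) → (∀ y : ℝ, |y| ≤ 1 / 2 → e / Ca ≤ a y) →
    (∀ y : ℝ, |y| ≤ 1 → a y ≤ Ca * e) →
    ∃ (om : ℝ) (psi dpsi : ℝ → ℝ), 0 < om ∧ 1 / C' ≤ om ^ 2 * e ∧ om ^ 2 * e ≤ C' ∧
      FMode a om psi dpsi

/-- properties of `a_*` -/
structure FAst (P : Par) (C : ℝ) (astar : ℝ → ℝ) : Prop where
  cont : ContinuousOn astar (Icc (-YY) YY)
  nonneg : ∀ y : ℝ, |y| ≤ 2 → 0 ≤ astar y
  nonpos : ∀ y : ℝ, 2 ≤ |y| → |y| ≤ YY → astar y ≤ 0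
  gap : ∀ y : ℝ, 1 ≤ |y| → |y| ≤ 2 → astar y = 0
  lower : ∀ y : ℝ, |y| ≤ 1 / 2 → P.epsc / C ≤ astar y
  upper : ∀ y : ℝ, |y| ≤ 1 → astar y ≤ C * P.epsc
  abs : ∀ y ∈ Icc (-YY) YY, |astar y| ≤ C * P.eps

/-- what block F needs from the shared linearization files. -/
def FWeak (P : Par) (C : ℝ) (astar : ℝ → ℝ) (V : J2) (h : ℝ → ℝ → ℝ) : Prop :=
  ∀ φ : ℝ → ℝ → ℝ, CR (-(3 * P.W1)) (3 * P.W1) (-YY) YY φ →
    ∃ t tp ty a ap d g : ℝ → ℝ → ℝ, FCoef P C astar t tp ty a ap d g ∧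
      I2 (-(3 * P.W1)) (3 * P.W1) (-YY) YY (fun p y => φ p y * fL t tp ty a ap d g V p y)
        = I2 (-(3 * P.W1)) (3 * P.W1) (-YY) YY (fun p y => φ p y * h p y)

/-- the jet of `v = u - U` -/
def vJet (u : ℝ → ℝ → ℝ) (U : J2) : J2 :=
  ⟨fun p y => u p y - U.w p y, fun p y => dx u p y - U.wp p y, fun p y => dy u p y - U.wy p y,
   fun p y => dx (dx u) p y - U.wpp p y, fun p y => dy (dx u) p y - U.wpy p y,
   fun p y => dy (dy u) p y - U.wyy p y⟩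

/-- `h = E0(u) - E0(U)` -/
def hfun (P : Par) (mu : ℝ) (u : ℝ → ℝ → ℝ) (U : J2) (p y : ℝ) : ℝ :=
  EE0 P mu p y (dx u p y) (dy u p y) (dx (dx u) p y) (dy (dx u) p y) (dy (dy u) p y)
    - EE0 P mu p y (U.wp p y) (U.wy p y) (U.wpp p y) (U.wpy p y) (U.wyy p y)

theorem J2.IsJet.monoP {J : J2} {a b c d a' b' : ℝ} (h : J.IsJet a b c d) (ha : a ≤ a')
    (hb : b' ≤ b) : J.IsJet a' b' c d := by
  have hs : Icc a' b' ×ˢ Icc c d ⊆ Icc a b ×ˢ Icc c d :=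
    Set.prod_mono (Icc_subset_Icc ha hb) subset_rfl
  exact ⟨h.cw.mono hs, h.cwp.mono hs, h.cwy.mono hs, h.cwpp.mono hs, h.cwpy.mono hs,
    h.cwyy.mono hs,
    fun p hp y hy => h.hp p ⟨ha.trans_lt hp.1, hp.2.trans_le hb⟩ y hy,
    fun p hp y hy => h.hpp p ⟨ha.trans_lt hp.1, hp.2.trans_le hb⟩ y hy,
    fun p hp y hy => h.hyp p ⟨ha.trans_lt hp.1, hp.2.trans_le hb⟩ y hy,
    fun p hp y hy => h.hy p ⟨ha.trans hp.1, hp.2.trans hb⟩ y hy,
    fun p hp y hy => h.hpy p ⟨ha.trans hp.1, hp.2.trans hb⟩ y hy,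
    fun p hp y hy => h.hyy p ⟨ha.trans hp.1, hp.2.trans hb⟩ y hy⟩

private theorem asm_par {r : ℝ} (k b : ℕ) (hr : 0 < r) (hr1 : r < 1) :
    0 < (Par.mk r k b).eps ∧ (Par.mk r k b).eps ≤ 1 ∧ 0 < (Par.mk r k b).epsc ∧
      (Par.mk r k b).epsc ≤ 1 ∧ 0 < (Par.mk r k b).lam ∧ (Par.mk r k b).lam ≤ 1 ∧
      0 < (Par.mk r k b).eta ∧ (Par.mk r k b).eta ≤ 1 ∧ 0 < (Par.mk r k b).W1 ∧
      (Par.mk r k b).W1 ≤ 1 := by
  unfold Par.eps Par.epsc Par.lam Par.eta Par.W1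
  have h : ∀ n : ℕ, 0 < r ^ n ∧ r ^ n ≤ 1 := fun n => ⟨pow_pos hr n, pow_le_one₀ hr.le hr1.le⟩
  exact ⟨(h _).1, (h _).2, (h _).1, (h _).2, (h _).1, (h _).2, (h _).1, (h _).2, (h _).1, (h _).2⟩

private theorem asm_b0 {r : ℝ} (k b : ℕ) (hr : 0 < r) (hr1 : r < 1) {x y : ℝ} (hx : |x| ≤ 2) :
    |b0 ⟨r, k, b⟩ x y| ≤ 6 := by
  obtain ⟨e1, e2, e3, e4, -⟩ := asm_par k b hr hr1
  have hx2 : x ^ 2 ≤ 4 := by
    have := abs_le.1 hx
    nlinarith
  have hx0 : 0 ≤ x ^ 2 := sq_nonneg x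
  have c1 := chi_nonneg y
  have c2 := chi_le_one y
  have c3 := kk_nonneg y
  have c4 := kk_le_one y
  unfold b0
  have h1 : 0 ≤ (Par.mk r k b).eps * chi y * x ^ 2 / 2 := by positivity
  have h2 : (Par.mk r k b).eps * chi y * x ^ 2 / 2 ≤ 2 := by
    have : (Par.mk r k b).eps * chi y ≤ 1 := mul_le_one₀ e2 c1 c2
    nlinarith [mul_nonneg e1.le c1]
  have h3 : |(Par.mk r k b).epsc * kk y * (x ^ 2 / 2 - x ^ 4 / 12)| ≤ 4 := by
    rw [abs_mul, abs_of_nonneg (mul_nonneg e3.le c3)]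
    have h5 : (Par.mk r k b).epsc * kk y ≤ 1 := mul_le_one₀ e4 c3 c4
    have h6 : |x ^ 2 / 2 - x ^ 4 / 12| ≤ 4 := by
      rw [abs_le]
      constructor <;> nlinarith [sq_nonneg (x ^ 2)]
    calc _ ≤ 1 * 4 := mul_le_mul h5 h6 (abs_nonneg _) (by norm_num)
      _ = 4 := by norm_num
  have h4 := abs_le.1 h3
  rw [abs_le]
  constructor <;> linarith [h4.1, h4.2]

private theorem asm_bb {r : ℝ} (k b : ℕ) (hr : 0 < r) (hr1 : r < 1) (x y : ℝ) :
    0 ≤ bb ⟨r, k, b⟩ x y ∧ bb ⟨r, k, b⟩ x y ≤ 1 := by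
  obtain ⟨-, -, e3, e4, e5, e6, e7, e8, -⟩ := asm_par k b hr hr1
  unfold bb
  have c3 := kk_nonneg (x / (Par.mk r k b).lam)
  have c4 := kk_le_one (x / (Par.mk r k b).lam)
  have c5 := kk_nonneg (y / (Par.mk r k b).lam)
  have c6 := kk_le_one (y / (Par.mk r k b).lam)
  refine ⟨by positivity, ?_⟩
  have h1 : (Par.mk r k b).eta * (Par.mk r k b).epsc ≤ 1 := mul_le_one₀ e8 e3.le e4
  have h2 : (Par.mk r k b).lam ^ 2 ≤ 1 := pow_le_one₀ e5.le e6
  exact mul_le_one₀ (mul_le_one₀ (mul_le_one₀ h1 (by positivity) h2) c3 c4) c5 c6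

private theorem asm_B {r : ℝ} (k b : ℕ) (hr : 0 < r) (hr1 : r < 1 / 10) {x y : ℝ} (hx : |x| ≤ 2) :
    1 + r ^ 2 * b0 ⟨r, k, b⟩ x y ≠ 0 ∧
      1 + r ^ 2 * (b0 ⟨r, k, b⟩ x y + bb ⟨r, k, b⟩ x y) ≠ 0 := by
  have h1 := abs_le.1 (asm_b0 k b (y := y) hr (by linarith) hx)
  have h2 := asm_bb k b hr (by linarith) x y
  have h3 : r ^ 2 ≤ 1 / 100 := by nlinarith
  have h4 : 0 < r ^ 2 := by positivity
  constructor
  · have : 0 < 1 + r ^ 2 * b0 ⟨r, k, b⟩ x y := by nlinarith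
    exact this.ne'
  · have : 0 < 1 + r ^ 2 * (b0 ⟨r, k, b⟩ x y + bb ⟨r, k, b⟩ x y) := by nlinarith
    exact this.ne'

private theorem asm_contEE0 {r : ℝ} (k b : ℕ) (mu : ℝ) (hr : 0 < r) (hr1 : r < 1 / 10)
    {S : Set (ℝ × ℝ)} {x uy upp upy uyy : ℝ → ℝ → ℝ}
    (hx : ContinuousOn (Function.uncurry x) S) (huy : ContinuousOn (Function.uncurry uy) S)
    (hupp : ContinuousOn (Function.uncurry upp) S) (hupy : ContinuousOn (Function.uncurry upy) S)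
    (huyy : ContinuousOn (Function.uncurry uyy) S) (hb : ∀ q ∈ S, |x q.1 q.2| ≤ 2) :
    ContinuousOn (Function.uncurry (fun p y => EE0 ⟨r, k, b⟩ mu p y (x p y) (uy p y) (upp p y)
      (upy p y) (uyy p y))) S := by
  have hk : Continuous kk := kk_contDiff.continuous
  have hc : Continuous chi := chi_contDiff.continuous
  have hk' : Continuous (deriv kk) := kk_contDiff.continuous_deriv (by simp)
  have hc' : Continuous (deriv chi) := chi_contDiff.continuous_deriv (by simp)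
  have hx' : ContinuousOn (fun q : ℝ × ℝ => x q.1 q.2) S := hx
  have huy' : ContinuousOn (fun q : ℝ × ℝ => uy q.1 q.2) S := huy
  have hupp' : ContinuousOn (fun q : ℝ × ℝ => upp q.1 q.2) S := hupp
  have hupy' : ContinuousOn (fun q : ℝ × ℝ => upy q.1 q.2) S := hupy
  have huyy' : ContinuousOn (fun q : ℝ × ℝ => uyy q.1 q.2) S := huyy
  have hk2 : ContinuousOn (fun q : ℝ × ℝ => kk q.2) S := (hk.comp continuous_snd).continuousOn
  have hc2 : ContinuousOn (fun q : ℝ × ℝ => chi q.2) S := (hc.comp continuous_snd).continuousOn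
  have hk2' : ContinuousOn (fun q : ℝ × ℝ => deriv kk q.2) S :=
    (hk'.comp continuous_snd).continuousOn
  have hc2' : ContinuousOn (fun q : ℝ × ℝ => deriv chi q.2) S :=
    (hc'.comp continuous_snd).continuousOn
  have hB : ContinuousOn (fun q : ℝ × ℝ => 1 + r ^ 2 * b0 ⟨r, k, b⟩ (x q.1 q.2) q.2) S := by
    unfold b0
    fun_prop
  have hq : ContinuousOn (fun q : ℝ × ℝ => -uy q.1 q.2 /
      (1 + r ^ 2 * b0 ⟨r, k, b⟩ (x q.1 q.2) q.2)) S :=
    (huy'.neg).div hB (fun q hq => (asm_B k b (y := q.2) hr hr1 (hb q hq)).1)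
  have h0x : ContinuousOn (fun q : ℝ × ℝ => b0x ⟨r, k, b⟩ (x q.1 q.2) q.2) S := by
    unfold b0x
    fun_prop
  have h0xx : ContinuousOn (fun q : ℝ × ℝ => b0xx ⟨r, k, b⟩ (x q.1 q.2) q.2) S := by
    unfold b0xx
    fun_prop
  have h0y : ContinuousOn (fun q : ℝ × ℝ => b0y ⟨r, k, b⟩ (x q.1 q.2) q.2) S := by
    unfold b0y
    fun_prop
  have hp : ContinuousOn (fun q : ℝ × ℝ => q.1) S := continuous_fst.continuousOn
  show ContinuousOn (fun q : ℝ × ℝ => EE0 ⟨r, k, b⟩ mu q.1 q.2 (x q.1 q.2) (uy q.1 q.2)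
    (upp q.1 q.2) (upy q.1 q.2) (uyy q.1 q.2)) S
  unfold EE0 EEalg
  have e1 := (huyy'.add (((continuousOn_const (c := (2 : ℝ))).mul
    (((continuousOn_const (c := r ^ 2)).mul h0x).mul hq)).mul hupy'))
  have e2 := e1.add (((((continuousOn_const (c := r ^ 2)).mul h0x).mul hq).pow 2).mul hupp')
  have e3 := e2.sub (((hB.mul ((continuousOn_const (c := mu)).sub
    ((continuousOn_const (c := r ^ 2)).mul ((hp.pow 2).add (hq.pow 2))))).mul h0xx).mul hupp')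
  exact e3.add ((continuousOn_const (c := r ^ 2)).mul ((hq.mul h0y).sub ((hB.mul hp).mul h0x)))

private theorem asm_final {r c C : ℝ} {k b M : ℕ} (hr : 0 < r) (hr1 : r < 1 / 100) (hC : 1 ≤ C)
    (hk : 10 ≤ k) (hM : 2 * b + 100 * (k + 1) ≤ M) (hrE : r < c / (2 * (C + 100)))
    (h2 : c * ((Par.mk r k b).eta * (Par.mk r k b).lam ^ 4)
      ≤ C * r ^ (b + 43 * k + 2) + 100 * r ^ (2 * M)) : False := by
  have hC100 : 0 < 2 * (C + 100) := by linarith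
  have h3 : (Par.mk r k b).eta * (Par.mk r k b).lam ^ 4 = r ^ (b + 40 * k + 8) := by
    show r ^ b * (r ^ (10 * k + 2)) ^ 4 = _
    rw [← pow_mul, ← pow_add]
    congr 1
    ring
  have h4 : r ^ (b + 43 * k + 2) ≤ r ^ (b + 40 * k + 8) * r := by
    rw [← pow_succ]
    exact pow_le_pow_of_le_one hr.le (by linarith) (by omega)
  have h5 : r ^ (2 * M) ≤ r ^ (b + 40 * k + 8) * r := by
    rw [← pow_succ]
    exact pow_le_pow_of_le_one hr.le (by linarith) (by omega)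
  rw [h3] at h2
  have h6 : 0 < r ^ (b + 40 * k + 8) := pow_pos hr _
  have h7 : c * r ^ (b + 40 * k + 8) ≤ (C + 100) * r * r ^ (b + 40 * k + 8) := by
    have h8 : C * r ^ (b + 43 * k + 2) ≤ C * (r ^ (b + 40 * k + 8) * r) :=
      mul_le_mul_of_nonneg_left h4 (by linarith)
    have h9 : 100 * r ^ (2 * M) ≤ 100 * (r ^ (b + 40 * k + 8) * r) :=
      mul_le_mul_of_nonneg_left h5 (by norm_num)
    calc c * r ^ (b + 40 * k + 8) ≤ C * (r ^ (b + 40 * k + 8) * r)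
          + 100 * (r ^ (b + 40 * k + 8) * r) := by linarith
      _ = (C + 100) * r * r ^ (b + 40 * k + 8) := by ring
  have h8 : c ≤ (C + 100) * r := le_of_mul_le_mul_right h7 h6
  have h9 : r * (2 * (C + 100)) < c := (lt_div_iff₀ hC100).1 hrE
  have h10 : 0 < (C + 100) * r := by positivity
  linarith

private theorem asm_rem {r mu C1 C2 Cz om : ℝ} {k b Q : ℕ} {u : ℝ → ℝ → ℝ} {U : J2}
    {astar psi dpsi z z1 z2 : ℝ → ℝ} (hr : 0 < r) (hr1 : r < 1 / 100) (hk : 10 ≤ k)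
    (hC2 : 1 ≤ C2) (hrD : r < 1 / C2)
    (hG : GoodU ⟨r, k, b⟩ mu C1 u) (hSl : SlowU ⟨r, k, b⟩ mu C2 Q u U)
    (hJ : (vJet u U).IsJet (-(14 / 10)) (14 / 10) (-YY) YY)
    (hF : FMode astar om psi dpsi) (hz : FCut (Par.mk r k b).W1 Cz z z1 z2) :
    |I2 (-(3 * (Par.mk r k b).W1)) (3 * (Par.mk r k b).W1) (-YY) YY
      (fun p y => psi y * q0 om z p * hbump ⟨r, k, b⟩ mu u p y)|
    ≤ |I2 (-(3 * (Par.mk r k b).W1)) (3 * (Par.mk r k b).W1) (-YY) YY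
      (fun p y => psi y * q0 om z p * hfun ⟨r, k, b⟩ mu u U p y)| + 100 * r ^ Q := by
  have hC2pos : 0 < C2 := by linarith
  obtain ⟨e1, e2, e3, e4, e5, e6, e7, e8, e9, e10⟩ := asm_par k b hr (by linarith)
  have hW1r : (Par.mk r k b).W1 ≤ r := by
    show r ^ (9 * k) ≤ r
    calc r ^ (9 * k) ≤ r ^ 1 := pow_le_pow_of_le_one hr.le (by linarith) (by omega)
      _ = r := pow_one r
  have hsr : (Par.mk r k b).s ≤ r := by
    show r ^ (10 * k) ≤ r
    calc r ^ (10 * k) ≤ r ^ 1 := pow_le_pow_of_le_one hr.le (by linarith) (by omega)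
      _ = r := pow_one r
  have hs0 : 0 < (Par.mk r k b).s := pow_pos hr _
  generalize hPdef : (Par.mk r k b) = P at *
  have hPr : P.r = r := by rw [← hPdef]
  have hYY : (0 : ℝ) < YY := by unfold YY; norm_num
  have hYY2 : YY < 208 / 100 := by unfold YY; norm_num
  have h3W : 3 * P.W1 ≤ 3 / 100 := by linarith
  have hab : -(3 * P.W1) ≤ 3 * P.W1 := by linarith
  have hcd : -YY ≤ YY := by linarith
  have hq0c : Continuous (q0 om z) := by
    unfold q0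
    exact (Real.continuous_cos.comp (continuous_const.mul continuous_id)).mul hz.cz
  have hφ : CR (-(3 * P.W1)) (3 * P.W1) (-YY) YY (fun p y => psi y * q0 om z p) :=
    (CR.ofY hF.cpsi).mul (CR.ofP hq0c.continuousOn)
  have hsub : Icc (-(3 * P.W1)) (3 * P.W1) ×ˢ Icc (-YY) YY
      ⊆ Icc (-(14 / 10 : ℝ)) (14 / 10) ×ˢ Icc (-YY) YY :=
    Set.prod_mono (Icc_subset_Icc (by linarith) (by linarith)) subset_rfl
  have hpm : ∀ p ∈ Icc (-(3 * P.W1)) (3 * P.W1), p ∈ Icc (-(14 / 10 : ℝ)) (14 / 10) :=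
    fun p hp => ⟨by linarith [hp.1], by linarith [hp.2]⟩
  have hp1 : ∀ p ∈ Icc (-(3 * P.W1)) (3 * P.W1), |p| < 144 / 100 := fun p hp =>
    abs_lt.2 ⟨by linarith [hp.1], by linarith [hp.2]⟩
  have hy1 : ∀ y ∈ Icc (-YY) YY, |y| < 208 / 100 := fun y hy =>
    abs_lt.2 ⟨by linarith [hy.1], by linarith [hy.2]⟩
  -- continuity of the derivatives of `u`
  have cx : CR (-(3 * P.W1)) (3 * P.W1) (-YY) YY (dx u) := by
    refine ((hJ.cwp.add hSl.jet.cwp).congr ?_).mono hsub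
    intro q hq
    simp [vJet, Function.uncurry]
  have cuy : CR (-(3 * P.W1)) (3 * P.W1) (-YY) YY (dy u) := by
    refine ((hJ.cwy.add hSl.jet.cwy).congr ?_).mono hsub
    intro q hq
    simp [vJet, Function.uncurry]
  have cupp : CR (-(3 * P.W1)) (3 * P.W1) (-YY) YY (dx (dx u)) := by
    refine ((hJ.cwpp.add hSl.jet.cwpp).congr ?_).mono hsub
    intro q hq
    simp [vJet, Function.uncurry]
  have cupy : CR (-(3 * P.W1)) (3 * P.W1) (-YY) YY (dy (dx u)) := by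
    refine ((hJ.cwpy.add hSl.jet.cwpy).congr ?_).mono hsub
    intro q hq
    simp [vJet, Function.uncurry]
  have cuyy : CR (-(3 * P.W1)) (3 * P.W1) (-YY) YY (dy (dy u)) := by
    refine ((hJ.cwyy.add hSl.jet.cwyy).congr ?_).mono hsub
    intro q hq
    simp [vJet, Function.uncurry]
  have hup : ∀ p ∈ Icc (-(3 * P.W1)) (3 * P.W1), ∀ y ∈ Icc (-YY) YY, |dx u p y| ≤ 1 / 10 := by
    intro p hp y hy
    have h1 := abs_le.1 (hG.up p y (hp1 p hp) (hy1 y hy))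
    exact abs_le.2 ⟨by linarith [hp.1, h1.1], by linarith [hp.2, h1.2]⟩
  have hUp : ∀ p ∈ Icc (-(3 * P.W1)) (3 * P.W1), ∀ y ∈ Icc (-YY) YY, |U.wp p y| ≤ 2 := by
    intro p hp y hy
    have h1 := abs_le.1 (hup p hp y hy)
    have h2 := abs_le.1 (hSl.cp p (hpm p hp) y hy)
    have h3 : C2 * P.s ≤ 1 := by
      calc C2 * P.s ≤ C2 * r := mul_le_mul_of_nonneg_left hsr hC2pos.le
        _ ≤ C2 * (1 / C2) := mul_le_mul_of_nonneg_left hrD.le hC2pos.le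
        _ = 1 := by field_simp
    exact abs_le.2 ⟨by linarith [h1.1, h2.2], by linarith [h1.2, h2.1]⟩
  have cE0u : CR (-(3 * P.W1)) (3 * P.W1) (-YY) YY (fun p y => EE0 P mu p y (dx u p y) (dy u p y)
      (dx (dx u) p y) (dy (dx u) p y) (dy (dy u) p y)) := by
    subst hPdef
    exact asm_contEE0 k b mu hr (by linarith) cx cuy cupp cupy cuyy (fun q hq =>
      (hup q.1 hq.1 q.2 hq.2).trans (by norm_num))
  have cE0U : CR (-(3 * P.W1)) (3 * P.W1) (-YY) YY (fun p y => EE0 P mu p y (U.wp p y)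
      (U.wy p y) (U.wpp p y) (U.wpy p y) (U.wyy p y)) := by
    subst hPdef
    exact asm_contEE0 k b mu hr (by linarith) (hSl.jet.cwp.mono hsub) (hSl.jet.cwy.mono hsub)
      (hSl.jet.cwpp.mono hsub) (hSl.jet.cwpy.mono hsub) (hSl.jet.cwyy.mono hsub)
      (fun q hq => hUp q.1 hq.1 q.2 hq.2)
  -- the equation
  have hEE : ∀ p ∈ Icc (-(3 * P.W1)) (3 * P.W1), ∀ y ∈ Icc (-YY) YY,
      EE P mu p y (dx u p y) (dy u p y) (dx (dx u) p y) (dy (dx u) p y) (dy (dy u) p y) = 0 :=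
    fun p hp y hy => hG.pde p y (hp1 p hp) (hy1 y hy)
  have chb : CR (-(3 * P.W1)) (3 * P.W1) (-YY) YY (hbump P mu u) := by
    refine ContinuousOn.congr cE0u ?_
    intro q hq
    show hbump P mu u q.1 q.2 = _
    unfold hbump
    rw [hEE q.1 hq.1 q.2 hq.2, sub_zero]
    rfl
  have eI : I2 (-(3 * P.W1)) (3 * P.W1) (-YY) YY
        (fun p y => psi y * q0 om z p * hfun P mu u U p y)
      = I2 (-(3 * P.W1)) (3 * P.W1) (-YY) YY (fun p y => psi y * q0 om z p * hbump P mu u p y)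
        - I2 (-(3 * P.W1)) (3 * P.W1) (-YY) YY (fun p y => psi y * q0 om z p *
          EE0 P mu p y (U.wp p y) (U.wy p y) (U.wpp p y) (U.wpy p y) (U.wyy p y)) := by
    rw [← I2_sub hab hcd (hφ.mul chb) (hφ.mul cE0U)]
    refine I2_congr hab hcd ?_
    intro p hp y hy
    unfold hfun hbump
    rw [hEE p hp y hy]
    ring
  -- the remainder
  have hrem : |I2 (-(3 * P.W1)) (3 * P.W1) (-YY) YY (fun p y => psi y * q0 om z p *
          EE0 P mu p y (U.wp p y) (U.wy p y) (U.wpp p y) (U.wpy p y) (U.wyy p y))|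
        ≤ 100 * r ^ Q := by
    refine (I2_abs_le hab hcd (hφ.mul cE0U) (CR.const _ _ _ _ (2 * r ^ Q)) ?_).trans ?_
    · intro p hp y hy
      have h1 := hSl.eq p (hpm p hp) y hy
      rw [hPr] at h1
      have h2 := hF.nonneg y hy
      have h3 := hF.le2 y hy
      have h4 : |q0 om z p| ≤ 1 := by
        unfold q0
        rw [abs_mul]
        exact mul_le_one₀ (Real.abs_cos_le_one _) (abs_nonneg _) (hz.b0 p)
      rw [abs_mul, abs_mul, abs_of_nonneg h2]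
      calc psi y * |q0 om z p| * |EE0 P mu p y (U.wp p y) (U.wy p y) (U.wpp p y) (U.wpy p y)
              (U.wyy p y)|
          ≤ 2 * 1 * r ^ Q := by
            refine mul_le_mul (mul_le_mul h3 h4 (abs_nonneg _) (by norm_num)) h1 (abs_nonneg _)
              (by norm_num)
        _ = 2 * r ^ Q := by ring
    · have h5 : I2 (-(3 * P.W1)) (3 * P.W1) (-YY) YY (fun _ _ => 2 * r ^ Q)
          = (24 * YY) * (P.W1 * r ^ Q) := by
        unfold I2
        simp only [intervalIntegral.integral_const, smul_eq_mul]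
        ring
      rw [h5]
      have h6 : 0 < r ^ Q := pow_pos hr _
      have h7 : P.W1 * r ^ Q ≤ 1 * r ^ Q := mul_le_mul_of_nonneg_right e10 h6.le
      have h8 : 0 ≤ P.W1 * r ^ Q := by positivity
      unfold YY
      linarith
  rw [eI]
  have h3 := abs_sub_abs_le_abs_sub (I2 (-(3 * P.W1)) (3 * P.W1)
      (-YY) YY (fun p y => psi y * q0 om z p * hbump P mu u p y))
      (I2 (-(3 * P.W1)) (3 * P.W1) (-YY) YY
        (fun p y => psi y * q0 om z p * EE0 P mu p y (U.wp p y) (U.wy p y) (U.wpp p y)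
          (U.wpy p y) (U.wyy p y)))
  linarith

private theorem asm_tails {P : Par} {M : ℕ} {Cx : ℝ} {u : ℝ → ℝ → ℝ} {U : J2}
    (h0 : 0 < P.W1) (h3W : 3 * P.W1 ≤ 3 / 100) (he : 0 < P.eps) (hec : 0 < P.epsc)
    (hT : TOut P M Cx u U)
    (hJ : (vJet u U).IsJet (-(14 / 10)) (14 / 10) (-YY) YY) :
    I2 (-(3 * P.W1)) (-(2 * P.W1)) (-YY) YY (fden P (vJet u U)) ≤ P.r ^ M ∧
    I2 (2 * P.W1) (3 * P.W1) (-YY) YY (fden P (vJet u U)) ≤ P.r ^ M := by
  have hYY : (0 : ℝ) < YY := by unfold YY; norm_num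
  have hcd : -YY ≤ YY := by linarith
  have cden : CR (-(14 / 10 : ℝ)) (14 / 10) (-YY) YY (fden P (vJet u U)) := by
    have h1 : CR (-(14 / 10 : ℝ)) (14 / 10) (-YY) YY (vJet u U).wy := hJ.cwy
    have h2 : CR (-(14 / 10 : ℝ)) (14 / 10) (-YY) YY (vJet u U).wp := hJ.cwp
    have h3 : ContinuousOn (fmd P) (Icc (-YY) YY) := by
      unfold fmd
      exact ((continuous_const.mul kk_contDiff.continuous).add
        (continuous_const.mul chi_contDiff.continuous)).continuousOn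
    exact (h1.pow 2).add ((CR.ofY h3).mul (h2.pow 2))
  have hden0 : ∀ p y : ℝ, 0 ≤ fden P (vJet u U) p y := by
    intro p y
    have h1 := kk_nonneg y
    have h2 := chi_nonneg y
    unfold fden fmd
    positivity
  constructor
  · refine (I2_mono_rect (a := -(5 / 4)) (b := -(2 * P.W1)) (c := -YY) (d := YY)
      (cden.mono (by norm_num) (by linarith) le_rfl le_rfl) (by linarith) (by linarith) le_rfl
      le_rfl hcd le_rfl (fun p _ y _ => hden0 p y)).trans ?_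
    exact hT.left
  · refine (I2_mono_rect (a := 2 * P.W1) (b := 5 / 4) (c := -YY) (d := YY)
      (cden.mono (by linarith) (by norm_num) le_rfl le_rfl) le_rfl (by linarith) (by linarith)
      le_rfl hcd le_rfl (fun p _ y _ => hden0 p y)).trans ?_
    exact hT.right

/-- F_ASM.  Assembly. `h = hbump - E0(U)` because `E(u) = 0`; `|II psi q0 E0(U)| <= 100 r^(2M)`;
`bump_lower` against `lhs_small`: `c r^(b+40k+8) <= C r^(b+43k+2) + 100 r^(2M)`. -/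
theorem asm_false (hS : ShootStatement) (C1 C2 Cx Cc : ℝ) (k b M : ℕ) (hC1 : 1 ≤ C1)
    (hC2 : 1 ≤ C2) (hCx : 1 ≤ Cx) (hCc : 1 ≤ Cc) (hk : 10 ≤ k) (hb : 20 * k + 10 ≤ b)
    (hM : 2 * b + 100 * (k + 1) ≤ M) :
    ∃ r0 : ℝ, 0 < r0 ∧ ∀ r : ℝ, 0 < r → r < r0 → ∀ (mu : ℝ) (u : ℝ → ℝ → ℝ) (U : J2),
      1 / C1 ≤ mu → mu ≤ C1 → GoodU ⟨r, k, b⟩ mu C1 u → SlowU ⟨r, k, b⟩ mu C2 (2 * M) u U →
      TOut ⟨r, k, b⟩ M Cx u U → ∀ astar : ℝ → ℝ, FAst ⟨r, k, b⟩ Cc astar →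
      (vJet u U).IsJet (-(14 / 10)) (14 / 10) (-YY) YY →
      FWeak ⟨r, k, b⟩ Cc astar (vJet u U) (hfun ⟨r, k, b⟩ mu u U) → False := by
  obtain ⟨C', hC', HS⟩ := hS Cc hCc
  obtain ⟨Cz, hCz, HC⟩ := exists_fcut
  obtain ⟨C, r1, hC, hr1, HL⟩ := lhs_small C' Cz Cc Cx k b M hC' hCz hCc hCx hk hb hM
  obtain ⟨c, r2, hc, hr2, HB⟩ := bump_lower C1 C' Cz k b hC1 hC' hCz hk hb
  have hC2pos : 0 < C2 := by linarith
  have hC100 : 0 < 2 * (C + 100) := by linarith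
  refine ⟨min (min r1 r2) (min (min (1 / 100) (1 / C2)) (c / (2 * (C + 100)))), by positivity, ?_⟩
  intro r hr hrr mu u U hmu1 hmu2 hG hSl hT astar hA hJ hW
  have hrA : r < r1 := lt_of_lt_of_le hrr ((min_le_left _ _).trans (min_le_left _ _))
  have hrB : r < r2 := lt_of_lt_of_le hrr ((min_le_left _ _).trans (min_le_right _ _))
  have hrC : r < 1 / 100 := lt_of_lt_of_le hrr
    ((min_le_right _ _).trans ((min_le_left _ _).trans (min_le_left _ _)))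
  have hrD : r < 1 / C2 := lt_of_lt_of_le hrr
    ((min_le_right _ _).trans ((min_le_left _ _).trans (min_le_right _ _)))
  have hrE : r < c / (2 * (C + 100)) := lt_of_lt_of_le hrr
    ((min_le_right _ _).trans (min_le_right _ _))
  obtain ⟨e1, e2, e3, e4, e5, e6, e7, e8, e9, e10⟩ := asm_par k b hr (by linarith)
  obtain ⟨om, psi, dpsi, hom, ho1, ho2, hF⟩ := HS (Par.mk r k b).epsc e3 e4 astar hA.cont
    hA.nonneg hA.nonpos hA.gap hA.lower hA.upper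
  obtain ⟨z, z1, z2, hz⟩ := HC (Par.mk r k b).W1 e9
  have hW1r : (Par.mk r k b).W1 ≤ r := by
    show r ^ (9 * k) ≤ r
    calc r ^ (9 * k) ≤ r ^ 1 := pow_le_pow_of_le_one hr.le (by linarith) (by omega)
      _ = r := pow_one r
  have hq0c : Continuous (q0 om z) := by
    unfold q0
    exact (Real.continuous_cos.comp (continuous_const.mul continuous_id)).mul hz.cz
  have hφ : CR (-(3 * (Par.mk r k b).W1)) (3 * (Par.mk r k b).W1) (-YY) YY
      (fun p y => psi y * q0 om z p) :=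
    (CR.ofY hF.cpsi).mul (CR.ofP hq0c.continuousOn)
  obtain ⟨t, tp, ty, a, ap, d, g, hK, hE⟩ := hW (fun p y => psi y * q0 om z p) hφ
  have hpm : ∀ p ∈ Icc (-(3 * (Par.mk r k b).W1)) (3 * (Par.mk r k b).W1),
      p ∈ Icc (-(14 / 10 : ℝ)) (14 / 10) :=
    fun p hp => ⟨by linarith [hp.1], by linarith [hp.2]⟩
  have hT12 := asm_tails e9 (by linarith) e1 e3 hT hJ
  have HL' := HL r hr hrA om astar psi dpsi z z1 z2 t tp ty a ap d g (vJet u U) hom ho1 ho2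
    hA.cont hA.abs hF hz hK (hJ.monoP (by linarith) (by linarith))
    (fun p hp => ⟨by
      show u p YY - U.w p YY = 0
      rw [hSl.top p (hpm p hp), sub_self], by
      show u p (-YY) - U.w p (-YY) = 0
      rw [hSl.bot p (hpm p hp), sub_self]⟩) hT12.1 hT12.2 hT.mid
  have HB' := HB r hr hrB mu u hmu1 hmu2 hG om astar psi dpsi z z1 z2 hom ho1 ho2 hF hz
  have HR := asm_rem hr hrC hk hC2 hrD hG hSl hJ hF hz
  rw [hE] at HL'
  exact asm_final hr hrC hC hk hM hrE (HB'.trans (HR.trans (add_le_add_left HL' _)))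

end

end P229
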