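import Vale.Agent.P229.Interface
import Vale.Agent.P229.Prof
import Vale.Agent.P229.T.Int2

/-! # P229, block F: shared definitions (helper65) -/

namespace P229

open Set Real

noncomputable section

/-- the weight of the energy. -/
def fmd (P : Par) (y : ℝ) : ℝ := P.epsc * kk y + P.eps * chi y

/-- energy density of a jet -/
def fden (P : Par) (V : J2) (p y : ℝ) : ℝ := (V.wy p y) ^ 2 + fmd P y * (V.wp p y) ^ 2

/-- the mode: data of the trapped mode used by block F (output of `Shoot`). -/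
structure FMode (astar : ℝ → ℝ) (om : ℝ) (psi dpsi : ℝ → ℝ) : Prop where
  cpsi : ContinuousOn psi (Icc (-YY) YY)
  cdpsi : ContinuousOn dpsi (Icc (-YY) YY)
  hpsi : ∀ y ∈ Ioo (-YY) YY, HasDerivAt psi (dpsi y) y
  hdpsi : ∀ y ∈ Ioo (-YY) YY, HasDerivAt dpsi (-(om ^ 2 * astar y * psi y)) y
  top : psi YY = 0
  bot : psi (-YY) = 0
  one : psi 0 = 1
  nonneg : ∀ y ∈ Icc (-YY) YY, 0 ≤ psi y
  le2 : ∀ y ∈ Icc (-YY) YY, psi y ≤ 2
  dle2 : ∀ y ∈ Icc (-YY) YY, |dpsi y| ≤ 2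

/-- cutoff profile in `p`: `z = 1` on `|p| ≤ 2W`, `z = 0` for `|p| ≥ 3W`. -/
structure FCut (W C : ℝ) (z z1 z2 : ℝ → ℝ) : Prop where
  cz : Continuous z
  cz1 : Continuous z1
  cz2 : Continuous z2
  hz : ∀ p, HasDerivAt z (z1 p) p
  hz1 : ∀ p, HasDerivAt z1 (z2 p) p
  one : ∀ p, |p| ≤ 2 * W → z p = 1 ∧ z1 p = 0 ∧ z2 p = 0
  zero : ∀ p, 3 * W ≤ |p| → z p = 0 ∧ z1 p = 0 ∧ z2 p = 0
  b0 : ∀ p, |z p| ≤ 1
  b1 : ∀ p, |z1 p| ≤ C / W
  b2 : ∀ p, |z2 p| ≤ C / W ^ 2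

/-- `cos (om p) z(p)` and its two derivatives. -/
def q0 (om : ℝ) (z : ℝ → ℝ) (p : ℝ) : ℝ := Real.cos (om * p) * z p
def q1 (om : ℝ) (z z1 : ℝ → ℝ) (p : ℝ) : ℝ :=
  -(om * Real.sin (om * p) * z p) + Real.cos (om * p) * z1 p
def q2 (om : ℝ) (z z1 z2 : ℝ → ℝ) (p : ℝ) : ℝ :=
  -(om ^ 2 * Real.cos (om * p) * z p) - 2 * om * Real.sin (om * p) * z1 p
    + Real.cos (om * p) * z2 p

theorem q0_deriv {om W C : ℝ} {z z1 z2 : ℝ → ℝ} (h : FCut W C z z1 z2) (p : ℝ) :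
    HasDerivAt (q0 om z) (q1 om z z1 p) p := by
  have h3 : HasDerivAt (fun p => om * p) om p := by
    simpa using (hasDerivAt_id p).const_mul om
  have h1 : HasDerivAt (fun p => Real.cos (om * p)) (-(Real.sin (om * p)) * om) p := h3.cos
  have := h1.mul (h.hz p)
  refine this.congr_deriv ?_
  unfold q1
  ring

theorem q1_deriv {om W C : ℝ} {z z1 z2 : ℝ → ℝ} (h : FCut W C z z1 z2) (p : ℝ) :
    HasDerivAt (q1 om z z1) (q2 om z z1 z2 p) p := by
  have h3 : HasDerivAt (fun p => om * p) om p := by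
    simpa using (hasDerivAt_id p).const_mul om
  have h1 : HasDerivAt (fun p => Real.cos (om * p)) (-(Real.sin (om * p)) * om) p := h3.cos
  have h2 : HasDerivAt (fun p => Real.sin (om * p)) (Real.cos (om * p) * om) p := h3.sin
  have := (((h2.const_mul om).mul (h.hz p)).neg).add (h1.mul (h.hz1 p))
  refine this.congr_deriv ?_
  unfold q2
  ring

end

end P229
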