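import Vale.Agent.P229.F.Basic

/-! # P229, block F: error integrals -/

namespace P229

open Set Real

noncomputable section

private theorem er_fmd_nonneg {P : Par} (hr : 0 < P.r) (y : ℝ) : 0 ≤ fmd P y := by
  unfold fmd
  have h1 : 0 ≤ P.epsc := by unfold Par.epsc; positivity
  have h2 : 0 ≤ P.eps := by unfold Par.eps; positivity
  exact add_nonneg (mul_nonneg h1 (kk_nonneg y)) (mul_nonneg h2 (chi_nonneg y))

private theorem er_fmd_le {P : Par} (hr : 0 < P.r) (hr1 : P.r < 1) (y : ℝ) :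
    fmd P y ≤ 2 * P.eps := by
  have h2 : 0 ≤ P.eps := by unfold Par.eps; positivity
  have h1 : P.epsc ≤ P.eps := by
    unfold Par.epsc Par.eps
    exact pow_le_pow_of_le_one hr.le hr1.le (by omega)
  have h0 : 0 ≤ P.epsc := by unfold Par.epsc; positivity
  have h3 : P.epsc * kk y ≤ P.eps * 1 := mul_le_mul h1 (kk_le_one y) (kk_nonneg y) h2
  have h4 : P.eps * chi y ≤ P.eps * 1 := mul_le_mul_of_nonneg_left (chi_le_one y) h2
  unfold fmd
  linarith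

private theorem er_point {e m a b K1 K2 t : ℝ} (he : 0 ≤ e) (hm : 0 ≤ m) (hm2 : m ≤ 2 * e)
    (hK1 : 0 ≤ K1) (hK2 : 0 ≤ K2) (h : |t| ≤ K1 * (e * |a|) + K2 * (m * |b|)) :
    t ^ 2 ≤ 4 * (K1 ^ 2 * e ^ 2 + K2 ^ 2 * e) * (a ^ 2 + m * b ^ 2) := by
  have h1 : t ^ 2 ≤ (K1 * (e * |a|) + K2 * (m * |b|)) ^ 2 := by
    rw [← sq_abs t]
    exact pow_le_pow_left₀ (abs_nonneg _) h 2
  have h2 : (K1 * (e * |a|) + K2 * (m * |b|)) ^ 2
      ≤ 2 * (K1 ^ 2 * e ^ 2 * a ^ 2) + 2 * (K2 ^ 2 * (m * m) * b ^ 2) := by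
    have e1 : K1 ^ 2 * e ^ 2 * a ^ 2 = (K1 * (e * |a|)) ^ 2 := by
      rw [mul_pow, mul_pow, sq_abs]; ring
    have e2 : K2 ^ 2 * (m * m) * b ^ 2 = (K2 * (m * |b|)) ^ 2 := by
      rw [mul_pow, mul_pow, sq_abs]; ring
    rw [e1, e2]
    nlinarith [sq_nonneg (K1 * (e * |a|) - K2 * (m * |b|))]
  have h3 : K2 ^ 2 * (m * m) * b ^ 2 ≤ 2 * (K2 ^ 2 * e * (m * b ^ 2)) := by
    have h4 : 0 ≤ K2 ^ 2 * (m * b ^ 2) := by positivity
    nlinarith [mul_le_mul_of_nonneg_right hm2 h4]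
  have h5 : 0 ≤ K1 ^ 2 * e ^ 2 * a ^ 2 := by positivity
  have h6 : 0 ≤ K2 ^ 2 * e * a ^ 2 := by positivity
  have h7 : 0 ≤ K1 ^ 2 * e ^ 2 * (m * b ^ 2) := by positivity
  have h8 : 0 ≤ K2 ^ 2 * e * (m * b ^ 2) := by positivity
  nlinarith

/-- F_ERR.  Two-parameter bound.  `(eps|V_y|)^2 = eps^2 V_y^2`, `(md|V_p|)^2 <= 2 eps md V_p^2`
(`md <= 2 eps` since `epsc <= eps`), so `f^2 <= 2 K1^2 eps^2 V_y^2 + 4 K2^2 eps md V_p^2`
`<= 4 (K1^2 eps^2 + K2^2 eps) fden`, Cauchy-Schwarz with the area `6 W1 * 4.1`. -/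
theorem err_le {P : Par} (hr : 0 < P.r) (hr1 : P.r < 1) {V : J2}
    (hV : V.IsJet (-(3 * P.W1)) (3 * P.W1) (-YY) YY) {K1 K2 : ℝ} (hK1 : 0 ≤ K1) (hK2 : 0 ≤ K2)
    {f : ℝ → ℝ → ℝ} (cf : CR (-(3 * P.W1)) (3 * P.W1) (-YY) YY f)
    (hf : ∀ p ∈ Icc (-(3 * P.W1)) (3 * P.W1), ∀ y ∈ Icc (-YY) YY,
      |f p y| ≤ K1 * (P.eps * |V.wy p y|) + K2 * (fmd P y * |V.wp p y|)) :
    (I2 (-(3 * P.W1)) (3 * P.W1) (-YY) YY f) ^ 2
      ≤ 100 * (K1 ^ 2 * P.eps ^ 2 + K2 ^ 2 * P.eps) * P.W1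
        * I2 (-(3 * P.W1)) (3 * P.W1) (-YY) YY (fden P V) := by
  have hcd : -YY ≤ YY := by unfold YY; norm_num
  have hW : 0 < P.W1 := by unfold Par.W1; positivity
  have hab : -(3 * P.W1) ≤ 3 * P.W1 := by linarith
  have he : 0 ≤ P.eps := by unfold Par.eps; positivity
  have cfd : CR (-(3 * P.W1)) (3 * P.W1) (-YY) YY (fden P V) := by
    have h1 : CR (-(3 * P.W1)) (3 * P.W1) (-YY) YY (fun p y => V.wy p y ^ 2) := CR.pow hV.cwy 2
    have h2 : CR (-(3 * P.W1)) (3 * P.W1) (-YY) YY (fun p y => V.wp p y ^ 2) := CR.pow hV.cwp 2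
    have h3 : Continuous (fmd P) := by
      unfold fmd
      exact (continuous_const.mul kk_contDiff.continuous).add
        (continuous_const.mul chi_contDiff.continuous)
    exact h1.add ((CR.ofY h3.continuousOn).mul h2)
  have hcs := I2_cs hab hcd cf (CR.const (-(3 * P.W1)) (3 * P.W1) (-YY) YY 1)
  have e1 : I2 (-(3 * P.W1)) (3 * P.W1) (-YY) YY (fun p y => f p y * 1)
      = I2 (-(3 * P.W1)) (3 * P.W1) (-YY) YY f := by
    simp only [mul_one]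
  have e3 : I2 (-(3 * P.W1)) (3 * P.W1) (-YY) YY (fun _ _ => (1 : ℝ) ^ 2)
      = (3 * P.W1 - -(3 * P.W1)) * (YY - -YY) := by
    unfold I2
    simp only [one_pow, intervalIntegral.integral_const, smul_eq_mul]
    ring
  rw [e1, e3] at hcs
  have hm : I2 (-(3 * P.W1)) (3 * P.W1) (-YY) YY (fun p y => f p y ^ 2)
      ≤ 4 * (K1 ^ 2 * P.eps ^ 2 + K2 ^ 2 * P.eps)
        * I2 (-(3 * P.W1)) (3 * P.W1) (-YY) YY (fden P V) := by
    rw [← I2_const_mul]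
    refine I2_mono hab hcd (cf.pow 2) ((CR.const _ _ _ _ _).mul cfd) ?_
    intro p hp y hy
    exact er_point he (er_fmd_nonneg hr y) (er_fmd_le hr hr1 y) hK1 hK2 (hf p hp y hy)
  have hfd : 0 ≤ I2 (-(3 * P.W1)) (3 * P.W1) (-YY) YY (fden P V) :=
    I2_nonneg hab hcd (fun p _ y _ => add_nonneg (sq_nonneg _)
      (mul_nonneg (er_fmd_nonneg hr y) (sq_nonneg _)))
  have h8 : (3 * P.W1 - -(3 * P.W1)) * (YY - -YY) ≤ 25 * P.W1 := by
    unfold YY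
    nlinarith
  have h9 : 0 ≤ 4 * (K1 ^ 2 * P.eps ^ 2 + K2 ^ 2 * P.eps)
        * I2 (-(3 * P.W1)) (3 * P.W1) (-YY) YY (fden P V) := by positivity
  have h10 : 0 ≤ (3 * P.W1 - -(3 * P.W1)) * (YY - -YY) := by
    unfold YY
    nlinarith
  calc (I2 (-(3 * P.W1)) (3 * P.W1) (-YY) YY f) ^ 2
      ≤ _ := hcs
    _ ≤ (4 * (K1 ^ 2 * P.eps ^ 2 + K2 ^ 2 * P.eps)
        * I2 (-(3 * P.W1)) (3 * P.W1) (-YY) YY (fden P V)) * (25 * P.W1) :=
          mul_le_mul hm h8 h10 h9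
    _ = _ := by ring

private theorem tl_fmd_nonneg {P : Par} (hr : 0 < P.r) (y : ℝ) : 0 ≤ fmd P y := by
  unfold fmd
  have h1 : 0 ≤ P.epsc := by unfold Par.epsc; positivity
  have h2 : 0 ≤ P.eps := by unfold Par.eps; positivity
  exact add_nonneg (mul_nonneg h1 (kk_nonneg y)) (mul_nonneg h2 (chi_nonneg y))

/-- Poincare on a rectangle `[a, b] x [-YY, YY]`. -/
private theorem tl_poinc {P : Par} {a b : ℝ} (hab : a ≤ b) (hr : 0 < P.r)
    {V : J2} (hV : V.IsJet a b (-YY) YY) (hV0 : ∀ p ∈ Icc a b, V.w p YY = 0)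
    (cfd : CR a b (-YY) YY (fden P V)) :
    I2 a b (-YY) YY (fun p y => V.w p y ^ 2) ≤ 17 * I2 a b (-YY) YY (fden P V) := by
  have hcd : -YY ≤ YY := by unfold YY; norm_num
  have c1 : CR a b (-YY) YY (fun p y => V.w p y ^ 2) := CR.pow hV.cw 2
  have c2 : CR a b (-YY) YY (fun p y => V.wy p y ^ 2) := CR.pow hV.cwy 2
  have h1 : I2 a b (-YY) YY (fun p y => V.w p y ^ 2)
      ≤ (YY - -YY) ^ 2 * I2 a b (-YY) YY (fun p y => V.wy p y ^ 2) := by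
    rw [← I2_const_mul]
    unfold I2
    apply intervalIntegral.integral_mono_on hab (c1.intervalIntegrable hab hcd)
      (((CR.const a b (-YY) YY _).mul c2).intervalIntegrable hab hcd)
    intro p hp
    have hw : ContinuousOn (fun y => V.w p y) (Icc (-YY) YY) := CR.inner hV.cw hp
    have hwy : ContinuousOn (fun y => V.wy p y) (Icc (-YY) YY) := CR.inner hV.cwy hp
    have key : ∀ y ∈ Icc (-YY) YY, V.w p y ^ 2
        ≤ (YY - -YY) * ∫ t in (-YY)..YY, (V.wy p t) ^ 2 := fun y hy =>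
      sq_le_of_zero_right hcd hw hwy (fun y hy => hV.hy p hp y hy) (hV0 p hp) hy
    calc ∫ y in (-YY)..YY, V.w p y ^ 2
        ≤ ∫ y in (-YY)..YY, (YY - -YY) * ∫ t in (-YY)..YY, (V.wy p t) ^ 2 :=
          intervalIntegral.integral_mono_on hcd (c1.inner_integrable hcd hp)
            intervalIntegrable_const key
      _ = (YY - -YY) ^ 2 * ∫ t in (-YY)..YY, (V.wy p t) ^ 2 := by
          rw [intervalIntegral.integral_const, smul_eq_mul]; ring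
      _ = ∫ y in (-YY)..YY, (YY - -YY) ^ 2 * V.wy p y ^ 2 := by
          rw [intervalIntegral.integral_const_mul]
  have h2 : I2 a b (-YY) YY (fun p y => V.wy p y ^ 2) ≤ I2 a b (-YY) YY (fden P V) := by
    apply I2_mono hab hcd c2 cfd
    intro p _ y _
    unfold fden
    have := mul_nonneg (tl_fmd_nonneg hr y) (sq_nonneg (V.wp p y))
    linarith
  have h3 : 0 ≤ I2 a b (-YY) YY (fun p y => V.wy p y ^ 2) :=
    I2_nonneg hab hcd (fun p _ y _ => sq_nonneg _)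
  have h4 : (YY - -YY) ^ 2 ≤ 17 := by unfold YY; norm_num
  nlinarith

/-- one side of the tail estimate. -/
private theorem tl_side {P : Par} {a b : ℝ} (hab : a ≤ b) (hab1 : b - a ≤ 1) (hr : 0 < P.r)
    {V : J2} (hV : V.IsJet a b (-YY) YY) (hV0 : ∀ p ∈ Icc a b, V.w p YY = 0)
    (cfd : CR a b (-YY) YY (fden P V)) {K δ : ℝ} (hK : 0 ≤ K) (hδ : 0 ≤ δ)
    (hl : I2 a b (-YY) YY (fden P V) ≤ δ ^ 2)
    {f : ℝ → ℝ → ℝ} (cf : CR a b (-YY) YY f)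
    (hf : ∀ p ∈ Icc a b, ∀ y ∈ Icc (-YY) YY, |f p y| ≤ K * |V.w p y|) :
    |I2 a b (-YY) YY f| ≤ 50 * K * δ := by
  have hcd : -YY ≤ YY := by unfold YY; norm_num
  have cw : CR a b (-YY) YY V.w := hV.cw
  have h0 : |I2 a b (-YY) YY f| ≤ K * I2 a b (-YY) YY (fun p y => |V.w p y|) := by
    rw [← I2_const_mul]
    exact I2_abs_le hab hcd cf ((CR.const a b (-YY) YY K).mul cw.abs) hf
  have h1 := I2_cs hab hcd cw.abs (CR.const a b (-YY) YY 1)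
  have e1 : I2 a b (-YY) YY (fun p y => |V.w p y| * 1) = I2 a b (-YY) YY (fun p y => |V.w p y|) := by
    simp only [mul_one]
  have e2 : I2 a b (-YY) YY (fun p y => |V.w p y| ^ 2)
      = I2 a b (-YY) YY (fun p y => V.w p y ^ 2) := by
    simp only [sq_abs]
  have e3 : I2 a b (-YY) YY (fun _ _ => (1 : ℝ) ^ 2) = (b - a) * (YY - -YY) := by
    unfold I2
    simp only [one_pow, intervalIntegral.integral_const, smul_eq_mul]
    ring
  rw [e1, e2, e3] at h1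
  have h2 := tl_poinc hab hr hV hV0 cfd
  have h3 : 0 ≤ I2 a b (-YY) YY (fun p y => V.w p y ^ 2) :=
    I2_nonneg hab hcd (fun p _ y _ => sq_nonneg _)
  have h4 : (b - a) * (YY - -YY) ≤ 5 := by
    have : YY - -YY ≤ 5 := by unfold YY; norm_num
    have h5 : 0 ≤ YY - -YY := by linarith
    nlinarith
  have h5 : 0 ≤ I2 a b (-YY) YY (fun p y => |V.w p y|) :=
    I2_nonneg hab hcd (fun p _ y _ => abs_nonneg _)
  have h6 : (I2 a b (-YY) YY (fun p y => |V.w p y|)) ^ 2 ≤ (50 * δ) ^ 2 := by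
    calc _ ≤ _ := h1
      _ ≤ I2 a b (-YY) YY (fun p y => V.w p y ^ 2) * 5 := mul_le_mul_of_nonneg_left h4 h3
      _ ≤ (17 * δ ^ 2) * 5 := by
          apply mul_le_mul_of_nonneg_right _ (by norm_num)
          linarith
      _ ≤ (50 * δ) ^ 2 := by nlinarith [sq_nonneg δ]
  have h7 : I2 a b (-YY) YY (fun p y => |V.w p y|) ≤ 50 * δ :=
    (sq_le_sq₀ h5 (by positivity)).1 h6
  calc _ ≤ _ := h0
    _ ≤ K * (50 * δ) := mul_le_mul_of_nonneg_left h7 hK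
    _ = 50 * K * δ := by ring

/-- F_TAIL.  The tail term: the integrand vanishes for `|p| <= 2 W1`.
On each of the two sides: Cauchy-Schwarz and `int V^2 dy <= (4.1)^2 int V_y^2 dy`
(`sq_le_of_zero_right`), `int V_y^2 <= int fden`. -/
theorem tail_le {P : Par} (hr : 0 < P.r) (hr1 : P.r < 1) {V : J2}
    (hV : V.IsJet (-(3 * P.W1)) (3 * P.W1) (-YY) YY)
    (hV0 : ∀ p ∈ Icc (-(3 * P.W1)) (3 * P.W1), V.w p YY = 0 ∧ V.w p (-YY) = 0)
    {K δ : ℝ} (hK : 0 ≤ K) (hδ : 0 ≤ δ)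
    (hl : I2 (-(3 * P.W1)) (-(2 * P.W1)) (-YY) YY (fden P V) ≤ δ ^ 2)
    (hR : I2 (2 * P.W1) (3 * P.W1) (-YY) YY (fden P V) ≤ δ ^ 2)
    {f : ℝ → ℝ → ℝ} (cf : CR (-(3 * P.W1)) (3 * P.W1) (-YY) YY f)
    (hf : ∀ p ∈ Icc (-(3 * P.W1)) (3 * P.W1), ∀ y ∈ Icc (-YY) YY, |f p y| ≤ K * |V.w p y|)
    (hf0 : ∀ p, |p| ≤ 2 * P.W1 → ∀ y ∈ Icc (-YY) YY, f p y = 0) :
    |I2 (-(3 * P.W1)) (3 * P.W1) (-YY) YY f| ≤ 100 * K * δ := by
  have hcd : -YY ≤ YY := by unfold YY; norm_num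
  have hW : 0 < P.W1 := by unfold Par.W1; positivity
  have hW1 : P.W1 ≤ 1 := by unfold Par.W1; exact pow_le_one₀ hr.le hr1.le
  have cfd : CR (-(3 * P.W1)) (3 * P.W1) (-YY) YY (fden P V) := by
    have h1 : CR (-(3 * P.W1)) (3 * P.W1) (-YY) YY (fun p y => V.wy p y ^ 2) := CR.pow hV.cwy 2
    have h2 : CR (-(3 * P.W1)) (3 * P.W1) (-YY) YY (fun p y => V.wp p y ^ 2) := CR.pow hV.cwp 2
    have h3 : Continuous (fmd P) := by
      unfold fmd
      exact (continuous_const.mul kk_contDiff.continuous).add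
        (continuous_const.mul chi_contDiff.continuous)
    exact h1.add ((CR.ofY h3.continuousOn).mul h2)
  have sub : ∀ {a b : ℝ}, -(3 * P.W1) ≤ a → b ≤ 3 * P.W1 → V.IsJet a b (-YY) YY := by
    intro a b ha hb
    have hs : Icc a b ⊆ Icc (-(3 * P.W1)) (3 * P.W1) := Icc_subset_Icc ha hb
    have ho : Ioo a b ⊆ Ioo (-(3 * P.W1)) (3 * P.W1) := Ioo_subset_Ioo ha hb
    have hp : Icc a b ×ˢ Icc (-YY) YY ⊆ Icc (-(3 * P.W1)) (3 * P.W1) ×ˢ Icc (-YY) YY :=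
      Set.prod_mono hs le_rfl
    exact ⟨hV.cw.mono hp, hV.cwp.mono hp, hV.cwy.mono hp, hV.cwpp.mono hp, hV.cwpy.mono hp,
      hV.cwyy.mono hp, fun p hp => hV.hp p (ho hp), fun p hp => hV.hpp p (ho hp),
      fun p hp => hV.hyp p (ho hp), fun p hp => hV.hy p (hs hp), fun p hp => hV.hpy p (hs hp),
      fun p hp => hV.hyy p (hs hp)⟩
  have e1 := I2_split_p (m := -(2 * P.W1)) (by linarith : -(3 * P.W1) ≤ -(2 * P.W1))
    (by linarith : -(2 * P.W1) ≤ 3 * P.W1) hcd cf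
  have cf2 : CR (-(2 * P.W1)) (3 * P.W1) (-YY) YY f := cf.mono (by linarith) le_rfl le_rfl le_rfl
  have e2 := I2_split_p (m := 2 * P.W1) (by linarith : -(2 * P.W1) ≤ 2 * P.W1)
    (by linarith : 2 * P.W1 ≤ 3 * P.W1) hcd cf2
  have e3 : I2 (-(2 * P.W1)) (2 * P.W1) (-YY) YY f = 0 := by
    have h := I2_congr (f := f) (g := fun _ _ => (0 : ℝ)) (by linarith : -(2 * P.W1) ≤ 2 * P.W1) hcd
      (fun p hp y hy => hf0 p (abs_le.2 hp) y hy)
    rw [h]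
    simp [I2]
  have s1 := tl_side (P := P) (a := -(3 * P.W1)) (b := -(2 * P.W1)) (by linarith) (by linarith) hr
    (sub le_rfl (by linarith)) (fun p hp => (hV0 p ⟨hp.1, by linarith [hp.2]⟩).1)
    (cfd.mono le_rfl (by linarith) le_rfl le_rfl) hK hδ hl
    (cf.mono le_rfl (by linarith) le_rfl le_rfl)
    (fun p hp => hf p ⟨hp.1, by linarith [hp.2]⟩)
  have s2 := tl_side (P := P) (a := 2 * P.W1) (b := 3 * P.W1) (by linarith) (by linarith) hr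
    (sub (by linarith) le_rfl) (fun p hp => (hV0 p ⟨by linarith [hp.1], hp.2⟩).1)
    (cfd.mono (by linarith) le_rfl le_rfl le_rfl) hK hδ hR
    (cf.mono (by linarith) le_rfl le_rfl le_rfl)
    (fun p hp => hf p ⟨by linarith [hp.1], hp.2⟩)
  rw [e1, e2, e3, zero_add]
  refine (abs_add_le _ _).trans ?_
  linarith

end

end P229
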