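import Vale.Agent.P229.F.Basic

/-! # P229, block F: the pairing identity -/

namespace P229

open Set Real

noncomputable section

/-- F_ID.  Exact identity on `[-A,A] x [-Y,Y]`, test function `psi(y) q0(p)`. -/
theorem pair_ident {A om : ℝ} (hA : 0 < A) {astar psi dpsi : ℝ → ℝ}
    (hca : ContinuousOn astar (Icc (-YY) YY)) (hm : FMode astar om psi dpsi)
    {c0 c1 c2 : ℝ → ℝ} (h0 : Continuous c0) (h1 : Continuous c1) (h2 : Continuous c2)
    (d0 : ∀ p, HasDerivAt c0 (c1 p) p) (d1 : ∀ p, HasDerivAt c1 (c2 p) p)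
    (e0 : c0 A = 0 ∧ c0 (-A) = 0 ∧ c1 A = 0 ∧ c1 (-A) = 0)
    {V : J2} (hV : V.IsJet (-A) A (-YY) YY)
    (hV0 : ∀ p ∈ Icc (-A) A, V.w p YY = 0 ∧ V.w p (-YY) = 0)
    {t tp ty a ap d g : ℝ → ℝ → ℝ}
    (ct : CR (-A) A (-YY) YY t) (ctp : CR (-A) A (-YY) YY tp) (cty : CR (-A) A (-YY) YY ty)
    (ca : CR (-A) A (-YY) YY a) (cap : CR (-A) A (-YY) YY ap) (cd : CR (-A) A (-YY) YY d)
    (cg : CR (-A) A (-YY) YY g)
    (htp : ∀ p ∈ Ioo (-A) A, ∀ y ∈ Icc (-YY) YY, HasDerivAt (fun s => t s y) (tp p y) p)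
    (hty : ∀ p ∈ Icc (-A) A, ∀ y ∈ Ioo (-YY) YY, HasDerivAt (fun s => t p s) (ty p y) y)
    (hap : ∀ p ∈ Ioo (-A) A, ∀ y ∈ Icc (-YY) YY, HasDerivAt (fun s => a s y) (ap p y) p) :
    I2 (-A) A (-YY) YY (fun p y => psi y * c0 p * (V.wyy p y + 2 * t p y * V.wpy p y
        + t p y ^ 2 * V.wpp p y + (ty p y + t p y * tp p y) * V.wp p y
        - (ap p y * V.wp p y + a p y * V.wpp p y) + d p y * V.wp p y
        + g p y * (V.wy p y + t p y * V.wp p y)))
    = - I2 (-A) A (-YY) YY (fun p y => astar y * psi y * (c2 p + om ^ 2 * c0 p) * V.w p y)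
      - I2 (-A) A (-YY) YY (fun p y => dpsi y * c0 p * (t p y * V.wp p y))
      - I2 (-A) A (-YY) YY (fun p y => (tp p y * (psi y * c0 p) + t p y * (psi y * c1 p))
          * (V.wy p y + t p y * V.wp p y))
      + I2 (-A) A (-YY) YY (fun p y => psi y * c1 p * ((a p y - astar y) * V.wp p y))
      + I2 (-A) A (-YY) YY (fun p y => psi y * c0 p * (d p y * V.wp p y))
      + I2 (-A) A (-YY) YY (fun p y => psi y * c0 p * (g p y * (V.wy p y + t p y * V.wp p y))) := by
  have hYY : YY = 41 / 20 := rfl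
  have hcd : -YY ≤ YY := by rw [hYY]; norm_num
  have hab : -A ≤ A := by linarith
  -- continuity on the rectangle
  have kpsi : CR (-A) A (-YY) YY (fun _ y => psi y) := CR.ofY hm.cpsi
  have kdpsi : CR (-A) A (-YY) YY (fun _ y => dpsi y) := CR.ofY hm.cdpsi
  have kast : CR (-A) A (-YY) YY (fun _ y => astar y) := CR.ofY hca
  have kc0 : CR (-A) A (-YY) YY (fun p _ => c0 p) := CR.ofP h0.continuousOn
  have kc1 : CR (-A) A (-YY) YY (fun p _ => c1 p) := CR.ofP h1.continuousOn
  have kc2 : CR (-A) A (-YY) YY (fun p _ => c2 p) := CR.ofP h2.continuousOn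
  have kom : CR (-A) A (-YY) YY (fun _ _ => om ^ 2) := CR.const _ _ _ _ _
  have ktwo : CR (-A) A (-YY) YY (fun _ _ => (2 : ℝ)) := CR.const _ _ _ _ _
  have kw : CR (-A) A (-YY) YY (fun p y => V.w p y) := hV.cw
  have kwp : CR (-A) A (-YY) YY (fun p y => V.wp p y) := hV.cwp
  have kwy : CR (-A) A (-YY) YY (fun p y => V.wy p y) := hV.cwy
  have kwpp : CR (-A) A (-YY) YY (fun p y => V.wpp p y) := hV.cwpp
  have kwpy : CR (-A) A (-YY) YY (fun p y => V.wpy p y) := hV.cwpy
  have kwyy : CR (-A) A (-YY) YY (fun p y => V.wyy p y) := hV.cwyy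
  have kt : CR (-A) A (-YY) YY (fun p y => t p y) := ct
  have ktp : CR (-A) A (-YY) YY (fun p y => tp p y) := ctp
  have kty : CR (-A) A (-YY) YY (fun p y => ty p y) := cty
  have ka : CR (-A) A (-YY) YY (fun p y => a p y) := ca
  have kap : CR (-A) A (-YY) YY (fun p y => ap p y) := cap
  have kd : CR (-A) A (-YY) YY (fun p y => d p y) := cd
  have kg : CR (-A) A (-YY) YY (fun p y => g p y) := cg
  have kG : CR (-A) A (-YY) YY (fun p y => V.wy p y + t p y * V.wp p y) := kwy.add (kt.mul kwp)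
  -- the five exact derivatives
  have i1 : I2 (-A) A (-YY) YY (fun p y => dpsi y * c0 p * (V.wy p y + t p y * V.wp p y)
      + psi y * c0 p * (V.wyy p y + (ty p y * V.wp p y + t p y * V.wpy p y))) = 0 := by
    have := I2_dy hab hcd (f := fun p y => psi y * c0 p * (V.wy p y + t p y * V.wp p y))
      (fy := fun p y => dpsi y * c0 p * (V.wy p y + t p y * V.wp p y)
      + psi y * c0 p * (V.wyy p y + (ty p y * V.wp p y + t p y * V.wpy p y)))
      ((kpsi.mul kc0).mul kG)
      (((kdpsi.mul kc0).mul kG).add ((kpsi.mul kc0).mul (kwyy.add ((kty.mul kwp).add (kt.mul kwpy)))))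
      (fun p hp y hy => by
        have e1 := ((hm.hpsi y hy).mul_const (c0 p)).mul
          ((hV.hyy p hp y hy).add ((hty p hp y hy).mul (hV.hpy p hp y hy)))
        exact e1)
    rw [this]
    simp [hm.top, hm.bot]
  have i2 : I2 (-A) A (-YY) YY (fun p y => psi y * c1 p * (t p y * (V.wy p y + t p y * V.wp p y))
      + psi y * c0 p * (tp p y * (V.wy p y + t p y * V.wp p y)
        + t p y * (V.wpy p y + (tp p y * V.wp p y + t p y * V.wpp p y)))) = 0 := by
    have := I2_dp hab hcd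
      (f := fun p y => psi y * c0 p * (t p y * (V.wy p y + t p y * V.wp p y)))
      (fp := fun p y => psi y * c1 p * (t p y * (V.wy p y + t p y * V.wp p y))
      + psi y * c0 p * (tp p y * (V.wy p y + t p y * V.wp p y)
        + t p y * (V.wpy p y + (tp p y * V.wp p y + t p y * V.wpp p y))))
      ((kpsi.mul kc0).mul (kt.mul kG))
      (((kpsi.mul kc1).mul (kt.mul kG)).add ((kpsi.mul kc0).mul ((ktp.mul kG).add
        (kt.mul (kwpy.add ((ktp.mul kwp).add (kt.mul kwpp)))))))
      (fun p hp y hy => by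
        have e1 := ((d0 p).const_mul (psi y)).mul
          ((htp p hp y hy).mul ((hV.hyp p hp y hy).add ((htp p hp y hy).mul (hV.hpp p hp y hy))))
        exact e1)
    rw [this]
    simp [e0.1, e0.2.1]
  have i3 : I2 (-A) A (-YY) YY (fun p y => psi y * c1 p * (a p y * V.wp p y)
      + psi y * c0 p * (ap p y * V.wp p y + a p y * V.wpp p y)) = 0 := by
    have := I2_dp hab hcd
      (f := fun p y => psi y * c0 p * (a p y * V.wp p y))
      (fp := fun p y => psi y * c1 p * (a p y * V.wp p y)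
      + psi y * c0 p * (ap p y * V.wp p y + a p y * V.wpp p y))
      ((kpsi.mul kc0).mul (ka.mul kwp))
      (((kpsi.mul kc1).mul (ka.mul kwp)).add ((kpsi.mul kc0).mul ((kap.mul kwp).add (ka.mul kwpp))))
      (fun p hp y hy => by
        have e1 := ((d0 p).const_mul (psi y)).mul
          ((hap p hp y hy).mul (hV.hpp p hp y hy))
        exact e1)
    rw [this]
    simp [e0.1, e0.2.1]
  have i4 : I2 (-A) A (-YY) YY (fun p y => -(om ^ 2 * astar y * psi y) * c0 p * V.w p y
      + dpsi y * c0 p * V.wy p y) = 0 := by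
    have := I2_dy hab hcd
      (f := fun p y => dpsi y * c0 p * V.w p y)
      (fy := fun p y => -(om ^ 2 * astar y * psi y) * c0 p * V.w p y
      + dpsi y * c0 p * V.wy p y)
      ((kdpsi.mul kc0).mul kw)
      ((((((kom.mul kast).mul kpsi).neg).mul kc0).mul kw).add ((kdpsi.mul kc0).mul kwy))
      (fun p hp y hy => by
        have e1 := ((hm.hdpsi y hy).mul_const (c0 p)).mul (hV.hy p hp y hy)
        exact e1)
    rw [this]
    have z1 : (∫ p in (-A)..A, dpsi YY * c0 p * V.w p YY) = ∫ p in (-A)..A, (0 : ℝ) := by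
      apply intervalIntegral.integral_congr
      intro p hp
      rw [uIcc_of_le hab] at hp
      simp only [(hV0 p hp).1, mul_zero]
    have z2 : (∫ p in (-A)..A, dpsi (-YY) * c0 p * V.w p (-YY)) = ∫ p in (-A)..A, (0 : ℝ) := by
      apply intervalIntegral.integral_congr
      intro p hp
      rw [uIcc_of_le hab] at hp
      simp only [(hV0 p hp).2, mul_zero]
    rw [z1, z2]
    simp
  have i5 : I2 (-A) A (-YY) YY (fun p y => psi y * astar y * c2 p * V.w p y
      + psi y * astar y * c1 p * V.wp p y) = 0 := by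
    have := I2_dp hab hcd
      (f := fun p y => psi y * astar y * c1 p * V.w p y)
      (fp := fun p y => psi y * astar y * c2 p * V.w p y
      + psi y * astar y * c1 p * V.wp p y)
      (((kpsi.mul kast).mul kc1).mul kw)
      ((((kpsi.mul kast).mul kc2).mul kw).add (((kpsi.mul kast).mul kc1).mul kwp))
      (fun p hp y hy => by
        have e1 := ((d1 p).const_mul (psi y * astar y)).mul (hV.hp p hp y hy)
        exact e1)
    rw [this]
    simp [e0.2.2.1, e0.2.2.2]
  -- continuity of the pieces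
  have K1 : CR (-A) A (-YY) YY (fun p y => dpsi y * c0 p * (V.wy p y + t p y * V.wp p y)
      + psi y * c0 p * (V.wyy p y + (ty p y * V.wp p y + t p y * V.wpy p y))) :=
    ((kdpsi.mul kc0).mul kG).add ((kpsi.mul kc0).mul (kwyy.add ((kty.mul kwp).add (kt.mul kwpy))))
  have K2 : CR (-A) A (-YY) YY (fun p y => psi y * c1 p * (t p y * (V.wy p y + t p y * V.wp p y))
      + psi y * c0 p * (tp p y * (V.wy p y + t p y * V.wp p y)
        + t p y * (V.wpy p y + (tp p y * V.wp p y + t p y * V.wpp p y)))) :=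
    ((kpsi.mul kc1).mul (kt.mul kG)).add ((kpsi.mul kc0).mul ((ktp.mul kG).add
        (kt.mul (kwpy.add ((ktp.mul kwp).add (kt.mul kwpp))))))
  have K3 : CR (-A) A (-YY) YY (fun p y => psi y * c1 p * (a p y * V.wp p y)
      + psi y * c0 p * (ap p y * V.wp p y + a p y * V.wpp p y)) :=
    ((kpsi.mul kc1).mul (ka.mul kwp)).add ((kpsi.mul kc0).mul ((kap.mul kwp).add (ka.mul kwpp)))
  have K4 : CR (-A) A (-YY) YY (fun p y => -(om ^ 2 * astar y * psi y) * c0 p * V.w p y
      + dpsi y * c0 p * V.wy p y) :=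
    (((((kom.mul kast).mul kpsi).neg).mul kc0).mul kw).add ((kdpsi.mul kc0).mul kwy)
  have K5 : CR (-A) A (-YY) YY (fun p y => psi y * astar y * c2 p * V.w p y
      + psi y * astar y * c1 p * V.wp p y) :=
    (((kpsi.mul kast).mul kc2).mul kw).add (((kpsi.mul kast).mul kc1).mul kwp)
  have L1 : CR (-A) A (-YY) YY
      (fun p y => astar y * psi y * (c2 p + om ^ 2 * c0 p) * V.w p y) :=
    ((kast.mul kpsi).mul (kc2.add (kom.mul kc0))).mul kw
  have L2 : CR (-A) A (-YY) YY (fun p y => dpsi y * c0 p * (t p y * V.wp p y)) :=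
    (kdpsi.mul kc0).mul (kt.mul kwp)
  have L3 : CR (-A) A (-YY) YY (fun p y => (tp p y * (psi y * c0 p) + t p y * (psi y * c1 p))
          * (V.wy p y + t p y * V.wp p y)) :=
    ((ktp.mul (kpsi.mul kc0)).add (kt.mul (kpsi.mul kc1))).mul kG
  have L4 : CR (-A) A (-YY) YY (fun p y => psi y * c1 p * ((a p y - astar y) * V.wp p y)) :=
    (kpsi.mul kc1).mul ((ka.sub kast).mul kwp)
  have L5 : CR (-A) A (-YY) YY (fun p y => psi y * c0 p * (d p y * V.wp p y)) :=
    (kpsi.mul kc0).mul (kd.mul kwp)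
  have L6 : CR (-A) A (-YY) YY
      (fun p y => psi y * c0 p * (g p y * (V.wy p y + t p y * V.wp p y))) :=
    (kpsi.mul kc0).mul (kg.mul kG)
  have hmain := I2_congr (f := fun p y => psi y * c0 p * (V.wyy p y + 2 * t p y * V.wpy p y
        + t p y ^ 2 * V.wpp p y + (ty p y + t p y * tp p y) * V.wp p y
        - (ap p y * V.wp p y + a p y * V.wpp p y) + d p y * V.wp p y
        + g p y * (V.wy p y + t p y * V.wp p y)))
    (g := fun p y =>
      (dpsi y * c0 p * (V.wy p y + t p y * V.wp p y)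
        + psi y * c0 p * (V.wyy p y + (ty p y * V.wp p y + t p y * V.wpy p y)))
      + (psi y * c1 p * (t p y * (V.wy p y + t p y * V.wp p y))
        + psi y * c0 p * (tp p y * (V.wy p y + t p y * V.wp p y)
        + t p y * (V.wpy p y + (tp p y * V.wp p y + t p y * V.wpp p y))))
      - (psi y * c1 p * (a p y * V.wp p y)
        + psi y * c0 p * (ap p y * V.wp p y + a p y * V.wpp p y))
      - (-(om ^ 2 * astar y * psi y) * c0 p * V.w p y + dpsi y * c0 p * V.wy p y)
      + (psi y * astar y * c2 p * V.w p y + psi y * astar y * c1 p * V.wp p y)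
      - (astar y * psi y * (c2 p + om ^ 2 * c0 p) * V.w p y)
      - (dpsi y * c0 p * (t p y * V.wp p y))
      - ((tp p y * (psi y * c0 p) + t p y * (psi y * c1 p)) * (V.wy p y + t p y * V.wp p y))
      + (psi y * c1 p * ((a p y - astar y) * V.wp p y))
      + (psi y * c0 p * (d p y * V.wp p y))
      + (psi y * c0 p * (g p y * (V.wy p y + t p y * V.wp p y))))
    hab hcd (fun p _ y _ => by ring)
  rw [hmain, I2_add hab hcd ((((((((((K1.add K2).sub K3).sub K4).add K5).sub L1).sub L2).sub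
      L3).add L4).add L5)) L6,
    I2_add hab hcd (((((((((K1.add K2).sub K3).sub K4).add K5).sub L1).sub L2).sub
      L3).add L4)) L5,
    I2_add hab hcd ((((((((K1.add K2).sub K3).sub K4).add K5).sub L1).sub L2).sub L3)) L4,
    I2_sub hab hcd (((((((K1.add K2).sub K3).sub K4).add K5).sub L1).sub L2)) L3,
    I2_sub hab hcd ((((((K1.add K2).sub K3).sub K4).add K5).sub L1)) L2,
    I2_sub hab hcd (((((K1.add K2).sub K3).sub K4).add K5)) L1,
    I2_add hab hcd ((((K1.add K2).sub K3).sub K4)) K5,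
    I2_sub hab hcd (((K1.add K2).sub K3)) K4,
    I2_sub hab hcd ((K1.add K2)) K3,
    I2_add hab hcd K1 K2, i1, i2, i3, i4, i5]
  ring

end

end P229
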