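import Vale.Agent.P229.F.Ident
import Vale.Agent.P229.F.Err

/-! # P229, block F: the left side of the pairing is small -/

namespace P229

open Set Real

noncomputable section

/-- the linear operator with explicit coefficients -/
def fL (t tp ty a ap d g : ℝ → ℝ → ℝ) (V : J2) (p y : ℝ) : ℝ :=
  V.wyy p y + 2 * t p y * V.wpy p y
        + t p y ^ 2 * V.wpp p y + (ty p y + t p y * tp p y) * V.wp p y
        - (ap p y * V.wp p y + a p y * V.wpp p y) + d p y * V.wp p y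
        + g p y * (V.wy p y + t p y * V.wp p y)

/-- what block F needs to know on the coefficients (rectangle `[-3W1,3W1] x [-Y,Y]`) -/
structure FCoef (P : Par) (C : ℝ) (astar : ℝ → ℝ) (t tp ty a ap d g : ℝ → ℝ → ℝ) : Prop where
  ct : CR (-(3 * P.W1)) (3 * P.W1) (-YY) YY t
  ctp : CR (-(3 * P.W1)) (3 * P.W1) (-YY) YY tp
  cty : CR (-(3 * P.W1)) (3 * P.W1) (-YY) YY ty
  ca : CR (-(3 * P.W1)) (3 * P.W1) (-YY) YY a
  cap : CR (-(3 * P.W1)) (3 * P.W1) (-YY) YY ap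
  cd : CR (-(3 * P.W1)) (3 * P.W1) (-YY) YY d
  cg : CR (-(3 * P.W1)) (3 * P.W1) (-YY) YY g
  htp : ∀ p ∈ Ioo (-(3 * P.W1)) (3 * P.W1), ∀ y ∈ Icc (-YY) YY,
    HasDerivAt (fun s => t s y) (tp p y) p
  hty : ∀ p ∈ Icc (-(3 * P.W1)) (3 * P.W1), ∀ y ∈ Ioo (-YY) YY,
    HasDerivAt (fun s => t p s) (ty p y) y
  hap : ∀ p ∈ Ioo (-(3 * P.W1)) (3 * P.W1), ∀ y ∈ Icc (-YY) YY,
    HasDerivAt (fun s => a s y) (ap p y) p
  bt : ∀ p ∈ Icc (-(3 * P.W1)) (3 * P.W1), ∀ y ∈ Icc (-YY) YY, |t p y| ≤ C * P.r ^ 2 * fmd P y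
  btp : ∀ p ∈ Icc (-(3 * P.W1)) (3 * P.W1), ∀ y ∈ Icc (-YY) YY, |tp p y| ≤ C * P.r ^ 2 * fmd P y
  bd : ∀ p ∈ Icc (-(3 * P.W1)) (3 * P.W1), ∀ y ∈ Icc (-YY) YY, |d p y| ≤ C * P.r ^ 2 * fmd P y
  bg : ∀ p ∈ Icc (-(3 * P.W1)) (3 * P.W1), ∀ y ∈ Icc (-YY) YY,
    g p y ^ 2 ≤ C * P.r ^ 4 * P.eps * fmd P y
  ba : ∀ p ∈ Icc (-(3 * P.W1)) (3 * P.W1), ∀ y ∈ Icc (-YY) YY,
    |a p y - astar y| ≤ C * P.W1 * fmd P y

/-! ### pointwise inequalities -/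

private theorem pt1 {D Cc om W r fm x c t v E : ℝ} (hx : |x| ≤ 2) (hc : |c| ≤ 1)
    (ht : |t| ≤ Cc * r ^ 2 * fm) (hfm : 0 ≤ fm) (hCc : 0 < Cc) (hD : 2 * Cc ≤ D)
    (h7 : r ^ 2 ≤ om * W) (hE : 0 ≤ E) :
    |x * c * (t * v)| ≤ E + (D * (om * W)) * (fm * |v|) := by
  rw [abs_mul, abs_mul, abs_mul]
  have h0 : 0 ≤ om * W := (sq_nonneg r).trans h7
  have hD0 : 0 ≤ D := by linarith
  calc |x| * |c| * (|t| * |v|) ≤ 2 * 1 * ((Cc * r ^ 2 * fm) * |v|) := by gcongr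
    _ = (2 * Cc) * (r ^ 2 * (fm * |v|)) := by ring
    _ ≤ D * ((om * W) * (fm * |v|)) := by gcongr
    _ = (D * (om * W)) * (fm * |v|) := by ring
    _ ≤ _ := by linarith

private theorem pt2 {D Cc Cz om W e r fm x c0 c1 t tp vy vp : ℝ} (hx : |x| ≤ 2) (hc0 : |c0| ≤ 1)
    (hc1 : |c1| ≤ (1 + Cz) * om) (ht : |t| ≤ Cc * r ^ 2 * fm) (htp : |tp| ≤ Cc * r ^ 2 * fm)
    (hfm : 0 ≤ fm) (hfm2 : fm ≤ 2 * e) (hCc : 0 < Cc) (hCz : 0 < Cz) (hom1 : 1 ≤ om)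
    (hD : D = 4 * Cc ^ 2 * (2 + Cz)) (hDa : 4 * Cc * (2 + Cz) ≤ D) (he : 0 < e) (hW : 0 < W)
    (heW : e ≤ W) (hr2 : r ^ 2 ≤ 1) :
    |(tp * (x * c0) + t * (x * c1)) * (vy + t * vp)|
      ≤ (D * (r ^ 2 * om)) * (e * |vy|) + (D * (om * W)) * (fm * |vp|) := by
  have hom0 : 0 < om := by linarith
  have hA1 : |tp * (x * c0) + t * (x * c1)| ≤ 2 * Cc * (2 + Cz) * (r ^ 2 * om) * fm := by
    refine (abs_add_le _ _).trans ?_
    rw [abs_mul, abs_mul, abs_mul, abs_mul]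
    calc |tp| * (|x| * |c0|) + |t| * (|x| * |c1|)
        ≤ (Cc * r ^ 2 * fm) * (2 * 1) + (Cc * r ^ 2 * fm) * (2 * ((1 + Cz) * om)) := by
          gcongr
      _ = 2 * Cc * r ^ 2 * fm * (1 + (1 + Cz) * om) := by ring
      _ ≤ 2 * Cc * r ^ 2 * fm * (om + (1 + Cz) * om) := by gcongr
      _ = _ := by ring
  have hA2 : |vy + t * vp| ≤ |vy| + (Cc * r ^ 2 * (2 * e)) * |vp| := by
    refine (abs_add_le _ _).trans ?_
    rw [abs_mul]
    have : |t| ≤ Cc * r ^ 2 * (2 * e) := ht.trans (by gcongr)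
    gcongr
  rw [abs_mul]
  have hb2 : e * r ^ 2 ≤ W := by
    calc e * r ^ 2 ≤ W * 1 := by gcongr
      _ = W := mul_one _
  have hD0 : 0 < D := by rw [hD]; positivity
  calc |tp * (x * c0) + t * (x * c1)| * |vy + t * vp|
      ≤ (2 * Cc * (2 + Cz) * (r ^ 2 * om) * fm)
        * (|vy| + (Cc * r ^ 2 * (2 * e)) * |vp|) := by gcongr
    _ = 2 * Cc * (2 + Cz) * (r ^ 2 * om) * (fm * |vy|)
        + 4 * Cc ^ 2 * (2 + Cz) * om * (r ^ 2 * (e * r ^ 2)) * (fm * |vp|) := by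
      ring
    _ ≤ 2 * Cc * (2 + Cz) * (r ^ 2 * om) * ((2 * e) * |vy|)
        + 4 * Cc ^ 2 * (2 + Cz) * om * (1 * W) * (fm * |vp|) := by
      gcongr
    _ = (4 * Cc * (2 + Cz)) * (r ^ 2 * om) * (e * |vy|)
        + D * (om * W) * (fm * |vp|) := by rw [hD]; ring
    _ ≤ D * (r ^ 2 * om) * (e * |vy|) + D * (om * W) * (fm * |vp|) := by gcongr
    _ = _ := rfl

private theorem pt3 {D Cc Cz om W fm x c1 a v E : ℝ} (hx : |x| ≤ 2) (hc1 : |c1| ≤ (1 + Cz) * om)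
    (ha : |a| ≤ Cc * W * fm) (hfm : 0 ≤ fm) (hCc : 0 < Cc) (hCz : 0 < Cz) (hom : 0 < om)
    (hW : 0 < W) (hD : 2 * (1 + Cz) * Cc ≤ D) (hE : 0 ≤ E) :
    |x * c1 * (a * v)| ≤ E + (D * (om * W)) * (fm * |v|) := by
  rw [abs_mul, abs_mul, abs_mul]
  calc |x| * |c1| * (|a| * |v|)
      ≤ 2 * ((1 + Cz) * om) * ((Cc * W * fm) * |v|) := by gcongr
    _ = (2 * (1 + Cz) * Cc) * ((om * W) * (fm * |v|)) := by ring
    _ ≤ D * ((om * W) * (fm * |v|)) := by gcongr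
    _ = (D * (om * W)) * (fm * |v|) := by ring
    _ ≤ _ := by linarith

private theorem pt5 {D Cc om W e r fm x c0 g t vy vp : ℝ} (hx : |x| ≤ 2) (hc0 : |c0| ≤ 1)
    (hg : |g| ≤ 2 * Cc * r ^ 2 * e) (ht : |t| ≤ Cc * r ^ 2 * fm) (hfm : 0 ≤ fm) (hCc : 0 < Cc)
    (hom1 : 1 ≤ om) (hD1 : 4 * Cc ≤ D) (hD2 : 4 * Cc ^ 2 ≤ D) (he : 0 < e)
    (h9 : r ^ 4 * e ≤ om * W) :
    |x * c0 * (g * (vy + t * vp))|
      ≤ (D * (r ^ 2 * om)) * (e * |vy|) + (D * (om * W)) * (fm * |vp|) := by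
  have hD0 : 0 < D := by linarith
  have hA2 : |vy + t * vp| ≤ |vy| + (Cc * r ^ 2 * fm) * |vp| := by
    refine (abs_add_le _ _).trans ?_
    rw [abs_mul]
    gcongr
  rw [abs_mul, abs_mul, abs_mul]
  calc |x| * |c0| * (|g| * |vy + t * vp|)
      ≤ 2 * 1 * ((2 * Cc * r ^ 2 * e) * (|vy| + (Cc * r ^ 2 * fm) * |vp|)) := by gcongr
    _ = 4 * Cc * (r ^ 2 * 1) * (e * |vy|)
        + 4 * Cc ^ 2 * (r ^ 4 * e) * (fm * |vp|) := by ring
    _ ≤ D * (r ^ 2 * om) * (e * |vy|) + D * (om * W) * (fm * |vp|) := by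
      gcongr
    _ = _ := rfl

/-! ### numerical facts -/

private theorem num1 {C' r om : ℝ} {k b : ℕ} (hC' : 1 ≤ C') (hk : 10 ≤ k) (hr0 : 0 < r)
    (hr : r < 1 / C') (hom : 0 < om) (ho1 : 1 / C' ≤ om ^ 2 * (Par.mk r k b).epsc) :
    r < 1 ∧ 1 ≤ om * (Par.mk r k b).W1 ∧ 1 ≤ om ∧ (Par.mk r k b).eps ≤ (Par.mk r k b).W1 ∧
      (Par.mk r k b).eps ≤ 1 ∧ 0 < (Par.mk r k b).W1 ∧ 0 < (Par.mk r k b).eps ∧
      (Par.mk r k b).eps = (Par.mk r k b).W1 ^ 2 * r ^ (2 * k) := by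
  have hC'0 : 0 < C' := by linarith
  have hr1 : r < 1 := lt_of_lt_of_le hr (by rw [div_le_one hC'0]; exact hC')
  have hrC : r * C' < 1 := by rwa [lt_div_iff₀ hC'0] at hr
  have eW : (Par.mk r k b).W1 = r ^ (9 * k) := rfl
  have ee : (Par.mk r k b).eps = r ^ (20 * k) := rfl
  have eec : (Par.mk r k b).epsc = r ^ 2 * (Par.mk r k b).eps := Par.epsc_eq' _
  have hW0 : 0 < (Par.mk r k b).W1 := by rw [eW]; positivity
  have he0 : 0 < (Par.mk r k b).eps := by rw [ee]; positivity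
  have heW2 : (Par.mk r k b).eps = (Par.mk r k b).W1 ^ 2 * r ^ (2 * k) := by
    rw [ee, eW, ← pow_mul, ← pow_add]
    congr 1
    ring
  have heps1 : (Par.mk r k b).eps ≤ 1 := by rw [ee]; exact pow_le_one₀ hr0.le hr1.le
  have heW : (Par.mk r k b).eps ≤ (Par.mk r k b).W1 := by
    rw [ee, eW]
    exact pow_le_pow_of_le_one hr0.le hr1.le (by omega)
  have homW2 : 1 ≤ (om * (Par.mk r k b).W1) ^ 2 := by
    have h1 : 1 / C' ≤ om ^ 2 * (r ^ 2 * ((Par.mk r k b).W1 ^ 2 * r ^ (2 * k))) := by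
      rw [← heW2, ← eec]; exact ho1
    have h2 : r ^ 2 * r ^ (2 * k) * C' ≤ 1 := by
      have h3 : r ^ 2 * r ^ (2 * k) ≤ r := by
        rw [← pow_add]
        calc r ^ (2 + 2 * k) ≤ r ^ 1 := pow_le_pow_of_le_one hr0.le hr1.le (by omega)
          _ = r := pow_one r
      calc r ^ 2 * r ^ (2 * k) * C' ≤ r * C' := by gcongr
        _ ≤ 1 := hrC.le
    have h4 : 1 ≤ (om * (Par.mk r k b).W1) ^ 2 * (r ^ 2 * r ^ (2 * k) * C') := by
      have := mul_le_mul_of_nonneg_right h1 hC'0.le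
      rw [one_div, inv_mul_cancel₀ hC'0.ne'] at this
      calc (1 : ℝ) ≤ om ^ 2 * (r ^ 2 * ((Par.mk r k b).W1 ^ 2 * r ^ (2 * k))) * C' := this
        _ = (om * (Par.mk r k b).W1) ^ 2 * (r ^ 2 * r ^ (2 * k) * C') := by ring
    calc (1 : ℝ) ≤ (om * (Par.mk r k b).W1) ^ 2 * (r ^ 2 * r ^ (2 * k) * C') := h4
      _ ≤ (om * (Par.mk r k b).W1) ^ 2 * 1 := by gcongr
      _ = _ := mul_one _
  have homW : 1 ≤ om * (Par.mk r k b).W1 := by
    have h0 : 0 ≤ om * (Par.mk r k b).W1 := by positivity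
    nlinarith
  have hW1 : (Par.mk r k b).W1 ≤ 1 := by rw [eW]; exact pow_le_one₀ hr0.le hr1.le
  have hom1 : 1 ≤ om := by
    calc (1 : ℝ) ≤ om * (Par.mk r k b).W1 := homW
      _ ≤ om * 1 := by gcongr
      _ = om := mul_one om
  exact ⟨hr1, homW, hom1, heW, heps1, hW0, he0, heW2⟩

private theorem fmd_bds {P : Par} (hr0 : 0 < P.r) (hr1 : P.r < 1) (he0 : 0 < P.eps) (y : ℝ) :
    0 ≤ fmd P y ∧ fmd P y ≤ 2 * P.eps := by
  have eec : P.epsc = P.r ^ 2 * P.eps := Par.epsc_eq' P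
  have hr2 : P.r ^ 2 ≤ 1 := pow_le_one₀ hr0.le hr1.le
  have hec : P.epsc ≤ P.eps := by
    rw [eec]
    calc P.r ^ 2 * P.eps ≤ 1 * P.eps := by gcongr
      _ = P.eps := one_mul _
  have hec0 : 0 < P.epsc := by rw [eec]; positivity
  have h3 := kk_nonneg y
  have h4 := chi_nonneg y
  constructor
  · unfold fmd
    positivity
  · unfold fmd
    have h1 : P.epsc * kk y ≤ P.eps * 1 :=
      mul_le_mul hec (kk_le_one y) h3 he0.le
    have h2 : P.eps * chi y ≤ P.eps * 1 := mul_le_mul_of_nonneg_left (chi_le_one y) he0.le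
    linarith

private theorem q_bds {W Cz om : ℝ} {z z1 z2 : ℝ → ℝ} (hz : FCut W Cz z z1 z2) (hW0 : 0 < W)
    (hCz0 : 0 < Cz) (hom : 0 < om) (homW : 1 ≤ om * W) (p : ℝ) :
    |q0 om z p| ≤ 1 ∧ |q1 om z z1 p| ≤ (1 + Cz) * om := by
  constructor
  · unfold q0
    rw [abs_mul]
    exact mul_le_one₀ (Real.abs_cos_le_one _) (abs_nonneg _) (hz.b0 p)
  · have hCzW : Cz / W ≤ Cz * om := by
      rw [div_le_iff₀ hW0]
      calc Cz = Cz * 1 := (mul_one _).symm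
        _ ≤ Cz * (om * W) := by gcongr
        _ = Cz * om * W := by ring
    unfold q1
    have h1 : |-(om * Real.sin (om * p) * z p)| ≤ om := by
      rw [abs_neg, abs_mul, abs_mul, abs_of_pos hom]
      have h2 := Real.abs_sin_le_one (om * p)
      have h3 := hz.b0 p
      calc om * |Real.sin (om * p)| * |z p| ≤ om * 1 * 1 := by gcongr
        _ = om := by ring
    have h4 : |Real.cos (om * p) * z1 p| ≤ Cz * om := by
      rw [abs_mul]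
      have h2 := Real.abs_cos_le_one (om * p)
      have h3 := (hz.b1 p).trans hCzW
      calc |Real.cos (om * p)| * |z1 p| ≤ 1 * (Cz * om) := by gcongr
        _ = Cz * om := one_mul _
    calc |-(om * Real.sin (om * p) * z p) + Real.cos (om * p) * z1 p|
        ≤ |-(om * Real.sin (om * p) * z p)| + |Real.cos (om * p) * z1 p| := abs_add_le _ _
      _ ≤ om + Cz * om := add_le_add h1 h4
      _ = (1 + Cz) * om := by ring

private theorem q_cont {W Cz om : ℝ} {z z1 z2 : ℝ → ℝ} (hz : FCut W Cz z z1 z2) :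
    Continuous (q0 om z) ∧ Continuous (q1 om z z1) ∧ Continuous (q2 om z z1 z2) := by
  have c1 : Continuous fun p : ℝ => Real.cos (om * p) :=
    Real.continuous_cos.comp (continuous_const.mul continuous_id)
  have s1 : Continuous fun p : ℝ => Real.sin (om * p) :=
    Real.continuous_sin.comp (continuous_const.mul continuous_id)
  refine ⟨?_, ?_, ?_⟩
  · unfold q0
    exact c1.mul hz.cz
  · unfold q1
    exact (((continuous_const.mul s1).mul hz.cz).neg).add (c1.mul hz.cz1)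
  · unfold q2
    exact (((continuous_const.mul c1).mul hz.cz).neg.sub
      ((continuous_const.mul s1).mul hz.cz1)).add (c1.mul hz.cz2)

/-! ### the error bound -/

private theorem lhs_err {C' Cx D r om : ℝ} {k b : ℕ} (hC' : 1 ≤ C') (hCx : 1 ≤ Cx) (hD0 : 0 < D)
    (hk : 10 ≤ k) (hr0 : 0 < r) (hr1 : r < 1) (hom : 0 < om)
    (ho2 : om ^ 2 * (Par.mk r k b).epsc ≤ C') {V : J2}
    (hV : V.IsJet (-(3 * (Par.mk r k b).W1)) (3 * (Par.mk r k b).W1) (-YY) YY)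
    (hE : I2 (-(3 * (Par.mk r k b).W1)) (3 * (Par.mk r k b).W1) (-YY) YY (fden ⟨r, k, b⟩ V)
        ≤ Cx * ((Par.mk r k b).eta ^ 2 * (Par.mk r k b).epsc * (Par.mk r k b).lam ^ 2
          * (Par.mk r k b).s * (Par.mk r k b).W1)) (f : ℝ → ℝ → ℝ)
    (cf : CR (-(3 * (Par.mk r k b).W1)) (3 * (Par.mk r k b).W1) (-YY) YY f)
    (hf : ∀ p ∈ Icc (-(3 * (Par.mk r k b).W1)) (3 * (Par.mk r k b).W1), ∀ y ∈ Icc (-YY) YY,
        |f p y| ≤ (D * (r ^ 2 * om)) * ((Par.mk r k b).eps * |V.wy p y|)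
          + (D * (om * (Par.mk r k b).W1)) * (fmd ⟨r, k, b⟩ y * |V.wp p y|)) :
    |I2 (-(3 * (Par.mk r k b).W1)) (3 * (Par.mk r k b).W1) (-YY) YY f|
      ≤ 15 * D * C' * Cx * r ^ (b + 43 * k + 2) := by
  set P : Par := ⟨r, k, b⟩ with hP
  have eW : P.W1 = r ^ (9 * k) := rfl
  have ee : P.eps = r ^ (20 * k) := rfl
  have eec : P.epsc = r ^ 2 * P.eps := Par.epsc_eq' P
  have hW0 : 0 < P.W1 := by rw [eW]; positivity
  have he0 : 0 < P.eps := by rw [ee]; positivity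
  have h := err_le (P := P) hr0 hr1 hV (K1 := D * (r ^ 2 * om)) (K2 := D * (om * P.W1))
    (by positivity) (by positivity) cf hf
  refine abs_le_of_sq_le_sq (h.trans ?_) (by positivity)
  have hE' : I2 (-(3 * P.W1)) (3 * P.W1) (-YY) YY (fden P V)
      ≤ Cx * r ^ (2 * b + 59 * k + 6) := by
    refine hE.trans (le_of_eq ?_)
    have : P.eta ^ 2 * P.epsc * P.lam ^ 2 * P.s * P.W1 = r ^ (2 * b + 59 * k + 6) := by
      simp only [Par.eta, Par.epsc, Par.lam, Par.s, Par.W1, hP]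
      rw [← pow_mul, ← pow_mul, ← pow_add, ← pow_add, ← pow_add, ← pow_add]
      congr 1
      ring
    rw [this]
  have hK1 : (D * (r ^ 2 * om)) ^ 2 * P.eps ^ 2 ≤ D ^ 2 * C' * r ^ (18 * k - 2) := by
    have h1 : (D * (r ^ 2 * om)) ^ 2 * P.eps ^ 2
        = D ^ 2 * (om ^ 2 * P.epsc) * (r ^ 2 * P.eps) := by
      rw [eec]; ring
    have h2 : r ^ 2 * P.eps ≤ r ^ (18 * k - 2) := by
      rw [ee, ← pow_add]
      exact pow_le_pow_of_le_one hr0.le hr1.le (by omega)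
    rw [h1]
    gcongr
  have hK2 : (D * (om * P.W1)) ^ 2 * P.eps ≤ D ^ 2 * C' * r ^ (18 * k - 2) := by
    have h3 : P.W1 ^ 2 = r ^ (18 * k - 2) * r ^ 2 := by
      rw [eW, ← pow_mul, ← pow_add]
      congr 1
      omega
    have h1 : (D * (om * P.W1)) ^ 2 * P.eps * r ^ 2
        = D ^ 2 * (om ^ 2 * P.epsc) * P.W1 ^ 2 := by
      rw [eec]; ring
    have h4 : (D * (om * P.W1)) ^ 2 * P.eps * r ^ 2 ≤
        (D ^ 2 * C' * r ^ (18 * k - 2)) * r ^ 2 := by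
      rw [h1]
      calc D ^ 2 * (om ^ 2 * P.epsc) * P.W1 ^ 2 ≤ D ^ 2 * C' * P.W1 ^ 2 := by gcongr
        _ = _ := by rw [h3]; ring
    exact le_of_mul_le_mul_right h4 (by positivity)
  have hsum : (D * (r ^ 2 * om)) ^ 2 * P.eps ^ 2 + (D * (om * P.W1)) ^ 2 * P.eps
      ≤ 2 * (D ^ 2 * C') * r ^ (18 * k - 2) := by linarith
  calc 100 * ((D * (r ^ 2 * om)) ^ 2 * P.eps ^ 2 + (D * (om * P.W1)) ^ 2 * P.eps) * P.W1
        * I2 (-(3 * P.W1)) (3 * P.W1) (-YY) YY (fden P V)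
      ≤ 100 * ((D * (r ^ 2 * om)) ^ 2 * P.eps ^ 2 + (D * (om * P.W1)) ^ 2 * P.eps) * P.W1
        * (Cx * r ^ (2 * b + 59 * k + 6)) := by gcongr
    _ ≤ 100 * (2 * (D ^ 2 * C') * r ^ (18 * k - 2)) * P.W1
        * (Cx * r ^ (2 * b + 59 * k + 6)) := by gcongr
    _ = 200 * D ^ 2 * (C' * Cx) * (r ^ (18 * k - 2) * r ^ (9 * k) * r ^ (2 * b + 59 * k + 6)) := by
      rw [eW]; ring
    _ = 200 * D ^ 2 * (C' * Cx) * (r ^ (b + 43 * k + 2)) ^ 2 := by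
      congr 1
      rw [← pow_add, ← pow_add, ← pow_mul]
      congr 1
      omega
    _ ≤ 225 * D ^ 2 * ((C' * Cx) ^ 2) * (r ^ (b + 43 * k + 2)) ^ 2 := by
      have h5 : 1 ≤ C' * Cx := by nlinarith
      have h6 : C' * Cx ≤ (C' * Cx) ^ 2 := by nlinarith
      gcongr
      norm_num
    _ = (15 * D * C' * Cx * r ^ (b + 43 * k + 2)) ^ 2 := by ring

/-! ### the tail -/

private theorem tail_K {C' Cz Cc r om : ℝ} {k b : ℕ} (hC' : 1 ≤ C') (hCz : 1 ≤ Cz) (hCc : 1 ≤ Cc)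
    (hk : 10 ≤ k) (hr0 : 0 < r) (hr1 : r < 1) (hom : 0 < om)
    (ho2 : om ^ 2 * (Par.mk r k b).epsc ≤ C') (hW0 : 0 < (Par.mk r k b).W1)
    (he0 : 0 < (Par.mk r k b).eps)
    (heW2 : (Par.mk r k b).eps = (Par.mk r k b).W1 ^ 2 * r ^ (2 * k)) :
    Cc * (Par.mk r k b).eps * 2 * (2 * om * (Cz / (Par.mk r k b).W1)
      + Cz / (Par.mk r k b).W1 ^ 2) ≤ 6 * (Cc * Cz * C') := by
  set P : Par := ⟨r, k, b⟩ with hP
  have eec : P.epsc = r ^ 2 * P.eps := Par.epsc_eq' P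
  have hr2k : r ^ (2 * k) ≤ r ^ 2 := pow_le_pow_of_le_one hr0.le hr1.le (by omega)
  have h1 : P.eps * om ≤ C' * P.W1 := by
    have h2 : (P.eps * om) ^ 2 * r ^ 2 ≤ (C' * P.W1) ^ 2 * r ^ 2 := by
      calc (P.eps * om) ^ 2 * r ^ 2 = (om ^ 2 * P.epsc) * P.eps := by rw [eec]; ring
        _ ≤ C' * P.eps := by gcongr
        _ = C' * (P.W1 ^ 2 * r ^ (2 * k)) := by rw [← heW2]
        _ ≤ C' * (P.W1 ^ 2 * r ^ 2) := by gcongr
        _ ≤ C' ^ 2 * (P.W1 ^ 2 * r ^ 2) := by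
          have : C' ≤ C' ^ 2 := by nlinarith
          gcongr
        _ = (C' * P.W1) ^ 2 * r ^ 2 := by ring
    have h3 : (P.eps * om) ^ 2 ≤ (C' * P.W1) ^ 2 := le_of_mul_le_mul_right h2 (by positivity)
    exact (abs_le_of_sq_le_sq' h3 (by positivity)).2
  have h2 : P.eps * om / P.W1 ≤ C' := by rw [div_le_iff₀ hW0]; exact h1
  have h3 : P.eps / P.W1 ^ 2 ≤ 1 := by
    rw [div_le_one (by positivity), heW2]
    calc P.W1 ^ 2 * r ^ (2 * k) ≤ P.W1 ^ 2 * 1 := by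
          gcongr
          exact pow_le_one₀ hr0.le hr1.le
      _ = _ := mul_one _
  calc Cc * P.eps * 2 * (2 * om * (Cz / P.W1) + Cz / P.W1 ^ 2)
      = Cc * Cz * (4 * (P.eps * om / P.W1) + 2 * (P.eps / P.W1 ^ 2)) := by
        field_simp
        ring
    _ ≤ Cc * Cz * (4 * C' + 2 * 1) := by gcongr
    _ ≤ Cc * Cz * (4 * C' + 2 * C') := by gcongr
    _ = _ := by ring

private theorem tail_q {W Cz om : ℝ} {z z1 z2 : ℝ → ℝ} (hz : FCut W Cz z z1 z2) (hom : 0 < om)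
    (p : ℝ) : |q2 om z z1 z2 p + om ^ 2 * q0 om z p| ≤ 2 * om * (Cz / W) + Cz / W ^ 2 := by
  have e1 : q2 om z z1 z2 p + om ^ 2 * q0 om z p
      = -(2 * om * Real.sin (om * p) * z1 p) + Real.cos (om * p) * z2 p := by
    unfold q2 q0; ring
  rw [e1]
  refine (abs_add_le _ _).trans (add_le_add ?_ ?_)
  · rw [abs_neg, abs_mul, abs_mul, abs_mul, abs_of_pos hom, abs_two]
    have h2 := Real.abs_sin_le_one (om * p)
    have h3 := hz.b1 p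
    calc 2 * om * |Real.sin (om * p)| * |z1 p| ≤ 2 * om * 1 * (Cz / W) := by gcongr
      _ = _ := by ring
  · rw [abs_mul]
    have h2 := Real.abs_cos_le_one (om * p)
    have h3 := hz.b2 p
    calc |Real.cos (om * p)| * |z2 p| ≤ 1 * (Cz / W ^ 2) := by gcongr
      _ = _ := one_mul _

private theorem lhs_tail {C' Cz Cc r om : ℝ} {k b M : ℕ} (hC' : 1 ≤ C') (hCz : 1 ≤ Cz)
    (hCc : 1 ≤ Cc) (hk : 10 ≤ k) (hM : 2 * b + 100 * (k + 1) ≤ M)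
    (hr0 : 0 < r) (hr1 : r < 1) (hom : 0 < om)
    (ho2 : om ^ 2 * (Par.mk r k b).epsc ≤ C') (hW0 : 0 < (Par.mk r k b).W1)
    (he0 : 0 < (Par.mk r k b).eps)
    (heW2 : (Par.mk r k b).eps = (Par.mk r k b).W1 ^ 2 * r ^ (2 * k))
    {astar psi z z1 z2 : ℝ → ℝ} (hz : FCut (Par.mk r k b).W1 Cz z z1 z2) {V : J2}
    (hV : V.IsJet (-(3 * (Par.mk r k b).W1)) (3 * (Par.mk r k b).W1) (-YY) YY)
    (hV0 : ∀ p ∈ Icc (-(3 * (Par.mk r k b).W1)) (3 * (Par.mk r k b).W1),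
        V.w p YY = 0 ∧ V.w p (-YY) = 0)
    (hl : I2 (-(3 * (Par.mk r k b).W1)) (-(2 * (Par.mk r k b).W1)) (-YY) YY (fden ⟨r, k, b⟩ V)
        ≤ r ^ M)
    (hR : I2 (2 * (Par.mk r k b).W1) (3 * (Par.mk r k b).W1) (-YY) YY (fden ⟨r, k, b⟩ V) ≤ r ^ M)
    (hba : ∀ y ∈ Icc (-YY) YY, |astar y| ≤ Cc * (Par.mk r k b).eps)
    (hpsi : ∀ y ∈ Icc (-YY) YY, |psi y| ≤ 2)
    (cf : CR (-(3 * (Par.mk r k b).W1)) (3 * (Par.mk r k b).W1) (-YY) YY
      (fun p y => astar y * psi y * (q2 om z z1 z2 p + om ^ 2 * q0 om z p) * V.w p y)) :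
    |I2 (-(3 * (Par.mk r k b).W1)) (3 * (Par.mk r k b).W1) (-YY) YY (fun p y => astar y * psi y
      * (q2 om z z1 z2 p + om ^ 2 * q0 om z p) * V.w p y)|
      ≤ 600 * (Cc * Cz * C') * r ^ (b + 43 * k + 2) := by
  have hK := tail_K hC' hCz hCc hk hr0 hr1 hom ho2 hW0 he0 heW2
  set P : Par := ⟨r, k, b⟩ with hP
  have hpowM : r ^ M ≤ (r ^ (b + 50 * (k + 1))) ^ 2 := by
    rw [← pow_mul]
    exact pow_le_pow_of_le_one hr0.le hr1.le (by omega)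
  have h := tail_le (P := P) hr0 hr1 hV hV0
    (K := Cc * P.eps * 2 * (2 * om * (Cz / P.W1) + Cz / P.W1 ^ 2))
    (δ := r ^ (b + 50 * (k + 1))) (by positivity) (by positivity)
    (hl.trans hpowM) (hR.trans hpowM) cf ?_ ?_
  · refine h.trans ?_
    have h7 : r ^ (b + 50 * (k + 1)) ≤ r ^ (b + 43 * k + 2) :=
      pow_le_pow_of_le_one hr0.le hr1.le (by omega)
    calc 100 * (Cc * P.eps * 2 * (2 * om * (Cz / P.W1) + Cz / P.W1 ^ 2))
          * r ^ (b + 50 * (k + 1))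
        ≤ 100 * (6 * (Cc * Cz * C')) * r ^ (b + 43 * k + 2) := by gcongr
      _ = _ := by ring
  · intro p hp y hy
    have e2 := tail_q hz hom p
    rw [abs_mul, abs_mul, abs_mul]
    have h4 := hba y hy
    have h5 := hpsi y hy
    calc |astar y| * |psi y| * |q2 om z z1 z2 p + om ^ 2 * q0 om z p| * |V.w p y|
        ≤ (Cc * P.eps) * 2 * (2 * om * (Cz / P.W1) + Cz / P.W1 ^ 2) * |V.w p y| := by gcongr
      _ = _ := by ring
  · intro p hp y hy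
    have h1 := hz.one p hp
    have e1 : q2 om z z1 z2 p + om ^ 2 * q0 om z p = 0 := by
      unfold q2 q0
      rw [h1.1, h1.2.1, h1.2.2]; ring
    rw [e1]; ring

/-- F_LHS.  With `pair_ident` (`A = 3 W1`, `c0 = q0`, ...) the pairing is the sum of six integrals:
tail: `tail_le` with `delta = r^(M/2)` replaced by `r^(b+50(k+1))` (`r^M <= (r^(b+50(k+1)))^2`),
 `K = C eps (om/W1 + 1/W1^2) <= C'` since `om <= C/(r s)`: `eps om/W1 <= r^(k-1)`, `eps/W1^2 = r^(2k)`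
 (`c2 + om^2 c0 = -2 om sin z1 + cos z2`, zero for `|p| <= 2 W1`);
five errors: `err_le` with `K1 = C r^2 om`, `K2 = C om W1` (note `om W1 >= 1`, `|q1| <= 2 om`,
 `r^2 fmd <= 1`, `|psi|, |dpsi| <= 2`); then `K1^2 eps^2 + K2^2 eps <= C r^(18k-2)` and
 `I2 fden <= Cx eta^2 epsc lam^2 s W1 = Cx r^(2b+59k+6)`, so each error is `<= C r^(b+43k+2)`. -/
theorem lhs_small (C' Cz Cc Cx : ℝ) (k b M : ℕ) (hC' : 1 ≤ C') (hCz : 1 ≤ Cz) (hCc : 1 ≤ Cc)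
    (hCx : 1 ≤ Cx) (hk : 10 ≤ k) (hb : 20 * k + 10 ≤ b) (hM : 2 * b + 100 * (k + 1) ≤ M) :
    ∃ C r0 : ℝ, 1 ≤ C ∧ 0 < r0 ∧ ∀ r : ℝ, 0 < r → r < r0 →
      ∀ (om : ℝ) (astar psi dpsi z z1 z2 : ℝ → ℝ) (t tp ty a ap d g : ℝ → ℝ → ℝ) (V : J2),
      0 < om → 1 / C' ≤ om ^ 2 * (Par.mk r k b).epsc → om ^ 2 * (Par.mk r k b).epsc ≤ C' →
      ContinuousOn astar (Icc (-YY) YY) →
      (∀ y ∈ Icc (-YY) YY, |astar y| ≤ Cc * (Par.mk r k b).eps) →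
      FMode astar om psi dpsi → FCut (Par.mk r k b).W1 Cz z z1 z2 →
      FCoef ⟨r, k, b⟩ Cc astar t tp ty a ap d g →
      V.IsJet (-(3 * (Par.mk r k b).W1)) (3 * (Par.mk r k b).W1) (-YY) YY →
      (∀ p ∈ Icc (-(3 * (Par.mk r k b).W1)) (3 * (Par.mk r k b).W1),
        V.w p YY = 0 ∧ V.w p (-YY) = 0) →
      I2 (-(3 * (Par.mk r k b).W1)) (-(2 * (Par.mk r k b).W1)) (-YY) YY (fden ⟨r, k, b⟩ V)
        ≤ r ^ M →
      I2 (2 * (Par.mk r k b).W1) (3 * (Par.mk r k b).W1) (-YY) YY (fden ⟨r, k, b⟩ V) ≤ r ^ M →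
      I2 (-(3 * (Par.mk r k b).W1)) (3 * (Par.mk r k b).W1) (-YY) YY (fden ⟨r, k, b⟩ V)
        ≤ Cx * ((Par.mk r k b).eta ^ 2 * (Par.mk r k b).epsc * (Par.mk r k b).lam ^ 2
          * (Par.mk r k b).s * (Par.mk r k b).W1) →
      |I2 (-(3 * (Par.mk r k b).W1)) (3 * (Par.mk r k b).W1) (-YY) YY
        (fun p y => psi y * q0 om z p * fL t tp ty a ap d g V p y)|
        ≤ C * r ^ (b + 43 * k + 2) := by
  have hCc0 : 0 < Cc := by linarith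
  have hCz0 : 0 < Cz := by linarith
  have hC'0 : 0 < C' := by linarith
  have hCx0 : 0 < Cx := by linarith
  set D : ℝ := 4 * Cc ^ 2 * (2 + Cz) with hD
  have hD0 : 0 < D := by positivity
  have hCc2 : Cc ≤ Cc ^ 2 := by nlinarith
  have hDa : 4 * Cc * (2 + Cz) ≤ D := by
    rw [hD]
    gcongr
  have hCcCz : 0 < Cc * Cz := by positivity
  have hDb : 4 * Cc ^ 2 ≤ D := by
    rw [hD]
    have : (1 : ℝ) ≤ 2 + Cz := by linarith
    calc 4 * Cc ^ 2 = 4 * Cc ^ 2 * 1 := by ring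
      _ ≤ 4 * Cc ^ 2 * (2 + Cz) := by gcongr
  have hD1 : 4 * Cc ≤ D := by linarith
  have hD2 : 2 * Cc ≤ D := by linarith
  have hD3 : 2 * (1 + Cz) * Cc ≤ D := by linarith
  have hC1 : 1 ≤ Cc * Cz * C' := by
    have h1 : 1 ≤ Cc * Cz := by nlinarith
    nlinarith
  refine ⟨600 * (Cc * Cz * C') + 75 * D * C' * Cx, 1 / C', ?_, by positivity, ?_⟩
  · have : 0 < 75 * D * C' * Cx := by positivity
    linarith
  intro r hr0 hr om astar psi dpsi z z1 z2 t tp ty a ap d g V hom ho1 ho2 hca hba hm hz hc hV hV0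
    hl hR hE
  obtain ⟨hr1, homW, hom1, heW, heps1, hW0, he0, heW2⟩ :=
    num1 (b := b) hC' hk hr0 hr hom ho1
  have hA : (0 : ℝ) < 3 * (Par.mk r k b).W1 := by positivity
  have hfm : ∀ y, 0 ≤ fmd ⟨r, k, b⟩ y ∧ fmd ⟨r, k, b⟩ y ≤ 2 * (Par.mk r k b).eps :=
    fun y => fmd_bds hr0 hr1 he0 y
  have hq := q_bds hz hW0 hCz0 hom homW
  obtain ⟨k0, k1, k2⟩ := q_cont (om := om) hz
  have hpsi : ∀ y ∈ Icc (-YY) YY, |psi y| ≤ 2 := fun y hy => by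
    rw [abs_of_nonneg (hm.nonneg y hy)]; exact hm.le2 y hy
  have herr := lhs_err (D := D) hC' hCx hD0 hk hr0 hr1 hom ho2 hV hE
  have hr2 : r ^ 2 ≤ 1 := pow_le_one₀ hr0.le hr1.le
  have h7 : r ^ 2 ≤ om * (Par.mk r k b).W1 := hr2.trans homW
  have h9 : r ^ 4 * (Par.mk r k b).eps ≤ om * (Par.mk r k b).W1 := by
    have h4 : r ^ 4 ≤ 1 := pow_le_one₀ hr0.le hr1.le
    calc r ^ 4 * (Par.mk r k b).eps ≤ 1 * 1 := by gcongr
      _ = 1 := one_mul 1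
      _ ≤ _ := homW
  set P : Par := ⟨r, k, b⟩ with hP
  have hE0 : ∀ p y, 0 ≤ (D * (r ^ 2 * om)) * (P.eps * |V.wy p y|) := fun p y => by positivity
  -- continuity
  have cW : CR (-(3 * P.W1)) (3 * P.W1) (-YY) YY V.w := hV.cw
  have cWp : CR (-(3 * P.W1)) (3 * P.W1) (-YY) YY V.wp := hV.cwp
  have cWy : CR (-(3 * P.W1)) (3 * P.W1) (-YY) YY V.wy := hV.cwy
  have cpsi : CR (-(3 * P.W1)) (3 * P.W1) (-YY) YY (fun _ y => psi y) := CR.ofY hm.cpsi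
  have cdpsi : CR (-(3 * P.W1)) (3 * P.W1) (-YY) YY (fun _ y => dpsi y) := CR.ofY hm.cdpsi
  have castar : CR (-(3 * P.W1)) (3 * P.W1) (-YY) YY (fun _ y => astar y) := CR.ofY hca
  have cq0 : CR (-(3 * P.W1)) (3 * P.W1) (-YY) YY (fun p _ => q0 om z p) :=
    CR.ofP k0.continuousOn
  have cq1 : CR (-(3 * P.W1)) (3 * P.W1) (-YY) YY (fun p _ => q1 om z z1 p) :=
    CR.ofP k1.continuousOn
  have cq2 : CR (-(3 * P.W1)) (3 * P.W1) (-YY) YY
      (fun p _ => q2 om z z1 z2 p + om ^ 2 * q0 om z p) :=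
    CR.ofP (k2.add (continuous_const.mul k0)).continuousOn
  -- the identity
  have hid := pair_ident (om := om) hA hca hm k0 k1 k2 (fun p => q0_deriv hz p)
    (fun p => q1_deriv hz p)
    (by
      have hp := hz.zero (3 * P.W1) (by rw [abs_of_pos hA])
      have hn := hz.zero (-(3 * P.W1)) (by rw [abs_neg, abs_of_pos hA])
      unfold q0 q1
      rw [hp.1, hp.2.1, hn.1, hn.2.1]
      simp)
    hV hV0 hc.ct hc.ctp hc.cty hc.ca hc.cap hc.cd hc.cg hc.htp hc.hty hc.hap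
  have hL : I2 (-(3 * P.W1)) (3 * P.W1) (-YY) YY
      (fun p y => psi y * q0 om z p * fL t tp ty a ap d g V p y) =
      I2 (-(3 * P.W1)) (3 * P.W1) (-YY) YY
      (fun p y => psi y * q0 om z p * (V.wyy p y + 2 * t p y * V.wpy p y
        + t p y ^ 2 * V.wpp p y + (ty p y + t p y * tp p y) * V.wp p y
        - (ap p y * V.wp p y + a p y * V.wpp p y) + d p y * V.wp p y
        + g p y * (V.wy p y + t p y * V.wp p y))) := rfl
  rw [hL, hid]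
  have hT0 := lhs_tail hC' hCz hCc hk hM hr0 hr1 hom ho2 hW0 he0 heW2 hz hV hV0 hl hR hba hpsi
    (((castar.mul cpsi).mul cq2).mul cW)
  have hT1 := herr (fun p y => dpsi y * q0 om z p * (t p y * V.wp p y))
    ((cdpsi.mul cq0).mul (hc.ct.mul cWp)) (fun p hp y hy =>
      pt1 (hm.dle2 y hy) (hq p).1 (hc.bt p hp y hy) (hfm y).1 hCc0 hD2 h7 (hE0 p y))
  have hT2 := herr (fun p y => (tp p y * (psi y * q0 om z p) + t p y * (psi y * q1 om z z1 p))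
      * (V.wy p y + t p y * V.wp p y))
    (((hc.ctp.mul (cpsi.mul cq0)).add (hc.ct.mul (cpsi.mul cq1))).mul
      (cWy.add (hc.ct.mul cWp))) (fun p hp y hy =>
      pt2 (hpsi y hy) (hq p).1 (hq p).2 (hc.bt p hp y hy) (hc.btp p hp y hy) (hfm y).1 (hfm y).2
        hCc0 hCz0 hom1 hD hDa he0 hW0 heW hr2)
  have hT3 := herr (fun p y => psi y * q1 om z z1 p * ((a p y - astar y) * V.wp p y))
    ((cpsi.mul cq1).mul ((hc.ca.sub castar).mul cWp)) (fun p hp y hy =>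
      pt3 (hpsi y hy) (hq p).2 (hc.ba p hp y hy) (hfm y).1 hCc0 hCz0 hom hW0 hD3 (hE0 p y))
  have hT4 := herr (fun p y => psi y * q0 om z p * (d p y * V.wp p y))
    ((cpsi.mul cq0).mul (hc.cd.mul cWp)) (fun p hp y hy =>
      pt1 (hpsi y hy) (hq p).1 (hc.bd p hp y hy) (hfm y).1 hCc0 hD2 h7 (hE0 p y))
  have hT5 := herr (fun p y => psi y * q0 om z p * (g p y * (V.wy p y + t p y * V.wp p y)))
    ((cpsi.mul cq0).mul (hc.cg.mul (cWy.add (hc.ct.mul cWp)))) (fun p hp y hy =>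
      pt5 (hpsi y hy) (hq p).1 (by
        refine abs_le_of_sq_le_sq ((hc.bg p hp y hy).trans ?_) (by positivity)
        have h5 := (hfm y).2
        calc Cc * P.r ^ 4 * P.eps * fmd P y ≤ Cc * P.r ^ 4 * P.eps * (2 * P.eps) := by
              have : 0 ≤ P.r ^ 4 := by positivity
              gcongr
          _ = 2 * Cc * (r ^ 2 * P.eps) ^ 2 := by
              simp only [hP]; ring
          _ ≤ 4 * Cc ^ 2 * (r ^ 2 * P.eps) ^ 2 := by
              have : 2 * Cc ≤ 4 * Cc ^ 2 := by nlinarith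
              gcongr
          _ = _ := by ring) (hc.bt p hp y hy) (hfm y).1 hCc0 hom1 hD1 hDb he0 h9)
  generalize r ^ (b + 43 * k + 2) = X at *
  rw [abs_le] at hT0 hT1 hT2 hT3 hT4 hT5 ⊢
  obtain ⟨a0, b0⟩ := hT0
  obtain ⟨a1, b1⟩ := hT1
  obtain ⟨a2, b2⟩ := hT2
  obtain ⟨a3, b3⟩ := hT3
  obtain ⟨a4, b4⟩ := hT4
  obtain ⟨a5, b5⟩ := hT5
  constructor <;> linarith

end

end P229
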