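import Vale.Agent.P229.F.Basic
import Vale.Agent.P371.G.Ode

/-! # P229, block F, module SHOOT: the first trapped mode (Sturm shooting)   (helper57) -/

open Set Filter Topology

namespace P229

open scoped NNReal

theorem shoot_family {a : ℝ → ℝ} (ha : ContinuousOn a (Icc (-YY) YY)) {L : ℝ} (hL : 0 ≤ L) :
    ∃ w v : ℝ → ℝ → ℝ,
      (∀ l ∈ Icc 0 L, w l (-YY) = 0 ∧ v l (-YY) = 1) ∧
      (∀ l ∈ Icc 0 L, ∀ y ∈ Icc (-YY) YY, HasDerivWithinAt (w l) (v l y) (Icc (-YY) YY) y) ∧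
      (∀ l ∈ Icc 0 L, ∀ y ∈ Icc (-YY) YY,
        HasDerivWithinAt (v l) (-(l * a y * w l y)) (Icc (-YY) YY) y) ∧
      ContinuousOn (fun q : ℝ × ℝ => w q.1 q.2) (Icc 0 L ×ˢ Icc (-YY) YY) ∧
      ContinuousOn (fun q : ℝ × ℝ => v q.1 q.2) (Icc 0 L ×ˢ Icc (-YY) YY) := by
  have hle : -YY ≤ YY := by unfold YY; norm_num
  set a' : ℝ → ℝ := IccExtend hle ((Icc (-YY) YY).domRestrict a) with ha'
  have hac : Continuous a' := (continuousOn_iff_continuous_domRestrict.1 ha).Icc_extend'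
  have hae : ∀ y ∈ Icc (-YY) YY, a' y = a y := fun y hy => by
    rw [ha', IccExtend_of_mem _ _ hy]
    rfl
  obtain ⟨Q, hQ⟩ := (isCompact_Icc (a := -YY) (b := YY)).exists_bound_of_continuousOn ha
  have hQ' : ∀ y, ‖a' y‖ ≤ |Q| := fun y => by
    have h1 : a' y = a (projIcc (-YY) YY hle y) := rfl
    rw [h1]
    exact (hQ _ (projIcc (-YY) YY hle y).2).trans (le_abs_self _)
  let ell : C(Icc (0 : ℝ) L, ℝ) := ⟨Subtype.val, continuous_subtype_val⟩
  set K : ℝ≥0 := ⟨max 1 (|Q| * ‖ell‖), zero_le_one.trans (le_max_left _ _)⟩ with hK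
  let V := C(Icc (0 : ℝ) L, ℝ) × C(Icc (0 : ℝ) L, ℝ)
  let W : ℝ → V → V := fun x z => (z.2, -(a' x • (ell * z.1)))
  have hWc : Continuous fun p : ℝ × V => W p.1 p.2 := by
    refine Continuous.prodMk (continuous_snd.comp continuous_snd) ?_
    exact ((hac.comp continuous_fst).smul
      (continuous_const.mul (continuous_fst.comp continuous_snd))).neg
  have hWK : ∀ x, LipschitzWith K (W x) := fun x => by
    refine LipschitzWith.of_dist_le_mul fun z z' => ?_
    rw [dist_eq_norm, dist_eq_norm]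
    have h1 : W x z - W x z' = ((z - z').2, -(a' x • (ell * (z - z').1))) := by
      refine Prod.ext rfl ?_
      show -(a' x • (ell * z.1)) - -(a' x • (ell * z'.1)) = -(a' x • (ell * (z.1 - z'.1)))
      rw [mul_sub, smul_sub]
      abel
    have h2 : ‖(z - z').1‖ ≤ ‖z - z'‖ := norm_fst_le _
    have h3 : ‖(z - z').2‖ ≤ ‖z - z'‖ := norm_snd_le _
    have hKr : (K : ℝ) = max 1 (|Q| * ‖ell‖) := rfl
    rw [h1, Prod.norm_def, hKr]
    have h5 := norm_nonneg (z - z')
    refine max_le ?_ ?_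
    · calc ‖(z - z').2‖ ≤ 1 * ‖z - z'‖ := by rw [one_mul]; exact h3
        _ ≤ _ := mul_le_mul_of_nonneg_right (le_max_left _ _) h5
    · show ‖-(a' x • (ell * (z - z').1))‖ ≤ _
      rw [norm_neg, norm_smul]
      calc ‖a' x‖ * ‖ell * (z - z').1‖ ≤ |Q| * (‖ell‖ * ‖z - z'‖) := by
            refine mul_le_mul (hQ' x) ?_ (norm_nonneg _) (abs_nonneg _)
            exact (norm_mul_le _ _).trans (mul_le_mul_of_nonneg_left h2 (norm_nonneg _))
        _ = (|Q| * ‖ell‖) * ‖z - z'‖ := by ring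
        _ ≤ _ := mul_le_mul_of_nonneg_right (le_max_right _ _) h5
  obtain ⟨z, hz0, hz⟩ := P371Ode.exists_global (-YY) YY hle W ((0, 1) : V) K hWc hWK
  have hzc : ContinuousOn z (Icc (-YY) YY) := fun y hy => (hz y hy).continuousWithinAt
  refine ⟨fun l y => (z y).1 (projIcc 0 L hL l), fun l y => (z y).2 (projIcc 0 L hL l),
    ?_, ?_, ?_, ?_, ?_⟩
  · intro l _
    simp only [hz0]
    exact ⟨rfl, rfl⟩
  · intro l _ y hy
    exact ((ContinuousMap.evalCLM ℝ (projIcc 0 L hL l)).comp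
      (ContinuousLinearMap.fst ℝ _ _)).hasFDerivAt.comp_hasDerivWithinAt y (hz y hy)
  · intro l hl y hy
    have h1 := ((ContinuousMap.evalCLM ℝ (projIcc 0 L hL l)).comp
      (ContinuousLinearMap.snd ℝ _ _)).hasFDerivAt.comp_hasDerivWithinAt y (hz y hy)
    refine h1.congr_deriv ?_
    have hp : ((projIcc 0 L hL l : Icc (0:ℝ) L) : ℝ) = l := by rw [projIcc_of_mem hL hl]
    show -(a' y * (((projIcc 0 L hL l : Icc (0:ℝ) L) : ℝ) * (z y).1 (projIcc 0 L hL l))) = _
    rw [hp, hae y hy]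
    ring
  · have h1 : ContinuousOn (fun q : ℝ × ℝ => (z q.2).1) (Icc 0 L ×ˢ Icc (-YY) YY) :=
      continuous_fst.comp_continuousOn (hzc.comp continuous_snd.continuousOn fun q hq => hq.2)
    exact h1.eval ((continuous_projIcc.comp continuous_fst).continuousOn)
  · have h1 : ContinuousOn (fun q : ℝ × ℝ => (z q.2).2) (Icc 0 L ×ˢ Icc (-YY) YY) :=
      continuous_snd.comp_continuousOn (hzc.comp continuous_snd.continuousOn fun q hq => hq.2)
    exact h1.eval ((continuous_projIcc.comp continuous_fst).continuousOn)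

/-- the energy argument: a solution with a double zero vanishes at `-YY` too -/
theorem shoot_unique {a w v : ℝ → ℝ} (ha : ContinuousOn a (Icc (-YY) YY)) {l : ℝ}
    (h0 : v (-YY) = 1)
    (hw : ∀ y ∈ Icc (-YY) YY, HasDerivWithinAt w (v y) (Icc (-YY) YY) y)
    (hv : ∀ y ∈ Icc (-YY) YY, HasDerivWithinAt v (-(l * a y * w y)) (Icc (-YY) YY) y)
    {y0 : ℝ} (hy0 : y0 ∈ Icc (-YY) YY) (h1 : w y0 = 0) (h2 : v y0 = 0) : False := by
  obtain ⟨Q, hQ⟩ := (isCompact_Icc (a := -YY) (b := YY)).exists_bound_of_continuousOn ha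
  have hQ0 : 0 ≤ Q := (norm_nonneg _).trans (hQ y0 hy0)
  set K : ℝ := 1 + |l| * Q with hK
  have hK0 : 0 ≤ K := by positivity
  have hle : -YY ≤ y0 := hy0.1
  have hsub : Icc (-YY) y0 ⊆ Icc (-YY) YY := Icc_subset_Icc_right hy0.2
  have hd : ∀ y ∈ Icc (-YY) y0, HasDerivWithinAt
      (fun y => (w y ^ 2 + v y ^ 2) * Real.exp (K * y))
      ((2 * w y * v y + 2 * v y * (-(l * a y * w y))) * Real.exp (K * y)
        + (w y ^ 2 + v y ^ 2) * (Real.exp (K * y) * K)) (Icc (-YY) y0) y := by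
    intro y hy
    have e1 := ((hw y (hsub hy)).mono hsub).pow 2
    have e2 := ((hv y (hsub hy)).mono hsub).pow 2
    have e3 : HasDerivWithinAt (fun y : ℝ => Real.exp (K * y)) (Real.exp (K * y) * K)
        (Icc (-YY) y0) y := by
      have : HasDerivAt (fun y : ℝ => K * y) K y := by
        simpa using (hasDerivAt_id y).const_mul K
      exact this.exp.hasDerivWithinAt
    refine ((e1.add e2).mul e3).congr_deriv ?_
    simp only [Pi.add_apply, Pi.pow_apply]
    norm_num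
  have hmono : MonotoneOn (fun y => (w y ^ 2 + v y ^ 2) * Real.exp (K * y)) (Icc (-YY) y0) := by
    apply monotoneOn_of_deriv_nonneg (convex_Icc _ _)
      (fun y hy => (hd y hy).continuousWithinAt)
    · intro y hy
      rw [interior_Icc] at hy
      exact ((hd y (Ioo_subset_Icc_self hy)).hasDerivAt
        (Icc_mem_nhds hy.1 hy.2)).differentiableAt.differentiableWithinAt
    · intro y hy
      rw [interior_Icc] at hy
      rw [((hd y (Ioo_subset_Icc_self hy)).hasDerivAt (Icc_mem_nhds hy.1 hy.2)).deriv]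
      have hQy := hQ y (hsub (Ioo_subset_Icc_self hy))
      rw [Real.norm_eq_abs] at hQy
      have hla : |l * a y| ≤ |l| * Q := by
        rw [abs_mul]
        exact mul_le_mul_of_nonneg_left hQy (abs_nonneg _)
      have h3 : 2 * w y * v y + 2 * v y * (-(l * a y * w y)) ≥ -(K * (w y ^ 2 + v y ^ 2)) := by
        have h4 : |1 - l * a y| ≤ K := by
          calc |1 - l * a y| ≤ |1| + |l * a y| := abs_sub _ _
            _ ≤ K := by rw [abs_one, hK]; linarith
        have h5 : 2 * |w y * v y| ≤ w y ^ 2 + v y ^ 2 := by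
          rw [abs_mul]
          nlinarith [sq_nonneg (|w y| - |v y|), sq_abs (w y), sq_abs (v y)]
        have h6 : |2 * w y * v y + 2 * v y * (-(l * a y * w y))| ≤ K * (w y ^ 2 + v y ^ 2) := by
          have : 2 * w y * v y + 2 * v y * (-(l * a y * w y)) =
              (1 - l * a y) * (2 * (w y * v y)) := by ring
          rw [this, abs_mul, abs_mul 2, abs_two]
          exact mul_le_mul h4 h5 (by positivity) hK0
        exact (abs_le.1 h6).1
      have h7 := Real.exp_pos (K * y)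
      nlinarith
  have h3 := hmono (left_mem_Icc.2 hle) (right_mem_Icc.2 hle) hle
  simp only [h0, h1, h2] at h3
  have h4 := Real.exp_pos (K * -YY)
  nlinarith [sq_nonneg (w (-YY))]

theorem shoot_mode {a : ℝ → ℝ} (ha : ContinuousOn a (Icc (-YY) YY)) {ce : ℝ} (hce : 0 < ce)
    (hlow : ∀ y, |y| ≤ 1 / 2 → ce ≤ a y) :
    ∃ l : ℝ, 0 < l ∧ l * ce ≤ 10 ∧ ∃ w v : ℝ → ℝ, w (-YY) = 0 ∧ v (-YY) = 1 ∧ w YY = 0 ∧
      (∀ y ∈ Ioo (-YY) YY, 0 < w y) ∧
      (∀ y ∈ Icc (-YY) YY, HasDerivWithinAt w (v y) (Icc (-YY) YY) y) ∧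
      (∀ y ∈ Icc (-YY) YY, HasDerivWithinAt v (-(l * a y * w y)) (Icc (-YY) YY) y) := by
  have hYY : YY = 41 / 20 := rfl
  set L : ℝ := 10 / ce + 1 with hL
  have hL0 : 0 < L := by positivity
  obtain ⟨w, v, h0, hw, hv, hwc, hvc⟩ := shoot_family ha hL0.le
  set S : Set ℝ := {l | l ∈ Icc 0 L ∧ ∀ y ∈ Ioc (-YY) YY, 0 < w l y} with hS
  -- upper bound
  have hSb : ∀ l ∈ S, l * ce ≤ 10 := by
    intro l hl
    by_contra hcon
    push Not at hcon
    have hl0 : 0 ≤ l := hl.1.1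
    have hsub : Icc (-(1 / 2) : ℝ) (1 / 2) ⊆ Icc (-YY) YY :=
      Icc_subset_Icc (by rw [hYY]; norm_num) (by rw [hYY]; norm_num)
    have hd : ∀ y ∈ Icc (-(1 / 2) : ℝ) (1 / 2), HasDerivWithinAt
        (fun y => v l y * Real.cos (Real.pi * y) + w l y * (Real.pi * Real.sin (Real.pi * y)))
        ((-(l * a y * w l y)) * Real.cos (Real.pi * y) +
          v l y * (-Real.sin (Real.pi * y) * Real.pi) +
          (v l y * (Real.pi * Real.sin (Real.pi * y)) +
            w l y * (Real.pi * (Real.cos (Real.pi * y) * Real.pi))))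
        (Icc (-(1 / 2) : ℝ) (1 / 2)) y := by
      intro y hy
      have e1 := (hw l hl.1 y (hsub hy)).mono hsub
      have e2 := (hv l hl.1 y (hsub hy)).mono hsub
      have e3 : HasDerivAt (fun y : ℝ => Real.pi * y) Real.pi y := by
        simpa using (hasDerivAt_id y).const_mul Real.pi
      exact (e2.mul e3.cos.hasDerivWithinAt).add
        (e1.mul ((e3.sin.const_mul Real.pi).hasDerivWithinAt))
    have hanti : AntitoneOn
        (fun y => v l y * Real.cos (Real.pi * y) + w l y * (Real.pi * Real.sin (Real.pi * y)))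
        (Icc (-(1 / 2) : ℝ) (1 / 2)) := by
      apply antitoneOn_of_deriv_nonpos (convex_Icc _ _)
        (fun y hy => (hd y hy).continuousWithinAt)
      · intro y hy
        rw [interior_Icc] at hy
        exact ((hd y (Ioo_subset_Icc_self hy)).hasDerivAt
          (Icc_mem_nhds hy.1 hy.2)).differentiableAt.differentiableWithinAt
      · intro y hy
        rw [interior_Icc] at hy
        rw [((hd y (Ioo_subset_Icc_self hy)).hasDerivAt (Icc_mem_nhds hy.1 hy.2)).deriv]
        have hwy : 0 < w l y := hl.2 y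
          ⟨by rw [hYY]; linarith [hy.1], by rw [hYY]; linarith [hy.2]⟩
        have hcy : 0 ≤ Real.cos (Real.pi * y) := by
          apply Real.cos_nonneg_of_mem_Icc
          constructor
          · nlinarith [Real.pi_pos, hy.1]
          · nlinarith [Real.pi_pos, hy.2]
        have hay : ce ≤ a y := hlow y (abs_le.2 ⟨hy.1.le, hy.2.le⟩)
        have hpi : Real.pi ^ 2 ≤ 10 := by
          have := Real.pi_lt_d2
          nlinarith [Real.pi_pos]
        have h1 : Real.pi ^ 2 ≤ l * a y := by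
          have := mul_le_mul_of_nonneg_left hay hl0
          linarith
        have h2 : (-(l * a y * w l y)) * Real.cos (Real.pi * y) +
          v l y * (-Real.sin (Real.pi * y) * Real.pi) +
          (v l y * (Real.pi * Real.sin (Real.pi * y)) +
            w l y * (Real.pi * (Real.cos (Real.pi * y) * Real.pi))) =
            (Real.pi ^ 2 - l * a y) * (w l y * Real.cos (Real.pi * y)) := by ring
        rw [h2]
        exact mul_nonpos_of_nonpos_of_nonneg (by linarith) (mul_nonneg hwy.le hcy)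
    have h1 := hanti (left_mem_Icc.2 (by norm_num)) (right_mem_Icc.2 (by norm_num))
      (by norm_num : (-(1 / 2) : ℝ) ≤ 1 / 2)
    have e1 : Real.pi * (1 / 2) = Real.pi / 2 := by ring
    have e2 : Real.pi * (-(1 / 2)) = -(Real.pi / 2) := by ring
    simp only [e1, e2, Real.cos_neg, Real.sin_neg, Real.cos_pi_div_two, Real.sin_pi_div_two] at h1
    have h2 : 0 < w l (1 / 2) := hl.2 _ ⟨by rw [hYY]; norm_num, by rw [hYY]; norm_num⟩
    have h3 : 0 < w l (-(1 / 2)) := hl.2 _ ⟨by rw [hYY]; norm_num, by rw [hYY]; norm_num⟩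
    have h4 := Real.pi_pos
    nlinarith [mul_pos h4 h2, mul_pos h4 h3]
  -- zero belongs to `S`
  have h0L : (0 : ℝ) ∈ Icc 0 L := ⟨le_rfl, hL0.le⟩
  have h0S : (0 : ℝ) ∈ S := by
    refine ⟨h0L, ?_⟩
    have hvm : MonotoneOn (v 0) (Icc (-YY) YY) := by
      apply monotoneOn_of_deriv_nonneg (convex_Icc _ _)
        (fun y hy => (hv 0 h0L y hy).continuousWithinAt)
      · intro y hy
        rw [interior_Icc] at hy
        exact ((hv 0 h0L y (Ioo_subset_Icc_self hy)).hasDerivAt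
          (Icc_mem_nhds hy.1 hy.2)).differentiableAt.differentiableWithinAt
      · intro y hy
        rw [interior_Icc] at hy
        rw [((hv 0 h0L y (Ioo_subset_Icc_self hy)).hasDerivAt (Icc_mem_nhds hy.1 hy.2)).deriv]
        simp
    have hwm : StrictMonoOn (w 0) (Icc (-YY) YY) := by
      apply strictMonoOn_of_deriv_pos (convex_Icc _ _)
        (fun y hy => (hw 0 h0L y hy).continuousWithinAt)
      intro y hy
      rw [interior_Icc] at hy
      rw [((hw 0 h0L y (Ioo_subset_Icc_self hy)).hasDerivAt (Icc_mem_nhds hy.1 hy.2)).deriv]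
      have := hvm (left_mem_Icc.2 (by linarith [hy.1, hy.2])) (Ioo_subset_Icc_self hy) hy.1.le
      rw [(h0 0 h0L).2] at this
      linarith
    intro y hy
    have := hwm (left_mem_Icc.2 (by linarith [hy.1, hy.2])) (Ioc_subset_Icc_self hy) hy.1
    rwa [(h0 0 h0L).1] at this
  have hSbdd : BddAbove S := ⟨L, fun l hl => hl.1.2⟩
  have hSne : S.Nonempty := ⟨0, h0S⟩
  set ls : ℝ := sSup S with hls
  have hls0 : 0 ≤ ls := le_csSup hSbdd h0S
  have hlsb : ls * ce ≤ 10 := by
    have : ls ≤ 10 / ce := csSup_le hSne fun l hl => by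
      rw [le_div_iff₀ hce]
      exact hSb l hl
    rwa [le_div_iff₀ hce] at this
  have hlsL : ls < L := by
    have : ls ≤ 10 / ce := by rwa [le_div_iff₀ hce]
    linarith
  have hlsI : ls ∈ Icc 0 L := ⟨hls0, hlsL.le⟩
  -- nonnegativity at `ls`
  have hnn : ∀ y ∈ Icc (-YY) YY, 0 ≤ w ls y := by
    intro y hy
    have hcl : ls ∈ closure S := csSup_mem_closure hSne hSbdd
    have hc : ContinuousWithinAt (fun l => w l y) (Icc 0 L) ls := by
      have h1 := hwc (ls, y) ⟨hlsI, hy⟩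
      have h2 : ContinuousWithinAt (fun l : ℝ => (l, y)) (Icc 0 L) ls :=
        (Continuous.prodMk continuous_id continuous_const).continuousWithinAt
      exact ContinuousWithinAt.comp (g := fun q : ℝ × ℝ => w q.1 q.2)
        (f := fun l : ℝ => (l, y)) (t := Icc 0 L ×ˢ Icc (-YY) YY) h1 h2
        (fun l hl => ⟨hl, hy⟩)
    have hc' : ContinuousWithinAt (fun l => w l y) S ls := hc.mono fun l hl => hl.1
    have hmem : (fun l => w l y) ls ∈ closure ((fun l => w l y) '' S) :=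
      hc'.mem_closure_image hcl
    have hsub : closure ((fun l => w l y) '' S) ⊆ Ici 0 := by
      apply closure_minimal _ isClosed_Ici
      rintro _ ⟨l, hl, rfl⟩
      rcases eq_or_lt_of_le hy.1 with h | h
      · rw [← h]
        show 0 ≤ w l (-YY)
        rw [(h0 l hl.1).1]
      · exact (hl.2 y ⟨h, hy.2⟩).le
    exact hsub hmem
  -- `ls` is not in `S`
  have hnot : ls ∉ S := by
    intro hlsS
    have hleft : (-YY) ∈ Icc (-YY) YY := left_mem_Icc.2 (by rw [hYY]; norm_num)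
    -- near the left end
    have hA : ∀ᶠ q in 𝓝[Icc 0 L ×ˢ Icc (-YY) YY] (ls, -YY), (0 : ℝ) < v q.1 q.2 := by
      have h1 := hvc (ls, -YY) ⟨hlsI, hleft⟩
      have h2 : (0 : ℝ) < v ls (-YY) := by rw [(h0 ls hlsI).2]; norm_num
      exact h1.eventually (lt_mem_nhds h2)
    rw [nhdsWithin_prod_eq, Filter.eventually_prod_iff] at hA
    obtain ⟨pa, hpa, pb, hpb, hAB⟩ := hA
    obtain ⟨d0, hd0, hd0b⟩ := mem_nhdsGE_iff_exists_Icc_subset.1
      (show {y | pb y} ∈ 𝓝[≥] (-YY) by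
        rw [← nhdsWithin_Icc_eq_nhdsGE (show (-YY) < YY by rw [hYY]; norm_num)]
        exact hpb)
    set d : ℝ := min d0 YY with hdd
    have hdb : Icc (-YY) d ⊆ {y | pb y} := (Icc_subset_Icc_right (min_le_left _ _)).trans hd0b
    have hd1 : -YY < d := lt_min hd0 (by rw [hYY]; norm_num)
    have hd2 : d ≤ YY := min_le_right _ _
    -- on the rest
    have hB : ∀ᶠ l in 𝓝[Icc 0 L] ls, ∀ y ∈ Icc d YY, 0 < w l y := by
      have h1 : ∀ᶠ l in 𝓝 ls, ∀ y ∈ Icc d YY,
          (l ∈ Icc 0 L → y ∈ Icc (-YY) YY → 0 < w l y) := by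
        apply (isCompact_Icc (a := d) (b := YY)).eventually_forall_of_forall_eventually
        intro y hy
        have hy' : y ∈ Icc (-YY) YY := ⟨hd1.le.trans hy.1, hy.2⟩
        have h2 := hwc (ls, y) ⟨hlsI, hy'⟩
        have h3 : (0 : ℝ) < w ls y := hlsS.2 y ⟨hd1.trans_le hy.1, hy.2⟩
        have h4 := h2.eventually (lt_mem_nhds h3)
        rw [eventually_nhdsWithin_iff] at h4
        filter_upwards [h4] with z hz h5 h6
        exact hz ⟨h5, h6⟩
      filter_upwards [mem_nhdsWithin_of_mem_nhds h1, self_mem_nhdsWithin] with l h2 h3 y hy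
      exact h2 y hy h3 ⟨hd1.le.trans hy.1, hy.2⟩
    have hC : ∀ᶠ l in 𝓝[Icc 0 L] ls, l ∈ S := by
      filter_upwards [hpa, hB, self_mem_nhdsWithin] with l hl1 hl2 hl3
      refine ⟨hl3, fun y hy => ?_⟩
      rcases le_or_gt d y with h | h
      · exact hl2 y ⟨h, hy.2⟩
      · have hsub : Icc (-YY) d ⊆ Icc (-YY) YY := Icc_subset_Icc_right hd2
        have hwm : StrictMonoOn (w l) (Icc (-YY) d) := by
          apply strictMonoOn_of_deriv_pos (convex_Icc _ _)
            (fun y hy => ((hw l hl3 y (hsub hy)).mono hsub).continuousWithinAt)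
          intro y hy
          rw [interior_Icc] at hy
          have hy' : y ∈ Ioo (-YY) YY := ⟨hy.1, hy.2.trans_le hd2⟩
          rw [((hw l hl3 y (Ioo_subset_Icc_self hy')).hasDerivAt
            (Icc_mem_nhds hy'.1 hy'.2)).deriv]
          exact hAB hl1 (hdb (Ioo_subset_Icc_self hy))
        have := hwm (left_mem_Icc.2 hd1.le) ⟨hy.1.le, h.le⟩ hy.1
        rwa [(h0 l hl3).1] at this
    -- a larger element
    have hD : ∀ᶠ l in 𝓝[>] ls, l ∈ S := by
      have h1 : 𝓝[>] ls ≤ 𝓝[Icc 0 L] ls := by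
        rw [nhdsWithin_le_iff]
        filter_upwards [Ioo_mem_nhdsGT hlsL] with l hl
        exact ⟨hls0.trans hl.1.le, hl.2.le⟩
      exact h1 hC
    obtain ⟨l, hl1, hl2⟩ := (hD.and self_mem_nhdsWithin).exists
    exact absurd (le_csSup hSbdd hl1) (not_le.2 hl2)
  have hlspos : 0 < ls := by
    rcases eq_or_lt_of_le hls0 with h | h
    · exact absurd (h ▸ h0S) hnot
    · exact h
  have hwpos : ∀ y ∈ Ioo (-YY) YY, 0 < w ls y := by
    intro y hy
    rcases eq_or_lt_of_le (hnn y (Ioo_subset_Icc_self hy)) with h | h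
    · exfalso
      have hmin : IsLocalMin (w ls) y := by
        filter_upwards [Icc_mem_nhds hy.1 hy.2] with t ht
        rw [← h]
        exact hnn t ht
      have hd := (hw ls hlsI y (Ioo_subset_Icc_self hy)).hasDerivAt (Icc_mem_nhds hy.1 hy.2)
      exact shoot_unique ha (h0 ls hlsI).2 (hw ls hlsI) (hv ls hlsI) (Ioo_subset_Icc_self hy)
        h.symm (hmin.hasDerivAt_eq_zero hd)
    · exact h
  refine ⟨ls, hlspos, hlsb, w ls, v ls, (h0 ls hlsI).1, (h0 ls hlsI).2, ?_, hwpos,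
    hw ls hlsI, hv ls hlsI⟩
  by_contra hne
  apply hnot
  refine ⟨hlsI, fun y hy => ?_⟩
  rcases eq_or_lt_of_le hy.2 with h | h
  · rw [h]
    exact lt_of_le_of_ne (hnn YY (right_mem_Icc.2 (by rw [hYY]; norm_num))) (Ne.symm hne)
  · exact hwpos y ⟨hy.1, h⟩

private theorem shoot_mvt {f f' : ℝ → ℝ} {s t : ℝ} (hst : s < t) (hs : -YY ≤ s) (ht : t ≤ YY)
    (hf : ∀ y ∈ Icc (-YY) YY, HasDerivWithinAt f (f' y) (Icc (-YY) YY) y) :
    ∃ x ∈ Ioo s t, f t - f s = f' x * (t - s) := by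
  have hsub : Icc s t ⊆ Icc (-YY) YY := Icc_subset_Icc hs ht
  obtain ⟨x, hx, h⟩ := exists_hasDerivAt_eq_slope f f' hst
    (fun y hy => ((hf y (hsub hy)).mono hsub).continuousWithinAt)
    (fun y hy => (hf y (hsub (Ioo_subset_Icc_self hy))).hasDerivAt
      (Icc_mem_nhds (hs.trans_lt hy.1) (hy.2.trans_le ht)))
  refine ⟨x, hx, ?_⟩
  rw [h, div_mul_cancel₀]
  exact (sub_pos.2 hst).ne'

private theorem shoot_mono {f f' : ℝ → ℝ} {s t : ℝ} (hs : -YY ≤ s) (ht : t ≤ YY)
    (hf : ∀ y ∈ Icc (-YY) YY, HasDerivWithinAt f (f' y) (Icc (-YY) YY) y)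
    (h : ∀ y ∈ Icc s t, 0 ≤ f' y) : ∀ x y, s ≤ x → x ≤ y → y ≤ t → f x ≤ f y := by
  intro x y hx hxy hy
  rcases eq_or_lt_of_le hxy with e | e
  · rw [e]
  · obtain ⟨z, hz, h1⟩ := shoot_mvt e (hs.trans hx) (hy.trans ht) hf
    have h2 := h z ⟨hx.trans hz.1.le, hz.2.le.trans hy⟩
    have h3 := mul_nonneg h2 (sub_pos.2 e).le
    linarith

private theorem shoot_anti {f f' : ℝ → ℝ} {s t : ℝ} (hs : -YY ≤ s) (ht : t ≤ YY)
    (hf : ∀ y ∈ Icc (-YY) YY, HasDerivWithinAt f (f' y) (Icc (-YY) YY) y)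
    (h : ∀ y ∈ Icc s t, f' y ≤ 0) : ∀ x y, s ≤ x → x ≤ y → y ≤ t → f y ≤ f x := by
  intro x y hx hxy hy
  rcases eq_or_lt_of_le hxy with e | e
  · rw [e]
  · obtain ⟨z, hz, h1⟩ := shoot_mvt e (hs.trans hx) (hy.trans ht) hf
    have h2 := h z ⟨hx.trans hz.1.le, hz.2.le.trans hy⟩
    have h3 := mul_nonneg (neg_nonneg.2 h2) (sub_pos.2 e).le
    linarith

/-- the first trapped mode -/
theorem trapped_mode (c C : ℝ) (hc : 0 < c) (hC : 0 < C) : ∃ C' : ℝ, 1 ≤ C' ∧
    ∀ (e : ℝ) (a : ℝ → ℝ), 0 < e → ContinuousOn a (Icc (-YY) YY) →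
      (∀ y, |y| ≤ 2 → 0 ≤ a y) → (∀ y, 2 ≤ |y| → |y| ≤ YY → a y ≤ 0) →
      (∀ y, 1 ≤ |y| → |y| ≤ 2 → a y = 0) → (∀ y, |y| ≤ 1 / 2 → c * e ≤ a y) →
      (∀ y, |y| ≤ 1 → a y ≤ C * e) →
      ∃ (om : ℝ) (psi dpsi : ℝ → ℝ), 0 < om ∧ 1 / C' ≤ om ^ 2 * e ∧ om ^ 2 * e ≤ C' ∧
        FMode a om psi dpsi ∧ (∀ y ∈ Ioo (-YY) YY, 0 < psi y) := by
  refine ⟨10 / c + 8 * C + 1, by
    have := div_pos (by norm_num : (0 : ℝ) < 10) hc
    linarith, ?_⟩
  intro e a he ha h1 h2 h3 h4 h5
  have hYY : YY = 41 / 20 := rfl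
  obtain ⟨l, hl0, hl1, w, v, hw0, hv0, hwY, hwpos, hw, hv⟩ :=
    shoot_mode ha (mul_pos hc he) h4
  have hwnn : ∀ y ∈ Icc (-YY) YY, 0 ≤ w y := by
    intro y hy
    rcases eq_or_lt_of_le hy.1 with h | h
    · rw [← h, hw0]
    · rcases eq_or_lt_of_le hy.2 with h' | h'
      · rw [h', hwY]
      · exact (hwpos y ⟨h, h'⟩).le
  -- monotonicity of `v`
  have vanti : ∀ x y, -2 ≤ x → x ≤ y → y ≤ 2 → v y ≤ v x :=
    shoot_anti (by rw [hYY]; norm_num) (by rw [hYY]; norm_num) hv fun y hy => by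
      have e1 := h1 y (abs_le.2 hy)
      have e2 := hwnn y ⟨by rw [hYY]; linarith [hy.1], by rw [hYY]; linarith [hy.2]⟩
      have := mul_nonneg (mul_nonneg hl0.le e1) e2
      linarith
  have vmonoL : ∀ x y, -YY ≤ x → x ≤ y → y ≤ -2 → v x ≤ v y :=
    shoot_mono le_rfl (by rw [hYY]; norm_num) hv fun y hy => by
      have e0 : |y| = -y := abs_of_nonpos (by linarith [hy.2])
      have e1 := h2 y (by rw [e0]; linarith [hy.2]) (by rw [e0]; linarith [hy.1])
      have e2 := hwnn y ⟨hy.1, by rw [hYY]; linarith [hy.2]⟩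
      have := mul_nonneg (mul_nonneg hl0.le (neg_nonneg.2 e1)) e2
      linarith
  have vmonoR : ∀ x y, 2 ≤ x → x ≤ y → y ≤ YY → v x ≤ v y :=
    shoot_mono (by rw [hYY]; norm_num) le_rfl hv fun y hy => by
      have e0 : |y| = y := abs_of_nonneg (by linarith [hy.1])
      have e1 := h2 y (by rw [e0]; linarith [hy.1]) (by rw [e0]; linarith [hy.2])
      have e2 := hwnn y ⟨by rw [hYY]; linarith [hy.1], hy.2⟩
      have := mul_nonneg (mul_nonneg hl0.le (neg_nonneg.2 e1)) e2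
      linarith
  have vgapL : ∀ x y, -2 ≤ x → x ≤ y → y ≤ -1 → v x ≤ v y :=
    shoot_mono (by rw [hYY]; norm_num) (by rw [hYY]; norm_num) hv fun y hy => by
      have e0 : |y| = -y := abs_of_nonpos (by linarith [hy.2])
      rw [h3 y (by rw [e0]; linarith [hy.2]) (by rw [e0]; linarith [hy.1])]
      simp
  have vgapR : ∀ x y, 1 ≤ x → x ≤ y → y ≤ 2 → v x ≤ v y :=
    shoot_mono (by rw [hYY]; norm_num) (by rw [hYY]; norm_num) hv fun y hy => by
      have e0 : |y| = y := abs_of_nonneg (by linarith [hy.1])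
      rw [h3 y (by rw [e0]; linarith [hy.1]) (by rw [e0]; linarith [hy.2])]
      simp
  have hm1 : 1 ≤ v (-2) := by
    have := vmonoL (-YY) (-2) le_rfl (by rw [hYY]; norm_num) le_rfl
    rwa [hv0] at this
  set m : ℝ := v (-2) with hm
  have wm2 : 0 ≤ w (-2) := hwnn _ ⟨by rw [hYY]; norm_num, by rw [hYY]; norm_num⟩
  have wm1 : 0 ≤ w (-1) := hwnn _ ⟨by rw [hYY]; norm_num, by rw [hYY]; norm_num⟩
  have wp2 : 0 ≤ w 2 := hwnn _ ⟨by rw [hYY]; norm_num, by rw [hYY]; norm_num⟩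
  have wp1 : 0 ≤ w 1 := hwnn _ ⟨by rw [hYY]; norm_num, by rw [hYY]; norm_num⟩
  have w00 : 0 < w 0 := hwpos _ ⟨by rw [hYY]; norm_num, by rw [hYY]; norm_num⟩
  -- right end
  have vRneg : ∀ z, 2 ≤ z → z < YY → v z ≤ 0 := by
    intro z hz hz'
    obtain ⟨x, hx, hx1⟩ := shoot_mvt hz' (by rw [hYY]; linarith) le_rfl hw
    rw [hwY] at hx1
    have e1 := hwnn z ⟨by rw [hYY]; linarith, hz'.le⟩
    have e2 : v x ≤ 0 := by
      by_contra hcon
      push Not at hcon
      have := mul_pos hcon (sub_pos.2 hz')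
      linarith
    exact (vmonoR z x hz hx.1.le hx.2.le).trans e2
  have vYneg : v YY ≤ 0 := by
    by_contra hcon
    push Not at hcon
    have hYm : YY ∈ Icc (-YY) YY := right_mem_Icc.2 (by rw [hYY]; norm_num)
    have e1 := (hv YY hYm).continuousWithinAt
    have e2 := e1.eventually (lt_mem_nhds hcon)
    have e3 : ∀ᶠ z in 𝓝[<] YY, 0 < v z := by
      have h1 : 𝓝[<] YY ≤ 𝓝[Icc (-YY) YY] YY := by
        rw [nhdsWithin_le_iff]
        filter_upwards [Ioo_mem_nhdsLT (show (-YY) < YY by rw [hYY]; norm_num)] with z hz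
        exact ⟨hz.1.le, hz.2.le⟩
      exact h1 e2
    have e4 : ∀ᶠ z in 𝓝[<] YY, z ∈ Ioo 2 YY :=
      Ioo_mem_nhdsLT (show (2 : ℝ) < YY by rw [hYY]; norm_num)
    obtain ⟨z, hz1, hz2⟩ := (e3.and e4).exists
    exact absurd (vRneg z hz2.1.le hz2.2) (not_le.2 hz1)
  have v2neg : v 2 ≤ 0 := vRneg 2 le_rfl (by rw [hYY]; norm_num)
  have v1neg : v 1 ≤ 0 := (vgapR 1 2 le_rfl (by norm_num) le_rfl).trans v2neg
  have vm1 : v (-1) = m := le_antisymm (vanti (-2) (-1) le_rfl (by norm_num) (by norm_num))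
    (vgapL (-2) (-1) le_rfl (by norm_num) le_rfl)
  have v12 : v 1 = v 2 := le_antisymm (vgapR 1 2 le_rfl (by norm_num) le_rfl)
    (vanti 1 2 (by norm_num) (by norm_num) le_rfl)
  -- values at `-2`, `-1`
  have wm2le : w (-2) ≤ m / 20 := by
    obtain ⟨x, hx, hx1⟩ := shoot_mvt (s := -YY) (t := -2) (by rw [hYY]; norm_num) le_rfl
      (by rw [hYY]; norm_num) hw
    rw [hw0] at hx1
    have e1 := vmonoL x (-2) hx.1.le hx.2.le le_rfl
    have e2 : (-2 : ℝ) - -YY = 1 / 20 := by rw [hYY]; norm_num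
    rw [e2] at hx1
    linarith
  have wdiff : w (-1) - w (-2) = m := by
    obtain ⟨x, hx, hx1⟩ := shoot_mvt (s := -2) (t := -1) (by norm_num) (by rw [hYY]; norm_num)
      (by rw [hYY]; norm_num) hw
    have e1 : v x = m := le_antisymm (vanti (-2) x le_rfl hx.1.le (by linarith [hx.2]))
      (vgapL (-2) x le_rfl hx.1.le hx.2.le)
    rw [e1] at hx1
    linarith
  have wdiffR : w 2 - w 1 = v 2 := by
    obtain ⟨x, hx, hx1⟩ := shoot_mvt (s := 1) (t := 2) (by norm_num) (by rw [hYY]; norm_num)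
      (by rw [hYY]; norm_num) hw
    have e1 : v x = v 2 := le_antisymm (vgapR x 2 hx.1.le hx.2.le le_rfl)
      (vanti x 2 (by linarith [hx.1]) hx.2.le le_rfl)
    rw [e1] at hx1
    linarith
  -- lower bound for `l * e`
  have hlow : 1 ≤ 8 * C * (l * e) := by
    obtain ⟨x, hx, hx1⟩ := shoot_mvt (s := -1) (t := 1) (by norm_num) (by rw [hYY]; norm_num)
      (by rw [hYY]; norm_num) hv
    have e1 : w x ≤ 4 * m := by
      obtain ⟨z, hz, hz1⟩ := shoot_mvt (s := -1) (t := x) hx.1 (by rw [hYY]; norm_num)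
        (by rw [hYY]; linarith [hx.2]) hw
      have e2 : v z ≤ m := vanti (-2) z le_rfl (by linarith [hz.1]) (by linarith [hz.2, hx.2])
      have e3 : v z * (x - -1) ≤ m * 2 := by
        calc v z * (x - -1) ≤ m * (x - -1) :=
              mul_le_mul_of_nonneg_right e2 (by linarith [hx.1])
          _ ≤ m * 2 := mul_le_mul_of_nonneg_left (by linarith [hx.2]) (by linarith)
      linarith
    have e2 : a x ≤ C * e := h5 x (abs_le.2 ⟨hx.1.le, hx.2.le⟩)
    have e3 : 0 ≤ a x := h1 x (abs_le.2 ⟨by linarith [hx.1], by linarith [hx.2]⟩)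
    have e4 : 0 ≤ w x := hwnn x ⟨by rw [hYY]; linarith [hx.1], by rw [hYY]; linarith [hx.2]⟩
    have e5 : l * a x * w x ≤ l * (C * e) * (4 * m) := by
      have := mul_le_mul_of_nonneg_left e2 hl0.le
      exact mul_le_mul this e1 e4 (by positivity)
    have e6 : m ≤ 2 * (l * (C * e) * (4 * m)) := by
      rw [vm1] at hx1
      linarith
    have hmpos : 0 < m := by linarith
    have e7 : 1 * m ≤ (8 * C * (l * e)) * m := by
      calc 1 * m = m := one_mul m
        _ ≤ 2 * (l * (C * e) * (4 * m)) := e6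
        _ = (8 * C * (l * e)) * m := by ring
    exact le_of_mul_le_mul_right e7 hmpos
  -- slope at zero
  have v0up : 2 * v 0 ≤ w 0 := by
    obtain ⟨x, hx, hx1⟩ := shoot_mvt (s := -2) (t := 0) (by norm_num) (by rw [hYY]; norm_num)
      (by rw [hYY]; norm_num) hw
    have := vanti x 0 hx.1.le hx.2.le (by norm_num)
    linarith
  have v0lo : -(w 0) ≤ 2 * v 0 := by
    obtain ⟨x, hx, hx1⟩ := shoot_mvt (s := 0) (t := 2) (by norm_num) (by rw [hYY]; norm_num)
      (by rw [hYY]; norm_num) hw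
    have := vanti 0 x (by norm_num) hx.1.le hx.2.le
    linarith
  have wcore : ∀ y, -2 ≤ y → y ≤ 2 → w y ≤ 2 * w 0 := by
    intro y hy1 hy2
    rcases lt_trichotomy y 0 with h | h | h
    · obtain ⟨x, hx, hx1⟩ := shoot_mvt (s := y) (t := 0) h (by rw [hYY]; linarith)
        (by rw [hYY]; norm_num) hw
      have e1 := vanti x 0 (by linarith [hx.1]) hx.2.le (by norm_num)
      have e2 : v 0 * (0 - y) ≤ v x * (0 - y) := mul_le_mul_of_nonneg_right e1 (by linarith)
      have e3 : -(w 0) ≤ v 0 * (0 - y) := by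
        rcases le_or_gt 0 (v 0) with h' | h'
        · have := mul_nonneg h' (show (0 : ℝ) ≤ 0 - y by linarith)
          linarith
        · nlinarith
      linarith
    · rw [h]; linarith
    · obtain ⟨x, hx, hx1⟩ := shoot_mvt (s := 0) (t := y) h (by rw [hYY]; norm_num)
        (by rw [hYY]; linarith) hw
      have e1 := vanti 0 x (by norm_num) hx.1.le (by linarith [hx.2])
      have e2 : v x * (y - 0) ≤ v 0 * (y - 0) := mul_le_mul_of_nonneg_right e1 (by linarith)
      have e3 : v 0 * (y - 0) ≤ w 0 := by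
        rcases le_or_gt 0 (v 0) with h' | h'
        · nlinarith
        · have := mul_pos (neg_pos.2 h') (show (0 : ℝ) < y - 0 by linarith)
          linarith
      linarith
  have mle : m ≤ 2 * w 0 := by
    have := wcore (-1) (by norm_num) (by norm_num)
    linarith
  have v2ge : -(2 * w 0) ≤ v 2 := by
    have := wcore 1 (by norm_num) (by norm_num)
    linarith
  have wall : ∀ y ∈ Icc (-YY) YY, w y ≤ 2 * w 0 := by
    intro y hy
    rcases le_or_gt (-2) y with h | h
    · rcases le_or_gt y 2 with h' | h'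
      · exact wcore y h h'
      · obtain ⟨x, hx, hx1⟩ := shoot_mvt (s := 2) (t := y) h' (by rw [hYY]; norm_num) hy.2 hw
        have e1 := vRneg x hx.1.le (hx.2.trans_le hy.2)
        have e2 := mul_nonneg (neg_nonneg.2 e1) (sub_pos.2 h').le
        have := wcore 2 (by norm_num) le_rfl
        linarith
    · obtain ⟨x, hx, hx1⟩ := shoot_mvt (s := y) (t := -2) h hy.1 (by rw [hYY]; norm_num) hw
      have e1 := vmonoL (-YY) x le_rfl (hy.1.trans hx.1.le) hx.2.le
      rw [hv0] at e1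
      have e2 := mul_nonneg (zero_le_one.trans e1) (sub_pos.2 h).le
      have := wcore (-2) le_rfl (by norm_num)
      linarith
  have vall : ∀ y ∈ Icc (-YY) YY, |v y| ≤ 2 * w 0 := by
    intro y hy
    rw [abs_le]
    rcases le_or_gt (-2) y with h | h
    · rcases le_or_gt y 2 with h' | h'
      · exact ⟨v2ge.trans (vanti y 2 h h' le_rfl), (vanti (-2) y le_rfl h h').trans mle⟩
      · refine ⟨v2ge.trans (vmonoR 2 y le_rfl h'.le hy.2), ?_⟩
        have := vmonoR y YY h'.le hy.2 le_rfl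
        linarith
    · refine ⟨?_, (vmonoL y (-2) hy.1 h.le le_rfl).trans mle⟩
      have := vmonoL (-YY) y le_rfl hy.1 h.le
      rw [hv0] at this
      linarith
  -- conclusion
  have hsq : Real.sqrt l ^ 2 = l := Real.sq_sqrt hl0.le
  refine ⟨Real.sqrt l, fun y => w y / w 0, fun y => v y / w 0, Real.sqrt_pos.2 hl0, ?_, ?_, ?_, ?_⟩
  · rw [hsq, div_le_iff₀ (by
      have := div_pos (by norm_num : (0 : ℝ) < 10) hc
      linarith)]
    have e1 : 0 < l * e := mul_pos hl0 he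
    have e2 := div_pos (by norm_num : (0 : ℝ) < 10) hc
    nlinarith [mul_pos e1 e2]
  · rw [hsq]
    have : l * e ≤ 10 / c := by
      rw [le_div_iff₀ hc]
      linarith
    linarith
  · refine ⟨?_, ?_, ?_, ?_, ?_, ?_, ?_, ?_, ?_, ?_⟩
    · exact fun y hy => (hw y hy).continuousWithinAt.div_const _
    · exact fun y hy => (hv y hy).continuousWithinAt.div_const _
    · intro y hy
      exact ((hw y (Ioo_subset_Icc_self hy)).hasDerivAt (Icc_mem_nhds hy.1 hy.2)).div_const _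
    · intro y hy
      refine (((hv y (Ioo_subset_Icc_self hy)).hasDerivAt
        (Icc_mem_nhds hy.1 hy.2)).div_const (w 0)).congr_deriv ?_
      rw [hsq]
      ring
    · simp [hwY]
    · simp [hw0]
    · exact div_self w00.ne'
    · exact fun y hy => div_nonneg (hwnn y hy) w00.le
    · intro y hy
      show w y / w 0 ≤ 2
      rw [div_le_iff₀ w00]
      exact wall y hy
    · intro y hy
      show |v y / w 0| ≤ 2
      rw [abs_div, abs_of_pos w00, div_le_iff₀ w00]
      exact vall y hy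
  · exact fun y hy => div_pos (hwpos y hy) w00

end P229
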