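import Vale.Agent.P229.F.Asm
import Vale.Agent.P229.F.Shoot
import Vale.Agent.P229.T.TDataOf

/-! # P229, block F: final assembly -/

namespace P229

open Set Real
open scoped ContDiff

noncomputable section

theorem shootStatement : ShootStatement := by
  intro Ca hCa
  have hCa0 : 0 < Ca := by linarith
  obtain ⟨C', hC', H⟩ := trapped_mode (1 / Ca) Ca (by positivity) hCa0
  refine ⟨C', hC', ?_⟩
  intro e he he1 a ha h1 h2 h3 h4 h5
  obtain ⟨om, psi, dpsi, e1, e2, e3, e4, -⟩ := H e a he ha h1 h2 h3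
    (fun y hy => by
      have := h4 y hy
      calc 1 / Ca * e = e / Ca := by ring
        _ ≤ a y := this) h5
  exact ⟨om, psi, dpsi, e1, e2, e3, e4⟩

theorem fmd_eq_md (P : Par) (y : ℝ) : fmd P y = md P y := by
  unfold fmd md
  ring

private theorem fm_mul_le {C A m : ℝ} (hC : 0 ≤ C) (hA : 0 ≤ A) (hm : 0 ≤ m) :
    C * A * m ≤ 3 * C * A * m := by
  have h : 0 ≤ C * A * m := by positivity
  have h2 : 3 * C * A * m = C * A * m + 2 * (C * A * m) := by ring
  rw [h2]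
  linarith

theorem fast_of {P : Par} {mu C : ℝ} {ast : ℝ → ℝ} {κ : Coef} (hκ : κ.Good P mu C ast)
    (hr : 0 < P.r) (hr1 : P.r ≤ 1) (hC : 1 ≤ C) (hmu1 : 1 / C ≤ mu) (hmu2 : mu ≤ C)
    (hW : 3 * C ^ 2 * P.W1 ≤ 1) (hW0 : 0 ≤ P.W1) (hc : ContinuousOn ast (Icc (-YY) YY)) :
    FAst P (3 * C) ast := by
  have hYY : YY = 41 / 20 := rfl
  have hC0 : 0 < C := by linarith
  have hm0 : ∀ y, 0 ≤ md P y := fun y => md_nonneg P hr y
  have hme : ∀ y, md P y ≤ P.eps := fun y => md_le_eps P hr hr1 y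
  have hec : 0 < P.epsc := pow_pos hr _
  -- `C W1 ≤ 1/(3C)`
  have hCW : C * P.W1 ≤ 1 / (3 * C) := by
    rw [le_div_iff₀ (by positivity)]
    calc C * P.W1 * (3 * C) = 3 * C ^ 2 * P.W1 := by ring
      _ ≤ 1 := hW
  have hCW1 : C * P.W1 ≤ C := by
    have h1 : 1 / (3 * C) ≤ C := by
      rw [div_le_iff₀ (by positivity)]
      nlinarith
    linarith
  have h3C : 1 / (3 * C) = 1 / C * (1 / 3) := by
    field_simp
  have hCinv : 0 < 1 / C := by positivity
  have h00 : (0 : ℝ) ∈ Icc (-(7 / 5) : ℝ) (7 / 5) := by constructor <;> norm_num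
  have hnear : ∀ y ∈ Icc (-YY) YY, |κ.a 0 y - ast y| ≤ C * P.W1 * md P y := fun y hy =>
    hκ.near 0 (by rw [abs_zero]; linarith) y hy
  have hab : ∀ y ∈ Icc (-YY) YY, |ast y| ≤ 3 * C * md P y := by
    intro y hy
    have h1 := abs_le.1 (hnear y hy)
    have h2 := abs_le.1 (hκ.ba 0 h00 y hy)
    have h3 : C * P.W1 * md P y ≤ C * md P y := mul_le_mul_of_nonneg_right hCW1 (hm0 y)
    have h4 : 2 * mu * md P y ≤ 2 * C * md P y :=
      mul_le_mul_of_nonneg_right (by linarith) (hm0 y)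
    rw [abs_le]
    constructor <;> linarith [h1.1, h1.2, h2.1, h2.2]
  have hlow : ∀ y : ℝ, |y| ≤ 2 → 1 / (3 * C) * md P y ≤ ast y := by
    intro y hy
    have hyI : y ∈ Icc (-YY) YY := by
      rw [hYY]
      have := abs_le.1 hy
      exact ⟨by linarith [this.1], by linarith [this.2]⟩
    have h1 := abs_le.1 (hnear y hyI)
    have h2 := hκ.core2 0 (by constructor <;> norm_num) y hy
    have h3 : 7 / 10 * (1 / C) * md P y ≤ 7 / 10 * mu * md P y :=
      mul_le_mul_of_nonneg_right (by linarith) (hm0 y)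
    have h4 : C * P.W1 * md P y ≤ 1 / (3 * C) * md P y :=
      mul_le_mul_of_nonneg_right hCW (hm0 y)
    have h5 : 0 ≤ 1 / C * md P y := mul_nonneg hCinv.le (hm0 y)
    rw [h3C] at h4 ⊢
    have h6 : 1 / C * (1 / 3) * md P y = 1 / 3 * (1 / C * md P y) := by ring
    have h7 : 7 / 10 * (1 / C) * md P y = 7 / 10 * (1 / C * md P y) := by ring
    rw [h6] at h4 ⊢
    rw [h7] at h3
    linarith [h1.1, h1.2]
  refine ⟨hc, ?_, ?_, ?_, ?_, ?_, ?_⟩
  · intro y hy
    refine le_trans ?_ (hlow y hy)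
    have := hm0 y
    positivity
  · intro y hy1 hy2
    have hyI : y ∈ Icc (-YY) YY := by
      have := abs_le.1 hy2
      exact ⟨this.1, this.2⟩
    have h1 := abs_le.1 (hnear y hyI)
    have h2 := (hκ.lay1 0 h00 y hyI hy1).1
    have h3 : 99 / 100 * (1 / C) * md P y ≤ 99 / 100 * mu * md P y :=
      mul_le_mul_of_nonneg_right (by linarith) (hm0 y)
    have h4 : C * P.W1 * md P y ≤ 1 / (3 * C) * md P y :=
      mul_le_mul_of_nonneg_right hCW (hm0 y)
    have h5 : 0 ≤ 1 / C * md P y := mul_nonneg hCinv.le (hm0 y)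
    rw [h3C] at h4
    have h6 : 1 / C * (1 / 3) * md P y = 1 / 3 * (1 / C * md P y) := by ring
    have h7 : 99 / 100 * (1 / C) * md P y = 99 / 100 * (1 / C * md P y) := by ring
    rw [h6] at h4
    rw [h7] at h3
    linarith [h1.1, h1.2]
  · intro y hy1 hy2
    have hyI : y ∈ Icc (-YY) YY := by
      rw [hYY]
      have := abs_le.1 hy2
      exact ⟨by linarith [this.1], by linarith [this.2]⟩
    have h1 := hab y hyI
    rw [md_gap P hy1 hy2, mul_zero] at h1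
    exact abs_nonpos_iff.1 h1
  · intro y hy
    have h1 := hlow y (by linarith)
    rw [md_core P (by linarith : |y| ≤ 2), kk_eq_one hy, mul_one] at h1
    calc P.epsc / (3 * C) = 1 / (3 * C) * P.epsc := by ring
      _ ≤ ast y := h1
  · intro y hy
    have hyI : y ∈ Icc (-YY) YY := by
      rw [hYY]
      have := abs_le.1 hy
      exact ⟨by linarith [this.1], by linarith [this.2]⟩
    have h1 := (abs_le.1 (hab y hyI)).2
    rw [md_core P (by linarith : |y| ≤ 2)] at h1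
    have h2 : P.epsc * kk y ≤ P.epsc := by
      have := mul_le_mul_of_nonneg_left (kk_le_one y) hec.le
      linarith
    have h3 := mul_le_mul_of_nonneg_left h2 (by positivity : 0 ≤ 3 * C)
    linarith
  · intro y hy
    exact (hab y hy).trans (mul_le_mul_of_nonneg_left (hme y) (by positivity))

theorem fcoef_of {P : Par} {mu C : ℝ} {ast : ℝ → ℝ} {κ : Coef} (hκ : κ.Good P mu C ast)
    (hr : 0 < P.r) (hC : 1 ≤ C) (hW : 3 * P.W1 ≤ 7 / 5) (hW0 : 0 ≤ P.W1) :
    FCoef P (3 * C) ast κ.t κ.tp κ.ty κ.a κ.ap κ.d κ.g := by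
  have hC0 : 0 ≤ C := by linarith
  have hm0 : ∀ y, 0 ≤ md P y := fun y => md_nonneg P hr y
  have hsub : Icc (-(3 * P.W1)) (3 * P.W1) ⊆ Icc (-(7 / 5) : ℝ) (7 / 5) :=
    Icc_subset_Icc (by linarith) hW
  have hsub' : Ioo (-(3 * P.W1)) (3 * P.W1) ⊆ Ioo (-(7 / 5) : ℝ) (7 / 5) :=
    Ioo_subset_Ioo (by linarith) hW
  have hmono : ∀ f : ℝ → ℝ → ℝ, ContinuousOn (Function.uncurry f) strip →
      CR (-(3 * P.W1)) (3 * P.W1) (-YY) YY f := fun f hf =>
    hf.mono (Set.prod_mono hsub subset_rfl)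
  have hr2 : 0 ≤ P.r ^ 2 := sq_nonneg _
  exact
    { ct := hmono _ hκ.ct
      ctp := hmono _ hκ.ctp
      cty := hmono _ hκ.cty
      ca := hmono _ hκ.ca
      cap := hmono _ hκ.cap
      cd := hmono _ hκ.cd
      cg := hmono _ hκ.cg
      htp := fun p hp y hy => hκ.htp p (hsub' hp) y hy
      hty := fun p hp y hy => hκ.hty p (hsub hp) y hy
      hap := fun p hp y hy => hκ.hap p (hsub' hp) y hy
      bt := fun p hp y hy => by
        rw [fmd_eq_md]
        exact (hκ.bt p (hsub hp) y hy).trans (fm_mul_le hC0 hr2 (hm0 y))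
      btp := fun p hp y hy => by
        rw [fmd_eq_md]
        exact (hκ.btp p (hsub hp) y hy).trans (fm_mul_le hC0 hr2 (hm0 y))
      bd := fun p hp y hy => by
        rw [fmd_eq_md]
        exact (hκ.bd p (hsub hp) y hy).trans (fm_mul_le hC0 hr2 (hm0 y))
      bg := fun p hp y hy => by
        rw [fmd_eq_md]
        refine (hκ.bg p (hsub hp) y hy).trans ?_
        have h4 : 0 ≤ P.r ^ 4 * P.eps := mul_nonneg (pow_nonneg hr.le _) (pow_pos hr _).le
        have h5 := fm_mul_le (C := C) (A := P.r ^ 4 * P.eps) (m := md P y) hC0 h4 (hm0 y)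
        calc C * P.r ^ 4 * P.eps * md P y = C * (P.r ^ 4 * P.eps) * md P y := by ring
          _ ≤ 3 * C * (P.r ^ 4 * P.eps) * md P y := h5
          _ = 3 * C * P.r ^ 4 * P.eps * md P y := by ring
      ba := fun p hp y hy => by
        rw [fmd_eq_md]
        refine (hκ.near p (abs_le.2 ⟨hp.1, hp.2⟩) y hy).trans (fm_mul_le hC0 hW0 (hm0 y)) }

theorem blockF : BlockF := by
  intro C1 C2 Cx k b M hC1 hC2 hCx hk hb hM
  obtain ⟨CT, rT, hCT, hrT, HT⟩ := tdata_of C1 C2 k b hC1 hC2 hk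
  obtain ⟨CB, rB, hCB, hrB, HB⟩ := goodJ_u C1 k b hC1 hk
  obtain ⟨C0, hC0⟩ : ∃ C0 : ℝ, C0 = CB + C1 := ⟨_, rfl⟩
  have hC01 : 1 ≤ C0 := by linarith
  obtain ⟨C3, r3, hC3, hr3, H3⟩ := goodJ_size C0 k b hC01 hk
  have hCT1 : 1 ≤ CT := hC1.trans hCT
  obtain ⟨rA, hrA, HA⟩ := asm_false shootStatement C1 C2 Cx (3 * CT) k b M hC1 hC2 hCx
    (by linarith) hk hb hM
  refine ⟨min (min (min rT rB) (min r3 rA)) (1 / (5 * CT ^ 2)), by positivity, ?_⟩
  intro r hr hr0 mu u U hmu1 hmu2 hu hU hO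
  simp only [lt_min_iff] at hr0
  obtain ⟨⟨⟨hT, hB⟩, h3, hA⟩, h5⟩ := hr0
  have hrC : 5 * CT ^ 2 * r ≤ 1 := by
    rw [lt_div_iff₀ (by positivity)] at h5
    linarith
  have hCT2 : 1 ≤ CT ^ 2 := one_le_pow₀ hCT1
  have hr1 : r ≤ 1 / 5 := by nlinarith
  have hW0 : 0 ≤ (Par.mk r k b).W1 := (pow_pos hr _).le
  have hW1 : (Par.mk r k b).W1 ≤ r := by
    have h : r ^ (9 * k) ≤ r ^ 1 := pow_le_pow_of_le_one hr.le (by linarith) (by omega)
    rwa [pow_one] at h
  have TD := HT r hr hT mu (2 * M) u U hmu1 hmu2 hu hU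
  -- the frozen coefficient is continuous
  have hmuT1 : 1 / CT ≤ mu := le_trans (one_div_le_one_div_of_le (by linarith) hCT) hmu1
  have hmuT2 : mu ≤ CT := hmu2.trans hCT
  have hGu0 := HB r hr hB mu u hu
  have hGu : GoodJ ⟨r, k, b⟩ C0 u (jetOf u) :=
    { jet := hGu0.jet
      hx := hGu0.hx
      hpp := hGu0.hpp
      hpy := hGu0.hpy
      hy := fun p hp y hy => (hGu0.hy p hp y hy).trans (by linarith)
      hyy := fun p hp y hy => (hGu0.hyy p hp y hy).trans (by linarith)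
      near := fun p hp y hy =>
        ⟨(hGu0.near p hp y hy).1.trans (mul_le_mul_of_nonneg_right (by linarith) hW0),
          (hGu0.near p hp y hy).2.trans (mul_le_mul_of_nonneg_right (by linarith) hW0)⟩ }
  have hmu1' : 1 / C0 ≤ mu := by
    refine le_trans ?_ hmu1
    exact one_div_le_one_div_of_le (by linarith) (by linarith)
  have hmu2' : mu ≤ C0 := by linarith
  have hcB : ∀ p ∈ Icc (-(7 / 5) : ℝ) (7 / 5), ∀ y ∈ Icc (-YY) YY,
      1 / 2 ≤ cB ⟨r, k, b⟩ (jetOf u) p y := by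
    intro p hp y hy
    have h := (H3 r hr h3 mu u _ hmu1' hmu2' hGu p hp y hy).2.2.1
    have h' := (abs_le.1 h).1
    linarith
  obtain ⟨-, -, -, c4, -⟩ := coefOf_cd (P := ⟨r, k, b⟩) hr (mu := mu) hGu.jet hcB
  have hcast : ContinuousOn (astT ⟨r, k, b⟩ mu u) (Icc (-YY) YY) := by
    have c5 : CR (-(7 / 5)) (7 / 5) (-YY) YY (coefOf ⟨r, k, b⟩ mu (jetOf u)).a := c4
    exact c5.inner (p := 0) (by constructor <;> norm_num)
  -- one good coefficient
  have hYY : YY = 41 / 20 := rfl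
  obtain ⟨κ0, hκ0, -⟩ := TD.weak 0 0 0 0 (by norm_num) le_rfl (by norm_num)
    (by rw [hYY]; norm_num) le_rfl (by rw [hYY]; norm_num) (fun _ _ => 0) continuousOn_const
  have hW3 : 3 * CT ^ 2 * (Par.mk r k b).W1 ≤ 1 := by
    have h1 : 3 * CT ^ 2 * (Par.mk r k b).W1 ≤ 3 * CT ^ 2 * r :=
      mul_le_mul_of_nonneg_left hW1 (by positivity)
    nlinarith
  have hFA : FAst ⟨r, k, b⟩ (3 * CT) (astT ⟨r, k, b⟩ mu u) :=
    fast_of hκ0 hr (by show r ≤ 1; linarith) hCT1 hmuT1 hmuT2 hW3 hW0 hcast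
  have hW75 : 3 * (Par.mk r k b).W1 ≤ 7 / 5 := by linarith
  refine HA r hr hA mu u U hmu1 hmu2 hu hU hO (astT ⟨r, k, b⟩ mu u) hFA ?_ ?_
  · have h1 := TD.jet
    have e : (14 / 10 : ℝ) = 7 / 5 := by norm_num
    rw [e]
    exact h1
  · intro φ hφ
    have hcd : -YY ≤ YY := by rw [hYY]; norm_num
    obtain ⟨κ, hκ, he⟩ := TD.weak (-(3 * (Par.mk r k b).W1)) (3 * (Par.mk r k b).W1) (-YY) YY
      (by linarith) (by linarith) hW75 le_rfl hcd le_rfl φ hφ
    exact ⟨κ.t, κ.tp, κ.ty, κ.a, κ.ap, κ.d, κ.g,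
      fcoef_of hκ hr hCT1 hW75 hW0, he⟩

end

end P229
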